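import Vale.Agent.P284Z.F0.Levi

/-!
# P284Y: calculus of the Levi form and the gluing lemma of Demailly
-/

open scoped Topology
open Filter Set Metric Real

noncomputable section

namespace Vale.Agent.P284Y.Lib

open Vale.Agent.P284Z

section d2
variable {W : Type} [NormedAddCommGroup W] [NormedSpace ℝ W] {u v : W → ℝ} {z : W}

theorem ev_diff (hu : ContDiffAt ℝ 2 u z) : ∀ᶠ y in 𝓝 z, DifferentiableAt ℝ u y :=
  (hu.eventually (by simp)).mono fun _ h => h.differentiableAt two_ne_zero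

theorem d2_congr (h : u =ᶠ[𝓝 z] v) : fderiv ℝ (fderiv ℝ u) z = fderiv ℝ (fderiv ℝ v) z :=
  h.fderiv.fderiv_eq

theorem d2_add (hu : ContDiffAt ℝ 2 u z) (hv : ContDiffAt ℝ 2 v z) :
    fderiv ℝ (fderiv ℝ fun y => u y + v y) z =
      fderiv ℝ (fderiv ℝ u) z + fderiv ℝ (fderiv ℝ v) z := by
  have e : (fderiv ℝ fun y => u y + v y) =ᶠ[𝓝 z] fun y => fderiv ℝ u y + fderiv ℝ v y :=
    ((ev_diff hu).and (ev_diff hv)).mono fun y h => fderiv_fun_add h.1 h.2
  rw [e.fderiv_eq, fderiv_fun_add (diff_fderiv hu) (diff_fderiv hv)]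

theorem d2_mul (hu : ContDiffAt ℝ 2 u z) (hv : ContDiffAt ℝ 2 v z) (w : W) :
    fderiv ℝ (fderiv ℝ fun y => u y * v y) z w w = u z * fderiv ℝ (fderiv ℝ v) z w w +
      2 * fderiv ℝ u z w * fderiv ℝ v z w + v z * fderiv ℝ (fderiv ℝ u) z w w := by
  have e : (fderiv ℝ fun y => u y * v y) =ᶠ[𝓝 z]
      fun y => u y • fderiv ℝ v y + v y • fderiv ℝ u y :=
    ((ev_diff hu).and (ev_diff hv)).mono fun y h => fderiv_fun_mul h.1 h.2
  have a := (((hu.differentiableAt two_ne_zero).hasFDerivAt.smul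
    (diff_fderiv hv).hasFDerivAt).add ((hv.differentiableAt two_ne_zero).hasFDerivAt.smul
    (diff_fderiv hu).hasFDerivAt)).fderiv
  rw [e.fderiv_eq]
  refine (congrArg (fun L => L w w) a).trans ?_
  simp
  ring

theorem d1_comp {χ : ℝ → ℝ} {a : ℝ} (hu : DifferentiableAt ℝ u z) (hχ : HasDerivAt χ a (u z)) :
    fderiv ℝ (fun y => χ (u y)) z = a • fderiv ℝ u z :=
  (hχ.comp_hasFDerivAt z hu.hasFDerivAt).fderiv

theorem d2_comp {χ χ' : ℝ → ℝ} {b : ℝ} (hu : ContDiffAt ℝ 2 u z)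
    (hχ : ∀ᶠ t in 𝓝 (u z), HasDerivAt χ (χ' t) t) (hχ' : HasDerivAt χ' b (u z)) (w : W) :
    fderiv ℝ (fderiv ℝ fun y => χ (u y)) z w w =
      χ' (u z) * fderiv ℝ (fderiv ℝ u) z w w + b * fderiv ℝ u z w ^ 2 := by
  have e : (fderiv ℝ fun y => χ (u y)) =ᶠ[𝓝 z] fun y => χ' (u y) • fderiv ℝ u y :=
    ((ev_diff hu).and (hu.continuousAt.eventually hχ)).mono fun y h => d1_comp h.1 h.2
  have a := ((hχ'.comp_hasFDerivAt z (hu.differentiableAt two_ne_zero).hasFDerivAt).smul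
    (diff_fderiv hu).hasFDerivAt).fderiv
  rw [e.fderiv_eq]
  refine (congrArg (fun L => L w w) a).trans ?_
  simp
  ring

theorem d2_sum {ι : Type} (s : Finset ι) {f : ι → W → ℝ} (h : ∀ i ∈ s, ContDiffAt ℝ 2 (f i) z) :
    fderiv ℝ (fderiv ℝ fun y => ∑ i ∈ s, f i y) z = ∑ i ∈ s, fderiv ℝ (fderiv ℝ (f i)) z := by
  have e : (fderiv ℝ fun y => ∑ i ∈ s, f i y) =ᶠ[𝓝 z] fun y => ∑ i ∈ s, fderiv ℝ (f i) y :=
    ((eventually_all_finset s).2 fun i hi => ev_diff (h i hi)).mono fun y hy =>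
      fderiv_fun_sum hy
  rw [e.fderiv_eq, fderiv_fun_sum fun i hi => diff_fderiv (h i hi)]

/-- the gluing inequality in one real direction -/
theorem d2_glue {ι : Type} (s : Finset ι) {θ b : ι → W → ℝ}
    (hθ : ∀ i ∈ s, ContDiffAt ℝ 2 (θ i) z) (hb : ∀ i ∈ s, ContDiffAt ℝ 2 (b i) z)
    (hS : 0 < ∑ i ∈ s, θ i z ^ 2 * exp (b i z)) (w : W) :
    (∑ i ∈ s, exp (b i z) * (2 * θ i z * fderiv ℝ (fderiv ℝ (θ i)) z w w -
      2 * fderiv ℝ (θ i) z w ^ 2 + θ i z ^ 2 * fderiv ℝ (fderiv ℝ (b i)) z w w)) /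
      (∑ i ∈ s, θ i z ^ 2 * exp (b i z)) ≤
    fderiv ℝ (fderiv ℝ fun y => log (∑ i ∈ s, θ i y ^ 2 * exp (b i y))) z w w := by
  have hT : ∀ i ∈ s, ContDiffAt ℝ 2 (fun y => θ i y ^ 2 * exp (b i y)) z := fun i hi =>
    ((hθ i hi).pow 2).mul (hb i hi).exp
  have hsq : ∀ t : ℝ, HasDerivAt (fun t : ℝ => t ^ 2) (2 * t) t := fun t => by
    simpa using hasDerivAt_pow 2 t
  have h1 : fderiv ℝ (fun y => ∑ i ∈ s, θ i y ^ 2 * exp (b i y)) z w = ∑ i ∈ s,
      (θ i z * exp (b i z / 2)) *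
        (exp (b i z / 2) * (2 * fderiv ℝ (θ i) z w + θ i z * fderiv ℝ (b i) z w)) := by
    rw [fderiv_fun_sum fun i hi => (hT i hi).differentiableAt two_ne_zero,
      sum_apply]
    refine Finset.sum_congr rfl fun i hi => ?_
    have a := (hθ i hi).differentiableAt two_ne_zero
    have c := (hb i hi).differentiableAt two_ne_zero
    rw [fderiv_fun_mul (a.fun_pow 2) c.exp, d1_comp a (hsq _), d1_comp c (hasDerivAt_exp _)]
    have : exp (b i z) = exp (b i z / 2) * exp (b i z / 2) := by rw [← exp_add, add_halves]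
    simp only [add_apply, smul_apply, smul_eq_mul]
    rw [this]
    ring
  have h2 : fderiv ℝ (fderiv ℝ fun y => ∑ i ∈ s, θ i y ^ 2 * exp (b i y)) z w w = ∑ i ∈ s,
      (exp (b i z) * (2 * θ i z * fderiv ℝ (fderiv ℝ (θ i)) z w w -
        2 * fderiv ℝ (θ i) z w ^ 2 + θ i z ^ 2 * fderiv ℝ (fderiv ℝ (b i)) z w w) +
      (exp (b i z / 2) * (2 * fderiv ℝ (θ i) z w + θ i z * fderiv ℝ (b i) z w)) ^ 2) := by
    rw [d2_sum s hT, sum_apply, sum_apply]
    refine Finset.sum_congr rfl fun i hi => ?_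
    have a := (hθ i hi).differentiableAt two_ne_zero
    have c := (hb i hi).differentiableAt two_ne_zero
    have h2t : HasDerivAt (fun t : ℝ => 2 * t) 2 (θ i z) := by
      simpa using (hasDerivAt_id (θ i z)).const_mul 2
    rw [d2_mul ((hθ i hi).pow 2) (hb i hi).exp, d1_comp a (hsq _), d1_comp c (hasDerivAt_exp _),
      d2_comp (hθ i hi) (Eventually.of_forall hsq) h2t,
      d2_comp (hb i hi) (Eventually.of_forall hasDerivAt_exp) (hasDerivAt_exp _)]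
    have : exp (b i z) = exp (b i z / 2) * exp (b i z / 2) := by rw [← exp_add, add_halves]
    simp only [smul_apply, smul_eq_mul]
    rw [this]
    ring
  have h3 : ∑ i ∈ s, (θ i z * exp (b i z / 2)) ^ 2 = ∑ i ∈ s, θ i z ^ 2 * exp (b i z) :=
    Finset.sum_congr rfl fun i _ => by rw [mul_pow, sq (exp _), ← exp_add, add_halves]
  have cs := Finset.sum_mul_sq_le_sq_mul_sq s (fun i => θ i z * exp (b i z / 2))
    fun i => exp (b i z / 2) * (2 * fderiv ℝ (θ i) z w + θ i z * fderiv ℝ (b i) z w)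
  rw [d2_comp (χ' := fun t => t⁻¹) (ContDiffAt.sum hT)
    ((eventually_ne_nhds hS.ne').mono fun t ht => hasDerivAt_log ht) (hasDerivAt_inv hS.ne'),
    h1, h2, Finset.sum_add_distrib]
  rw [h3] at cs
  set S := ∑ i ∈ s, θ i z ^ 2 * exp (b i z)
  set A := ∑ i ∈ s, exp (b i z) * (2 * θ i z * fderiv ℝ (fderiv ℝ (θ i)) z w w -
      2 * fderiv ℝ (θ i) z w ^ 2 + θ i z ^ 2 * fderiv ℝ (fderiv ℝ (b i)) z w w)
  set B := ∑ i ∈ s,
    (exp (b i z / 2) * (2 * fderiv ℝ (θ i) z w + θ i z * fderiv ℝ (b i) z w)) ^ 2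
  set D := ∑ i ∈ s, (θ i z * exp (b i z / 2)) *
    (exp (b i z / 2) * (2 * fderiv ℝ (θ i) z w + θ i z * fderiv ℝ (b i) z w))
  have : S⁻¹ * (A + B) + -(S ^ 2)⁻¹ * D ^ 2 = A / S + (S * B - D ^ 2) / S ^ 2 := by
    field_simp
    ring
  rw [this]
  exact le_add_of_nonneg_right (div_nonneg (sub_nonneg.2 cs) (sq_nonneg _))

end d2

variable {W : Type} [NormedAddCommGroup W] [NormedSpace ℝ W] [NormedSpace ℂ W]
  {u v : W → ℝ} {z w : W}

/-- the squared gradient on the complex line of `w`; four times `|∂ u (w)| ^ 2` -/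
def gsq (u : W → ℝ) (z w : W) : ℝ := fderiv ℝ u z w ^ 2 + fderiv ℝ u z (Complex.I • w) ^ 2

theorem gsq_nonneg : 0 ≤ gsq u z w := add_nonneg (sq_nonneg _) (sq_nonneg _)

theorem levi_congr (h : u =ᶠ[𝓝 z] v) : levi u z w = levi v z w := by
  rw [levi, levi, d2_congr h]

theorem gsq_congr (h : u =ᶠ[𝓝 z] v) : gsq u z w = gsq v z w := by rw [gsq, gsq, h.fderiv_eq]

theorem levi_add (hu : ContDiffAt ℝ 2 u z) (hv : ContDiffAt ℝ 2 v z) :
    levi (fun y => u y + v y) z w = levi u z w + levi v z w := by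
  simp only [levi, d2_add hu hv, add_apply]
  ring

theorem levi_sum {ι : Type} (s : Finset ι) {f : ι → W → ℝ} (h : ∀ i ∈ s, ContDiffAt ℝ 2 (f i) z) :
    levi (fun y => ∑ i ∈ s, f i y) z w = ∑ i ∈ s, levi (f i) z w := by
  simp only [levi, d2_sum s h, sum_apply, Finset.sum_add_distrib]

theorem levi_comp {χ χ' : ℝ → ℝ} {b : ℝ} (hu : ContDiffAt ℝ 2 u z)
    (hχ : ∀ᶠ t in 𝓝 (u z), HasDerivAt χ (χ' t) t) (hχ' : HasDerivAt χ' b (u z)) :
    levi (fun y => χ (u y)) z w = χ' (u z) * levi u z w + b * gsq u z w := by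
  simp only [levi, gsq, d2_comp hu hχ hχ']
  ring

theorem levi_const_mul (hu : ContDiffAt ℝ 2 u z) (c : ℝ) :
    levi (fun y => c * u y) z w = c * levi u z w := by
  have := levi_comp (w := w) (χ := fun t => c * t) (χ' := fun _ => c) hu
    (Eventually.of_forall fun t => by simpa using (hasDerivAt_id t).const_mul c)
    (hasDerivAt_const _ _)
  simpa using this

theorem levi_const (c : ℝ) : levi (fun _ => c) z w = 0 := by simp [levi]

theorem levi_sub (hu : ContDiffAt ℝ 2 u z) (hv : ContDiffAt ℝ 2 v z) :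
    levi (fun y => u y - v y) z w = levi u z w - levi v z w := by
  have := levi_add (w := w) hu (contDiffAt_const (c := (-1 : ℝ)).mul hv)
  rw [levi_const_mul hv] at this
  simpa [sub_eq_add_neg] using this

theorem levi_mul (hu : ContDiffAt ℝ 2 u z) (hv : ContDiffAt ℝ 2 v z) :
    levi (fun y => u y * v y) z w = u z * levi v z w + v z * levi u z w +
      2 * (fderiv ℝ u z w * fderiv ℝ v z w +
        fderiv ℝ u z (Complex.I • w) * fderiv ℝ v z (Complex.I • w)) := by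
  simp only [levi, d2_mul hu hv]
  ring

/-- the gluing inequality, exact form -/
theorem levi_glue' {ι : Type} (s : Finset ι) {θ b : ι → W → ℝ}
    (hθ : ∀ i ∈ s, ContDiffAt ℝ 2 (θ i) z) (hb : ∀ i ∈ s, ContDiffAt ℝ 2 (b i) z)
    (hS : 0 < ∑ i ∈ s, θ i z ^ 2 * exp (b i z)) :
    (∑ i ∈ s, exp (b i z) * (2 * θ i z * levi (θ i) z w - 2 * gsq (θ i) z w +
      θ i z ^ 2 * levi (b i) z w)) / (∑ i ∈ s, θ i z ^ 2 * exp (b i z)) ≤
    levi (fun y => log (∑ i ∈ s, θ i y ^ 2 * exp (b i y))) z w := by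
  refine le_of_eq_of_le ?_ (add_le_add (d2_glue s hθ hb hS w) (d2_glue s hθ hb hS (Complex.I • w)))
  rw [← add_div, ← Finset.sum_add_distrib]
  refine congrArg (· / _) (Finset.sum_congr rfl fun i _ => ?_)
  rw [levi, levi, gsq]
  ring

theorem glue_pos {ι : Type} (s : Finset ι) {θ b : ι → ℝ} {c : ℝ} (hc : 0 < c)
    (hc' : c ≤ ∑ i ∈ s, θ i ^ 2) : 0 < ∑ i ∈ s, θ i ^ 2 * exp (b i) := by
  obtain ⟨i, hi, h⟩ : ∃ i ∈ s, θ i ^ 2 ≠ 0 :=
    Finset.exists_ne_zero_of_sum_ne_zero (hc.trans_le hc').ne'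
  exact Finset.sum_pos' (fun j _ => by positivity)
    ⟨i, hi, mul_pos (lt_of_le_of_ne (sq_nonneg _) h.symm) (exp_pos _)⟩

omit [NormedSpace ℂ W] in
theorem glue_smooth {ι : Type} (s : Finset ι) {θ f : ι → W → ℝ} {g c : ℝ} {k : WithTop ℕ∞}
    (hθ : ∀ i ∈ s, ContDiffAt ℝ k (θ i) z) (hf : ∀ i ∈ s, ContDiffAt ℝ k (f i) z) (hc : 0 < c)
    (hc' : c ≤ ∑ i ∈ s, θ i z ^ 2) :
    ContDiffAt ℝ k (fun y => g * log (∑ i ∈ s, θ i y ^ 2 * exp (f i y / g))) z :=
  contDiffAt_const.mul ((ContDiffAt.sum fun i hi =>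
    ((hθ i hi).pow 2).mul ((hf i hi).div_const g).exp).log (glue_pos s hc hc').ne')

/-- the glued function lies between the pieces, up to `g log` of the sum of the squares -/
theorem glue_bounds {ι : Type} (s : Finset ι) {θ f : ι → ℝ} {g c lo hi : ℝ} (hg : 0 < g)
    (hc : 0 < c) (hc' : c ≤ ∑ i ∈ s, θ i ^ 2) (h : ∀ i ∈ s, θ i ≠ 0 → lo ≤ f i ∧ f i ≤ hi) :
    lo + g * log (∑ i ∈ s, θ i ^ 2) ≤ g * log (∑ i ∈ s, θ i ^ 2 * exp (f i / g)) ∧
      g * log (∑ i ∈ s, θ i ^ 2 * exp (f i / g)) ≤ hi + g * log (∑ i ∈ s, θ i ^ 2) := by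
  have hT := hc.trans_le hc'
  have e : ∀ t : ℝ, t + g * log (∑ i ∈ s, θ i ^ 2) =
      g * log (∑ i ∈ s, θ i ^ 2 * exp (t / g)) := fun t => by
    rw [← Finset.sum_mul, log_mul hT.ne' (exp_pos _).ne', log_exp]
    field_simp
    ring
  rw [e, e]
  refine ⟨mul_le_mul_of_nonneg_left (log_le_log (glue_pos s hc hc')
    (Finset.sum_le_sum fun i hi => ?_)) hg.le, mul_le_mul_of_nonneg_left
    (log_le_log (glue_pos s hc hc') (Finset.sum_le_sum fun i hi => ?_)) hg.le⟩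
  · by_cases h0 : θ i = 0
    · simp [h0]
    · have := (h i hi h0).1
      gcongr
  · by_cases h0 : θ i = 0
    · simp [h0]
    · have := (h i hi h0).2
      gcongr

/-- the gluing lemma: pieces `f i` with Levi form at least `-e` which differ by at most `g` -/
theorem levi_glue {ι : Type} (s : Finset ι) {θ f : ι → W → ℝ} {g c e K : ℝ} (hg : 0 < g)
    (hθ : ∀ i ∈ s, ContDiffAt ℝ 2 (θ i) z) (hf : ∀ i ∈ s, ContDiffAt ℝ 2 (f i) z)
    (hgap : ∀ i ∈ s, ∀ j ∈ s, f i z ≤ f j z + g) (hc : 0 < c) (hc' : c ≤ ∑ i ∈ s, θ i z ^ 2)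
    (he : ∀ i ∈ s, -e ≤ levi (f i) z w)
    (hK : ∑ i ∈ s, (gsq (θ i) z w + |θ i z * levi (θ i) z w|) ≤ K) :
    -(e + 2 * exp 1 / c * K * g) ≤
      levi (fun y => g * log (∑ i ∈ s, θ i y ^ 2 * exp (f i y / g))) z w := by
  have hb : ∀ i ∈ s, ContDiffAt ℝ 2 (fun y => f i y / g) z := fun i hi => (hf i hi).div_const g
  have hS : 0 < ∑ i ∈ s, θ i z ^ 2 * exp (f i z / g) := glue_pos s hc hc'
  rw [levi_const_mul ((ContDiffAt.sum fun i hi => ((hθ i hi).pow 2).mul (hb i hi).exp).log hS.ne')]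
  refine le_trans ?_ (mul_le_mul_of_nonneg_left (levi_glue' (w := w) s hθ hb hS) hg.le)
  set S := ∑ i ∈ s, θ i z ^ 2 * exp (f i z / g) with hSd
  have h1 : ∀ i ∈ s, exp (f i z / g) ≤ exp 1 / c * S := fun i hi => by
    rw [div_mul_eq_mul_div, le_div_iff₀ hc]
    calc exp (f i z / g) * c ≤ exp (f i z / g) * ∑ j ∈ s, θ j z ^ 2 := by gcongr
      _ ≤ exp 1 * S := by
        rw [hSd, Finset.mul_sum, Finset.mul_sum]
        refine Finset.sum_le_sum fun j hj => ?_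
        rw [mul_left_comm, ← exp_add, mul_comm]
        gcongr
        rw [div_le_iff₀ hg, add_mul, div_mul_cancel₀ _ hg.ne']
        linarith [hgap i hi j hj]
  have h2 : ∀ i ∈ s, -(e / g) * (θ i z ^ 2 * exp (f i z / g)) -
      2 * (exp 1 / c * S) * (gsq (θ i) z w + |θ i z * levi (θ i) z w|) ≤
      exp (f i z / g) * (2 * θ i z * levi (θ i) z w - 2 * gsq (θ i) z w +
        θ i z ^ 2 * levi (fun y => f i y / g) z w) := fun i hi => by
    have a : levi (fun y => f i y / g) z w = g⁻¹ * levi (f i) z w := by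
      rw [← levi_const_mul (hf i hi)]
      simp only [div_eq_inv_mul]
    have b : -(e / g) ≤ g⁻¹ * levi (f i) z w := by
      rw [← neg_div, div_eq_inv_mul]
      exact mul_le_mul_of_nonneg_left (he i hi) (inv_pos.2 hg).le
    have c1 := mul_le_mul_of_nonneg_right b
      (mul_nonneg (sq_nonneg (θ i z)) (exp_pos (f i z / g)).le)
    have c2 := mul_le_mul_of_nonneg_right (h1 i hi)
      (add_nonneg (gsq_nonneg (u := θ i) (z := z) (w := w)) (abs_nonneg (θ i z * levi (θ i) z w)))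
    have c3 := mul_le_mul_of_nonneg_left (neg_abs_le (θ i z * levi (θ i) z w))
      (exp_pos (f i z / g)).le
    rw [a]
    linarith
  have h3 := Finset.sum_le_sum h2
  rw [Finset.sum_sub_distrib, ← Finset.mul_sum, ← Finset.mul_sum, ← hSd] at h3
  have h4 := mul_le_mul_of_nonneg_left hK (show 0 ≤ 2 * (exp 1 / c * S) by positivity)
  have h5 : (-(e / g) * S - 2 * (exp 1 / c * S) * K) / S ≤ _ :=
    div_le_div_of_nonneg_right ((sub_le_sub_left h4 _).trans h3) hS.le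
  refine le_of_eq_of_le ?_ (mul_le_mul_of_nonneg_left h5 hg.le)
  field_simp
  ring

end Vale.Agent.P284Y.Lib
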