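import Vale.Agent.P284Z.F0.Ball
import Mathlib.Analysis.Fourier.AddCircle
import Mathlib.Topology.PartitionOfUnity
import Mathlib.Analysis.Complex.AbsMax

/-!
# P284Y: the minimum principle of Kiselman
-/

open scoped Topology
open Filter Set Metric MeasureTheory Real

noncomputable section

namespace Vale.Agent.P284Y.Lib

open Vale.Agent.P284Z

/-- a continuous real function on the unit circle is a uniform limit of real parts of entire
functions -/
theorem exists_entire_re {σ : ℂ → ℝ} (hσ : ContinuousOn σ (sphere 0 1)) {δ : ℝ} (hδ : 0 < δ) :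
    ∃ g : ℂ → ℂ, Differentiable ℂ g ∧ ∀ ζ ∈ sphere (0 : ℂ) 1, |(g ζ).re - σ ζ| < δ := by
  have : Fact (0 < 2 * π) := ⟨two_pi_pos⟩
  have hmem : ∀ θ : AddCircle (2 * π), (AddCircle.toCircle θ : ℂ) ∈ sphere (0 : ℂ) 1 :=
    fun θ => mem_sphere_zero_iff_norm.2 (Circle.norm_coe _)
  set v : C(AddCircle (2 * π), ℂ) := ⟨fun θ => ((σ (AddCircle.toCircle θ : ℂ) : ℝ) : ℂ), by
    refine Complex.continuous_ofReal.comp (hσ.comp_continuous ?_ hmem)
    have := AddCircle.continuous_toCircle (T := 2 * π)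
    fun_prop⟩ with hv
  have hvcl : v ∈ (Submodule.span ℂ (range (@fourier (2 * π)))).topologicalClosure := by
    rw [span_fourier_closure_eq_top]
    trivial
  rw [← SetLike.mem_coe, Submodule.topologicalClosure_coe, Metric.mem_closure_iff] at hvcl
  obtain ⟨p, hp, hpd⟩ := hvcl δ hδ
  have key : ∀ c : ℂ, ∃ g : ℂ → ℂ, Differentiable ℂ g ∧
      ∀ θ, (g (AddCircle.toCircle θ : ℂ)).re = (c * p θ).re := by
    refine Submodule.span_induction (p := fun p _ => ∀ c : ℂ, ∃ g : ℂ → ℂ, Differentiable ℂ g ∧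
      ∀ θ, (g (AddCircle.toCircle θ : ℂ)).re = (c * p θ).re) ?_ ?_ ?_ ?_ hp
    · rintro _ ⟨n, rfl⟩ c
      have hf : ∀ (k : ℕ) (θ : AddCircle (2 * π)),
          fourier (k : ℤ) θ = (AddCircle.toCircle θ : ℂ) ^ k := fun k θ => by
        rw [fourier_apply, natCast_zsmul, AddCircle.toCircle_nsmul, Circle.coe_pow]
      obtain ⟨k, rfl | rfl⟩ := n.eq_nat_or_neg
      · exact ⟨fun z => c * z ^ k, by fun_prop, fun θ => by rw [hf]⟩
      · refine ⟨fun z => (starRingEnd ℂ) c * z ^ k, by fun_prop, fun θ => ?_⟩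
        rw [fourier_neg, hf, ← Complex.conj_re, map_mul, Complex.conj_conj]
    · exact fun c => ⟨fun _ => 0, by fun_prop, fun θ => by simp⟩
    · intro a b _ _ ha hb c
      obtain ⟨g, hg, e⟩ := ha c
      obtain ⟨g', hg', e'⟩ := hb c
      exact ⟨fun z => g z + g' z, hg.add hg', fun θ => by
        rw [Complex.add_re, e, e', ContinuousMap.add_apply, mul_add, Complex.add_re]⟩
    · intro a x _ hx c
      obtain ⟨g, hg, e⟩ := hx (c * a)
      exact ⟨g, hg, fun θ => by rw [e, ContinuousMap.smul_apply, smul_eq_mul, mul_assoc]⟩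
  obtain ⟨g, hg, e⟩ := key 1
  refine ⟨g, hg, fun ζ hζ => ?_⟩
  obtain ⟨θ, rfl⟩ : ∃ θ : AddCircle (2 * π), (AddCircle.toCircle θ : ℂ) = ζ := by
    refine ⟨(ζ.arg : ℝ), ?_⟩
    rw [AddCircle.toCircle_apply_mk, Circle.coe_exp]
    have h3 := Complex.norm_mul_exp_arg_mul_I ζ
    rw [mem_sphere_zero_iff_norm.1 hζ, Complex.ofReal_one, one_mul] at h3
    rw [div_self two_pi_pos.ne', one_mul, h3]
  have e2 : ‖p θ - v θ‖ < δ := by
    rw [← dist_eq_norm, dist_comm]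
    exact lt_of_le_of_lt (ContinuousMap.dist_apply_le_dist θ) hpd
  refine lt_of_le_of_lt (le_of_eq_of_le ?_ (Complex.abs_re_le_norm _)) e2
  rw [e, one_mul, Complex.sub_re]
  rfl

/-- the real part of an entire function is bounded by its values on the circle -/
theorem re_le_of_sphere {g : ℂ → ℂ} (hg : Differentiable ℂ g) {b : ℝ}
    (h : ∀ ζ ∈ sphere (0 : ℂ) 1, (g ζ).re ≤ b) {ζ : ℂ} (hζ : ‖ζ‖ ≤ 1) : (g ζ).re ≤ b := by
  have h1 : ‖Complex.exp (g ζ)‖ ≤ exp b := by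
    refine Complex.norm_le_of_forall_mem_frontier_norm_le (U := ball (0 : ℂ) 1)
      (f := fun z => Complex.exp (g z)) isBounded_ball hg.cexp.diffContOnCl (fun z hz => ?_) ?_
    · rw [frontier_ball _ one_ne_zero] at hz
      rw [Complex.norm_exp]
      exact exp_le_exp.2 (h z hz)
    · rw [closure_ball _ one_ne_zero]
      exact mem_closedBall_zero_iff.2 hζ
  rwa [Complex.norm_exp, exp_le_exp] at h1

theorem re_mem_of_sphere {g : ℂ → ℂ} (hg : Differentiable ℂ g) {I : Set ℝ} (hI : I.OrdConnected)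
    (h : ∀ ζ ∈ sphere (0 : ℂ) 1, (g ζ).re ∈ I) {ζ : ℂ} (hζ : ‖ζ‖ ≤ 1) : (g ζ).re ∈ I := by
  have hc : ContinuousOn (fun z => (g z).re) (sphere (0 : ℂ) 1) :=
    (Complex.continuous_re.comp hg.continuous).continuousOn
  have hne : (sphere (0 : ℂ) 1).Nonempty := ⟨1, by simp⟩
  obtain ⟨a, ha, ha'⟩ := (isCompact_sphere (0 : ℂ) 1).exists_isMinOn hne hc
  obtain ⟨b, hb, hb'⟩ := (isCompact_sphere (0 : ℂ) 1).exists_isMaxOn hne hc
  refine hI.out (h a ha) (h b hb) ⟨?_, re_le_of_sphere hg (fun z hz => hb' hz) hζ⟩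
  have h1 := re_le_of_sphere (g := fun z => -g z) hg.neg (b := -(g a).re)
    (fun z hz => by rw [Complex.neg_re]; exact neg_le_neg (ha' hz)) hζ
  rw [Complex.neg_re] at h1
  linarith

/-- a subharmonic function of the real part has no interior strict maximum -/
theorem quasiconvex {f : ℝ → ℝ} {I : Set ℝ} (hI : I.OrdConnected)
    (h : Psh (fun t : ℂ => f t.re) {t | t.re ∈ I}) (hb : LB (fun t : ℂ => f t.re) {t | t.re ∈ I})
    {a b s r : ℝ} (ha : a ∈ I) (hb' : b ∈ I) (hs : s ∈ Icc a b) (h1 : f a < r) (h2 : f b < r) :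
    f s < r := by
  by_contra hn
  have hsub : Icc a b ⊆ I := hI.out ha hb'
  have hu : UpperSemicontinuousOn f (Icc a b) := by
    have : UpperSemicontinuousOn ((fun t : ℂ => f t.re) ∘ fun x : ℝ => (x : ℂ)) (Icc a b) :=
      h.1.comp Complex.continuous_ofReal.continuousOn fun x hx => hsub hx
    simpa only [Function.comp_def, Complex.ofReal_re] using this
  obtain ⟨m, hm, hm'⟩ := hu.exists_isMaxOn ⟨s, hs⟩ isCompact_Icc
  have hr : r ≤ f m := (not_lt.1 hn).trans (hm' hs)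
  have hma : a < m := lt_of_le_of_ne hm.1 fun e => by rw [← e] at hr; linarith
  have hmb : m < b := lt_of_le_of_ne hm.2 fun e => by rw [e] at hr; linarith
  have hO : {t : ℂ | t.re ∈ Ioo a b} ⊆ {t | t.re ∈ I} := fun t ht => hsub (Ioo_subset_Icc_self ht)
  have hc : Convex ℝ {t : ℂ | t.re ∈ Ioo a b} := (convex_Ioo a b).linear_preimage Complex.reLm
  have h3 := (h.mono hO).eq_of_max (hb.mono hO) (isOpen_Ioo.preimage Complex.continuous_re)
    hc.isPreconnected (z := (m : ℂ)) ⟨hma, hmb⟩ fun y hy => hm' (Ioo_subset_Icc_self hy)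
  have h4 : ∀ᶠ x in 𝓝[Ioo a b] a, f x < r :=
    (hu a ⟨le_rfl, hm.1.trans hm.2⟩ r h1).filter_mono (nhdsWithin_mono _ Ioo_subset_Icc_self)
  have : (𝓝[Ioo a b] a).NeBot := left_nhdsWithin_Ioo_neBot (hma.trans hmb)
  obtain ⟨x, hx, hx'⟩ := (h4.and eventually_mem_nhdsWithin).exists
  have h5 : f x = f m := h3 (x : ℂ) hx'
  linarith

variable {W : Type} [NormedAddCommGroup W] [NormedSpace ℂ W] [FiniteDimensional ℂ W]
  {u : W → ℝ → ℝ} {U : Set W} {I : Set ℝ}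

omit [FiniteDimensional ℂ W] in
/-- the selection step: a holomorphic disc whose boundary almost realises the infimum -/
theorem select (hU : IsOpen U) (hI : IsOpen I) (hI' : I.OrdConnected) (hne : I.Nonempty)
    (h : Psh (fun q : W × ℂ => u q.1 q.2.re) (U ×ˢ {t | t.re ∈ I}))
    (hb : LB (fun q : W × ℂ => u q.1 q.2.re) (U ×ˢ {t | t.re ∈ I}))
    {γ : ℂ → W} (hγ : Continuous γ) (hm : ∀ ζ ∈ sphere (0 : ℂ) 1, γ ζ ∈ U) {δ : ℝ} (hδ : 0 < δ) :
    ∃ g : ℂ → ℂ, Differentiable ℂ g ∧ ∀ ζ ∈ sphere (0 : ℂ) 1, (g ζ).re ∈ I ∧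
      ∃ η ∈ sphere (0 : ℂ) 1, dist η ζ < 2 * δ ∧
        u (γ ζ) (g ζ).re < sInf (u (γ η) '' I) + δ := by
  have hO : IsOpen (U ×ˢ {t : ℂ | t.re ∈ I}) := hU.prod (hI.preimage Complex.continuous_re)
  have husc : ∀ ζ ∈ sphere (0 : ℂ) 1, ∀ s ∈ I, ∀ r, u (γ ζ) s < r →
      ∀ᶠ q : ℂ × ℝ in 𝓝 (ζ, s), u (γ q.1) q.2 < r := by
    intro ζ hζ s hs r hr
    have hq : ((γ ζ, (s : ℂ)) : W × ℂ) ∈ U ×ˢ {t : ℂ | t.re ∈ I} := ⟨hm ζ hζ, hs⟩
    have h1 := h.1 _ hq r hr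
    rw [nhdsWithin_eq_nhds.2 (hO.mem_nhds hq)] at h1
    have h2 : Continuous fun q : ℂ × ℝ => ((γ q.1, (q.2 : ℂ)) : W × ℂ) := by fun_prop
    simpa only [Complex.ofReal_re] using (h2.tendsto (ζ, s)).eventually h1
  set S := sphere (0 : ℂ) 1 with hS
  set t : S → Set ℝ := fun ζ => {s ∈ I | ∃ η ∈ S, dist η ζ < δ ∧
    u (γ ζ) s < sInf (u (γ η) '' I) + δ} with ht
  have hconv : ∀ ζ, Convex ℝ (t ζ) := by
    intro ζ
    rw [convex_iff_ordConnected]
    refine ⟨fun a ha b hb' s hs => ⟨hI'.out ha.1 hb'.1 hs, ?_⟩⟩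
    obtain ⟨η, hη, d1, e1⟩ := ha.2
    obtain ⟨η', hη', d2, e2⟩ := hb'.2
    have hsub : {t : ℂ | t.re ∈ I} ⊆ {x : ℂ | ((γ ζ, 0) : W × ℂ) +
        ContinuousLinearMap.inr ℂ W ℂ x ∈ U ×ˢ {t : ℂ | t.re ∈ I}} := fun x hx => by
      simpa using ⟨hm ζ ζ.2, hx⟩
    have p1 : Psh (fun x : ℂ => u (γ ζ) x.re) {t | t.re ∈ I} := by
      simpa using (h.affine (γ ζ, 0) (ContinuousLinearMap.inr ℂ W ℂ)).mono hsub
    have p2 : LB (fun x : ℂ => u (γ ζ) x.re) {t | t.re ∈ I} :=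
      hb.comp (g := fun x : ℂ => ((γ ζ, x) : W × ℂ)) (by fun_prop) fun x hx => ⟨hm ζ ζ.2, hx⟩
    rcases le_total (sInf (u (γ η) '' I)) (sInf (u (γ η') '' I)) with hle | hle
    · exact ⟨η', hη', d2, quasiconvex hI' p1 p2 ha.1 hb'.1 hs (by linarith) e2⟩
    · exact ⟨η, hη, d1, quasiconvex hI' p1 p2 ha.1 hb'.1 hs e1 (by linarith)⟩
  have hloc : ∀ x : S, ∃ c : ℝ, ∀ᶠ y in 𝓝 x, c ∈ t y := by
    intro x
    obtain ⟨_, ⟨c, hc, rfl⟩, hc'⟩ := exists_lt_of_csInf_lt (hne.image (u (γ x)))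
      (lt_add_of_pos_right _ hδ)
    refine ⟨c, ?_⟩
    have h2 : Continuous fun y : S => ((y : ℂ), c) := by fun_prop
    filter_upwards [(h2.tendsto x).eventually (husc x x.2 c hc _ hc'), ball_mem_nhds x hδ]
      with y hy hy'
    exact ⟨hc, x, x.2, by rw [dist_comm]; exact hy', hy⟩
  obtain ⟨σ, hσ⟩ := exists_continuous_forall_mem_convex_of_local_const hconv hloc
  -- a uniform margin
  have hmar : ∃ ε > 0, ∀ y : S, ∀ s, |s - σ y| < ε → s ∈ I ∧ ∃ η ∈ S, dist η y < 2 * δ ∧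
      u (γ y) s < sInf (u (γ η) '' I) + δ := by
    have h1 : ∀ x ∈ (univ : Set S), ∀ᶠ q : ℝ × S in 𝓝 (0, x), q.1 + σ q.2 ∈ I ∧
        ∃ η ∈ S, dist η q.2 < 2 * δ ∧ u (γ q.2) (q.1 + σ q.2) < sInf (u (γ η) '' I) + δ := by
      intro x _
      obtain ⟨hx, η, hη, d1, e1⟩ := hσ x
      have h2 : Continuous fun q : ℝ × S => ((q.2 : ℂ), q.1 + σ q.2) := by fun_prop
      have h3 : Tendsto (fun q : ℝ × S => ((q.2 : ℂ), q.1 + σ q.2)) (𝓝 (0, x)) (𝓝 (x, σ x)) := by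
        simpa using h2.tendsto (0, x)
      have h4 : ∀ᶠ q : ℂ × ℝ in 𝓝 ((x : ℂ), σ x), q.2 ∈ I ∧ dist η q.1 < 2 * δ :=
        (continuous_snd.continuousAt.eventually (hI.mem_nhds hx)).and
          (ContinuousAt.eventually_lt (f := fun q : ℂ × ℝ => dist η q.1) (by fun_prop)
            continuousAt_const (by change dist η (x : ℂ) < 2 * δ; linarith))
      filter_upwards [h3.eventually (husc x x.2 _ hx _ e1), h3.eventually h4] with q hq hq'
      exact ⟨hq'.1, η, hη, hq'.2, hq⟩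
    obtain ⟨ε, hε, h5⟩ := Metric.eventually_nhds_iff.1
      (isCompact_univ.eventually_forall_of_forall_eventually
        (P := fun (a : ℝ) (y : S) => a + σ y ∈ I ∧ ∃ η ∈ S, dist η y < 2 * δ ∧
          u (γ y) (a + σ y) < sInf (u (γ η) '' I) + δ) h1)
    refine ⟨ε, hε, fun y s hs => ?_⟩
    have h6 := h5 (y := s - σ y) (by rwa [Real.dist_eq, sub_zero]) y (mem_univ y)
    simpa only [sub_add_cancel] using h6
  obtain ⟨ε, hε, hmar⟩ := hmar
  classical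
  obtain ⟨g, hg, hg'⟩ := exists_entire_re (σ := fun z => if hz : z ∈ S then σ ⟨z, hz⟩ else 0)
    (by
      rw [continuousOn_iff_continuous_domRestrict]
      refine σ.continuous.congr fun y => ?_
      simp only [domRestrict_apply, dif_pos y.2]) hε
  refine ⟨g, hg, fun ζ hζ => hmar ⟨ζ, hζ⟩ _ ?_⟩
  simpa only [dif_pos hζ] using hg' ζ hζ

/-- **Kiselman's minimum principle**, for functions that are locally bounded below -/
theorem kiselman (hU : IsOpen U) (hI : IsOpen I) (hI' : I.OrdConnected) (hne : I.Nonempty)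
    (h : Psh (fun q : W × ℂ => u q.1 q.2.re) (U ×ˢ {t | t.re ∈ I}))
    (hb : ∀ z ∈ U, ∃ c, ∀ᶠ z' in 𝓝[U] z, ∀ s ∈ I, c ≤ u z' s) :
    Psh (fun z => sInf (u z '' I)) U ∧ LB (fun z => sInf (u z '' I)) U := by
  have hO : IsOpen (U ×ˢ {t : ℂ | t.re ∈ I}) := hU.prod (hI.preimage Complex.continuous_re)
  have hbd : ∀ z ∈ U, BddBelow (u z '' I) := fun z hz => by
    obtain ⟨c, hc⟩ := hb z hz
    exact ⟨c, by rintro _ ⟨s, hs, rfl⟩; exact hc.self_of_nhdsWithin hz s hs⟩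
  have hlb : LB (fun z => sInf (u z '' I)) U := fun z hz => (hb z hz).imp fun c hc =>
    hc.mono fun z' hz' => le_csInf (hne.image _) (by rintro _ ⟨s, hs, rfl⟩; exact hz' s hs)
  have hb2 : LB (fun q : W × ℂ => u q.1 q.2.re) (U ×ˢ {t | t.re ∈ I}) := fun q hq =>
    (hb q.1 hq.1).imp fun c hc => by
      have h1 : Tendsto (fun p : W × ℂ => p.1) (𝓝[U ×ˢ {t : ℂ | t.re ∈ I}] q) (𝓝[U] q.1) :=
        continuous_fst.continuousWithinAt.tendsto_nhdsWithin fun p hp => hp.1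
      filter_upwards [h1.eventually hc, eventually_mem_nhdsWithin] with p hp hp'
      exact hp _ hp'.2
  have husc : UpperSemicontinuousOn (fun z => sInf (u z '' I)) U := by
    intro z hz r hr
    obtain ⟨_, ⟨s, hs, rfl⟩, hs'⟩ := exists_lt_of_csInf_lt (hne.image (u z)) hr
    have h1 : UpperSemicontinuousOn (fun z' => u z' s) U := by
      have : UpperSemicontinuousOn ((fun q : W × ℂ => u q.1 q.2.re) ∘
          fun z' : W => ((z', (s : ℂ)) : W × ℂ)) U :=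
        h.1.comp (by fun_prop) fun z' hz' => ⟨hz', hs⟩
      simpa only [Function.comp_def, Complex.ofReal_re] using this
    filter_upwards [h1 z hz r hs', eventually_mem_nhdsWithin] with z' h2 h3
    exact (csInf_le (hbd z' h3) ⟨s, hs, rfl⟩).trans_lt h2
  refine ⟨⟨husc, fun z w hw => le_of_forall_pos_le_add fun ε hε => ?_⟩, hlb⟩
  have hm : ∀ ζ ∈ sphere (0 : ℂ) 1, z + ζ • w ∈ U := fun ζ hζ =>
    hw ζ (mem_sphere_zero_iff_norm.1 hζ).le
  have hγ : Continuous fun ζ : ℂ => z + ζ • w := by fun_prop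
  choose g hg hg' using fun k : ℕ => select hU hI hI' hne h hb2 hγ hm (Nat.one_div_pos_of_nat (n := k))
  have hv : UpperSemicontinuousOn (fun ζ : ℂ => sInf (u (z + ζ • w) '' I)) (sphere 0 1) :=
    husc.comp hγ.continuousOn hm
  obtain ⟨M, -, hM⟩ := usc_bdd hv (isCompact_sphere 0 1) subset_rfl
  have hF : ∀ k, Psh (fun ζ : ℂ => u (z + ζ • w) (g k ζ).re)
        {ζ | ((z + ζ • w, g k ζ) : W × ℂ) ∈ U ×ˢ {t : ℂ | t.re ∈ I}} ∧
      LB (fun ζ : ℂ => u (z + ζ • w) (g k ζ).re)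
        {ζ | ((z + ζ • w, g k ζ) : W × ℂ) ∈ U ×ˢ {t : ℂ | t.re ∈ I}} := fun k => by
    have hd : Differentiable ℂ fun ζ : ℂ => ((z + ζ • w, g k ζ) : W × ℂ) := by
      have := hg k
      fun_prop
    exact ⟨h.comp hb2 hO (hO.preimage hd.continuous) hd.differentiableOn fun _ hζ => hζ,
      hb2.comp hd.continuous.continuousOn fun _ hζ => hζ⟩
  have hD : ∀ k (ζ : ℂ), ‖ζ‖ ≤ 1 → (0 : ℂ) + ζ • (1 : ℂ) ∈
      {ζ | ((z + ζ • w, g k ζ) : W × ℂ) ∈ U ×ˢ {t : ℂ | t.re ∈ I}} := fun k ζ hζ => by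
    rw [zero_add, smul_eq_mul, mul_one]
    exact ⟨hw ζ hζ, re_mem_of_sphere (hg k) hI' (fun η hη => (hg' k η hη).1) hζ⟩
  have hfat := fatou_circle (𝓕 := atTop) (v := fun k (ζ : ℂ) => u (z + ζ • w) (g k ζ).re)
    (f := fun ζ : ℂ => sInf (u (z + ζ • w) '' I)) (c := 0) (R := 1) (M := M + 1)
    (line_int₁ husc hlb hw) (Eventually.of_forall fun k => ⟨?_, fun ζ hζ => ?_⟩)
    (fun ζ hζ r hr => ?_) hε
  · obtain ⟨k, hk⟩ := hfat.exists
    have h1 := (hF k).1.2 0 1 (hD k)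
    simp only [zero_add, smul_eq_mul, mul_one, zero_smul, add_zero] at h1
    have h2 : (g k 0).re ∈ I := re_mem_of_sphere (hg k) hI' (fun η hη => (hg' k η hη).1) (by simp)
    exact (csInf_le (hbd z (disc_mem hw)) ⟨_, h2, rfl⟩).trans (h1.trans hk)
  · simpa only [zero_add, smul_eq_mul, mul_one] using line_int₁ (hF k).1.1 (hF k).2 (hD k)
  · rw [abs_one] at hζ
    obtain ⟨η, hη, -, e⟩ := (hg' k ζ hζ).2
    have h1 : (1 : ℝ) / (k + 1) ≤ 1 := Nat.one_div_le_one_div (Nat.zero_le k) |>.trans (by simp)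
    linarith [hM η hη]
  · rw [abs_one] at hζ
    obtain ⟨r', h1, h2⟩ := exists_between hr
    obtain ⟨ρ, hρ, h3⟩ := Metric.eventually_nhds_iff.1 (eventually_nhdsWithin_iff.1 (hv ζ hζ r' h1))
    have h4 := tendsto_one_div_add_atTop_nhds_zero_nat (𝕜 := ℝ)
    filter_upwards [h4.eventually (gt_mem_nhds (half_pos hρ)),
      h4.eventually (gt_mem_nhds (sub_pos.2 h2))] with k h5 h6
    obtain ⟨η, hη, d, e⟩ := (hg' k ζ hζ).2
    have h7 := h3 (y := η) (by linarith) hη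
    linarith

/-- **Kiselman's minimum principle**, multiplicative form -/
theorem kiselman_lpsh {P : W → ℝ → ℝ} (hU : IsOpen U) (hI : IsOpen I) (hI' : I.OrdConnected)
    (hne : I.Nonempty) (h : LPsh (fun q : W × ℂ => P q.1 q.2.re) (U ×ˢ {t | t.re ∈ I})) :
    LPsh (fun z => sInf (P z '' I)) U := by
  have h0 : ∀ z ∈ U, ∀ s ∈ I, 0 ≤ P z s := fun z hz s hs => h.1 (z, (s : ℂ)) ⟨hz, hs⟩
  refine ⟨fun z hz => le_csInf (hne.image _) (by rintro _ ⟨s, hs, rfl⟩; exact h0 z hz s hs),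
    fun T => ?_⟩
  refine (kiselman (u := fun z s => lg T (P z s)) hU hI hI' hne (h.2 T)
    fun z _ => ⟨-T, Eventually.of_forall fun _ _ _ => le_lg _ _⟩).1.congr fun z hz => ?_
  have hm : Monotone (lg T) := fun a b hab =>
    log_le_log (lt_max_of_lt_right (exp_pos _)) (max_le_max hab le_rfl)
  have h1 := hm.map_csInf_of_continuousAt (continuous_lg T).continuousAt (hne.image (P z))
    ⟨0, by rintro _ ⟨s, hs, rfl⟩; exact h0 z hz s hs⟩
  rw [image_image] at h1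
  exact h1

end Vale.Agent.P284Y.Lib
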