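import Vale.Agent.P284Y.Lib.Spec
import Vale.Agent.P284Y.Lib.GL
import Vale.Agent.P284Y.Lib.Kis

/-!
# P284Y: pointwise gluing, convexity, the minimum principle on a closed interval
-/

open scoped ContDiff Topology ComplexOrder
open Filter Set Metric Real

noncomputable section

namespace Vale.Agent.P284Y.Lib

open Vale.Agent.P272.K Vale.Agent.P284Z

theorem two_le_inf : (2 : WithTop ℕ∞) ≤ ∞ := by norm_cast

section hol
variable {W V : Type} [NormedAddCommGroup W] [NormedSpace ℝ W] [NormedSpace ℂ W]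
  [IsScalarTower ℝ ℂ W] [NormedAddCommGroup V] [NormedSpace ℝ V] [NormedSpace ℂ V]
  [IsScalarTower ℝ ℂ V] [CompleteSpace V] {s : W → V} {u : V → ℝ} {z w : W}

omit [CompleteSpace V] in
theorem fderiv_hol (hs : DifferentiableAt ℂ s z) (hu : DifferentiableAt ℝ u (s z)) (w : W) :
    fderiv ℝ (fun y => u (s y)) z w = fderiv ℝ u (s z) (fderiv ℂ s z w) := by
  have := (hu.hasFDerivAt.comp z (hs.hasFDerivAt.restrictScalars ℝ)).fderiv
  exact congrArg (fun L => L w) this

omit [CompleteSpace V] in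
theorem gsq_hol (hs : DifferentiableAt ℂ s z) (hu : DifferentiableAt ℝ u (s z)) :
    gsq (fun y => u (s y)) z w = gsq u (s z) (fderiv ℂ s z w) := by
  rw [gsq, gsq, fderiv_hol hs hu, fderiv_hol hs hu, map_smul]

theorem d2_hol (hs : AnalyticAt ℂ s z) (hu : ContDiffAt ℝ 2 u (s z)) (w : W) :
    fderiv ℝ (fderiv ℝ fun y => u (s y)) z w w =
      fderiv ℝ (fderiv ℝ u) (s z) (fderiv ℂ s z w) (fderiv ℂ s z w) +
        fderiv ℝ u (s z) (fderiv ℂ (fderiv ℂ s) z w w) := by
  have hc : ContDiffAt ℝ 2 (fun y => u (s y)) z :=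
    hu.comp z ((hs.contDiffAt (n := 2)).restrict_scalars ℝ)
  have e : (fun y => fderiv ℝ (fun y => u (s y)) y w) =ᶠ[𝓝 z]
      fun y => fderiv ℝ u (s y) (fderiv ℂ s y w) :=
    (hs.eventually_analyticAt.and (hs.continuousAt.eventually (ev_diff hu))).mono
      fun y h => fderiv_hol h.1.differentiableAt h.2 w
  have a := ((diff_fderiv hc).hasFDerivAt.clm_apply (hasFDerivAt_const w z)).fderiv
  have b := (((diff_fderiv hu).hasFDerivAt.comp z
    (hs.differentiableAt.hasFDerivAt.restrictScalars ℝ)).clm_apply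
      ((hs.fderiv.differentiableAt.hasFDerivAt.clm_apply
        (hasFDerivAt_const w z)).restrictScalars ℝ)).fderiv
  have c := congrArg (fun L => L w) (a.symm.trans (e.fderiv_eq.trans b))
  simpa [add_comm] using c

/-- the Levi form of a composition with a holomorphic map -/
theorem levi_hol (hs : AnalyticAt ℂ s z) (hu : ContDiffAt ℝ 2 u (s z)) :
    levi (fun y => u (s y)) z w = levi u (s z) (fderiv ℂ s z w) := by
  rw [levi, levi, d2_hol hs hu, d2_hol hs hu]
  simp only [map_smul, smul_apply, smul_smul, Complex.I_mul_I, neg_smul, one_smul, map_neg]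
  ring

theorem levi_re {g : W → ℂ} (hg : AnalyticAt ℂ g z) : levi (fun y => (g y).re) z w = 0 := by
  rw [levi_hol hg (u := fun t : ℂ => t.re) Complex.reCLM.contDiff.contDiffAt, levi,
    show (fderiv ℝ fun t : ℂ => t.re) = fun _ => Complex.reCLM from
      funext fun t => Complex.reCLM.fderiv]
  simp

end hol

theorem dg : DgSt := by
  intro W _ _ ι s θ u z hθ hu h0
  classical
  set t := s.filter fun i => ContDiffAt ℝ ∞ (u i) z with ht
  have hz : ∀ i ∈ s, i ∉ t → θ i =ᶠ[𝓝 z] 0 := fun i hi h =>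
    (hu i hi).resolve_left fun h' => h (Finset.mem_filter.2 ⟨hi, h'⟩)
  have hts : t ⊆ s := Finset.filter_subset _ _
  have e : ∀ᶠ y in 𝓝 z, ∑ i ∈ t, θ i y ^ 2 * exp (u i y) = ∑ i ∈ s, θ i y ^ 2 * exp (u i y) := by
    have : ∀ᶠ y in 𝓝 z, ∀ i ∈ s, i ∉ t → θ i y = 0 :=
      (eventually_all_finset s).2 fun i hi => by
        by_cases h : i ∈ t
        · exact Eventually.of_forall fun _ h' => (h' h).elim
        · exact (hz i hi h).mono fun y hy _ => hy
    exact this.mono fun y hy => Finset.sum_subset hts fun i hi h => by simp [hy i hi h]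
  have e' : (fun y => log (∑ i ∈ s, θ i y ^ 2 * exp (u i y))) =ᶠ[𝓝 z]
      fun y => log (∑ i ∈ t, θ i y ^ 2 * exp (u i y)) := e.mono fun y hy => by
    beta_reduce
    rw [hy]
  have hut : ∀ i ∈ t, ContDiffAt ℝ ∞ (u i) z := fun i hi => (Finset.mem_filter.1 hi).2
  have hS : 0 < ∑ i ∈ t, θ i z ^ 2 * exp (u i z) := by
    obtain ⟨i, hi, h⟩ := h0
    rw [e.self_of_nhds]
    exact Finset.sum_pos' (fun j _ => by positivity) ⟨i, hi, by positivity⟩
  refine ⟨((ContDiffAt.sum fun i hi => ((hθ i (hts hi)).pow 2).mul (hut i hi).exp).log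
    hS.ne').congr_of_eventuallyEq e', fun w => ?_⟩
  have k := levi_glue' (w := w) t (fun i hi => (hθ i (hts hi)).of_le two_le_inf)
    (fun i hi => (hut i hi).of_le two_le_inf) hS
  rw [div_le_iff₀' hS, e.self_of_nhds, ← levi_congr e'] at k
  refine le_of_eq_of_le ?_ k
  rw [← Finset.sum_subset hts fun i hi h => ?_]
  · exact Finset.sum_congr rfl fun i _ => by
      rw [show gr2 (θ i) z w = gsq (θ i) z w from rfl]
      ring
  · rw [show gr2 (θ i) z w = gsq (θ i) z w from rfl, gsq_congr (hz i hi h),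
      (hz i hi h).self_of_nhds]
    simp [gsq]

/-- the gluing lemma in the language of matrices; inactive pieces are allowed -/
theorem cHess_glue {n : ℕ} {ι : Type} (s : Finset ι) {θ f : ι → Cm n → ℝ} {z : Cm n}
    {g c D : ℝ} {ρ σ : Cm n → ℝ} (hg : 0 < g) (hρ : ContDiffAt ℝ 2 ρ z) (hσ : ContDiffAt ℝ 2 σ z)
    (hθ : ∀ i ∈ s, ContDiffAt ℝ 2 (θ i) z) (hf : ∀ i ∈ s, ContDiffAt ℝ 2 (f i) z)
    (hgap : ∀ i ∈ s, ∀ j ∈ s, f i z ≤ f j z + g) (hc : 0 < c) (hc' : c ≤ ∑ i ∈ s, θ i z ^ 2)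
    (he : ∀ i ∈ s, (cHess (fun y => ρ y + f i y) z).PosSemidef)
    (hK : ∀ w, ∑ i ∈ s, (gsq (θ i) z w + |θ i z * levi (θ i) z w|) ≤ D * levi σ z w) :
    (cHess (fun y => ρ y + 2 * exp 1 / c * D * g * σ y +
      g * log (∑ i ∈ s, θ i y ^ 2 * exp (f i y / g))) z).PosSemidef := by
  have h1 := glue_smooth s (g := g) hθ hf hc hc'
  have h2 : ContDiffAt ℝ 2 (fun y => 2 * exp 1 / c * D * g * σ y) z := contDiffAt_const.mul hσ
  refine (cHess_psd_iff ((hρ.add h2).add h1)).2 fun w => ?_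
  have h3 := levi_glue (w := w) (e := levi ρ z w) s hg hθ hf hgap hc hc' (fun i hi => by
    have := (cHess_psd_iff (hρ.add (hf i hi))).1 (he i hi) w
    rw [levi_add hρ (hf i hi)] at this
    linarith) (hK w)
  rw [levi_add (hρ.add h2) h1, levi_add hρ h2, levi_const_mul hσ]
  linarith

/-- **CVX** in one variable -/
theorem cvx₁ {f : ℝ → ℝ} {I : Set ℝ} (hI : IsOpen I) (hI' : I.OrdConnected)
    (h : Psh (fun t : ℂ => f t.re) {t | t.re ∈ I}) (hb : LB (fun t : ℂ => f t.re) {t | t.re ∈ I}) :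
    ConvexOn ℝ I f := by
  refine LinearOrder.convexOn_of_lt hI'.convex fun x hx y hy hxy a b ha hb' hab => ?_
  set m := (f y - f x) / (y - x) with hm
  have hm' : m * (y - x) = f y - f x := div_mul_cancel₀ _ (sub_pos.2 hxy).ne'
  have hd : DifferentiableOn ℂ (fun t : ℂ => -(m : ℂ) * t) {t | t.re ∈ I} := by fun_prop
  have e : ∀ t : ℂ, (-(m : ℂ) * t).re = -m * t.re := fun t => by simp
  have h1 := h.add (psh_re (hI.preimage Complex.continuous_re) hd) hb (lb_re hd)
  have h2 := hb.add (lb_re hd)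
  simp only [e] at h1 h2
  refine le_of_forall_pos_le_add fun η hη => ?_
  obtain rfl : a = 1 - b := by linarith
  have h3 := quasiconvex (f := fun t => f t + -m * t) hI' h1 h2 hx hy (s := (1 - b) • x + b • y)
    (r := f x + -m * x + η) ⟨by simp only [smul_eq_mul]; nlinarith,
      by simp only [smul_eq_mul]; nlinarith⟩ (by linarith) (by linarith)
  simp only [smul_eq_mul] at h3 ⊢
  have h4 : b * (m * (y - x)) = b * (f y - f x) := by rw [hm']
  linarith

/-- the minimum principle on a closed interval -/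
theorem kiselman_Icc {W : Type} [NormedAddCommGroup W] [NormedSpace ℂ W] [FiniteDimensional ℂ W]
    {U : Set W} {u : W → ℝ → ℝ} {a b : ℝ} (hU : IsOpen U) (hab : a < b)
    (h : Psh (fun q : W × ℂ => u q.1 q.2.re) (U ×ˢ {t | t.re ∈ Ioo a b}))
    (hc : ContinuousOn (fun q : W × ℝ => u q.1 q.2) (U ×ˢ Icc a b)) :
    Psh (fun z => sInf (u z '' Icc a b)) U ∧ ContinuousOn (fun z => sInf (u z '' Icc a b)) U := by
  have hcz : ∀ z ∈ U, ContinuousOn (u z) (Icc a b) := fun z hz =>
    hc.comp (Continuous.prodMk_right z).continuousOn fun t ht => ⟨hz, ht⟩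
  have hloc : ∀ z ∈ U, ∀ η > (0 : ℝ), ∀ᶠ z' in 𝓝 z, ∀ t ∈ Icc a b, |u z' t - u z t| < η := by
    intro z hz η hη
    have hcl : ∀ t, (projIcc a b hab.le t : ℝ) ∈ Icc a b := fun t => (projIcc a b hab.le t).2
    have h1 : ∀ᶠ z' in 𝓝 z, ∀ t ∈ Icc a b,
        |u z' (projIcc a b hab.le t) - u z (projIcc a b hab.le t)| < η := by
      refine isCompact_Icc.eventually_forall_of_forall_eventually fun t _ => ?_
      have hp : Continuous fun t => (projIcc a b hab.le t : ℝ) :=
        continuous_subtype_val.comp continuous_projIcc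
      have h2 : ContinuousOn (fun q : W × ℝ => u q.1 (projIcc a b hab.le q.2)) (U ×ˢ univ) :=
        hc.comp (f := fun q : W × ℝ => (q.1, (projIcc a b hab.le q.2 : ℝ)))
          (continuous_fst.prodMk (hp.comp continuous_snd)).continuousOn fun q hq => ⟨hq.1, hcl _⟩
      have h3 : Continuous fun q : W × ℝ => u z (projIcc a b hab.le q.2) :=
        (hcz z hz).comp_continuous (hp.comp continuous_snd) fun q => hcl _
      have h4 := ((h2.continuousAt ((hU.prod isOpen_univ).mem_nhds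
        (show (z, t) ∈ U ×ˢ univ from ⟨hz, mem_univ _⟩))).sub h3.continuousAt).abs
      exact h4.eventually (gt_mem_nhds (by simpa using hη))
    exact h1.mono fun z' h t ht => by simpa only [projIcc_of_mem _ ht] using h t ht
  have hne : (Icc a b).Nonempty := nonempty_Icc.2 hab.le
  have hbd : ∀ z ∈ U, BddBelow (u z '' Icc a b) := fun z hz =>
    isCompact_Icc.bddBelow_image (hcz z hz)
  refine ⟨(kiselman hU isOpen_Ioo ordConnected_Ioo (nonempty_Ioo.2 hab) h fun z hz => ?_).1.congr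
    fun z hz => ?_, fun z hz => ContinuousAt.continuousWithinAt ?_⟩
  · obtain ⟨c, hc⟩ := hbd z hz
    refine ⟨c - 1, mem_nhdsWithin_of_mem_nhds ((hloc z hz 1 one_pos).mono fun z' h s hs => ?_)⟩
    linarith [(abs_lt.1 (h s (Ioo_subset_Icc_self hs))).1, hc ⟨s, Ioo_subset_Icc_self hs, rfl⟩]
  · refine le_antisymm (csInf_le_csInf (hbd z hz) ((nonempty_Ioo.2 hab).image _)
      (image_mono Ioo_subset_Icc_self)) (le_csInf (hne.image _) ?_)
    rintro _ ⟨t, ht, rfl⟩
    have h1 : t ∈ closure (Ioo a b) := by rwa [closure_Ioo hab.ne]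
    have h2 := ((hcz z hz t ht).mono Ioo_subset_Icc_self).mem_closure_image h1
    exact (isClosed_Ici.closure_subset_iff (s := u z '' Ioo a b)).2 (fun x hx =>
      csInf_le ((hbd z hz).mono (image_mono Ioo_subset_Icc_self)) hx) h2
  · refine Metric.tendsto_nhds.2 fun η hη => ?_
    filter_upwards [hloc z hz (η / 2) (half_pos hη), hU.mem_nhds hz] with z' h hz'
    have h1 : sInf (u z' '' Icc a b) - η / 2 ≤ sInf (u z '' Icc a b) := le_csInf (hne.image _) (by
      rintro _ ⟨t, ht, rfl⟩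
      linarith [(abs_lt.1 (h t ht)).2, csInf_le (hbd z' hz') ⟨t, ht, rfl⟩])
    have h2 : sInf (u z '' Icc a b) - η / 2 ≤ sInf (u z' '' Icc a b) := le_csInf (hne.image _) (by
      rintro _ ⟨t, ht, rfl⟩
      linarith [(abs_lt.1 (h t ht)).1, csInf_le (hbd z hz) ⟨t, ht, rfl⟩])
    rw [Real.dist_eq, abs_lt]
    constructor <;> linarith

end Vale.Agent.P284Y.Lib
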