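import Vale.Agent.P284Y.Lib.Gl1

/-!
# P284Y: gluing on the covering, two variables
-/

open scoped ContDiff Topology ComplexOrder
open Filter Set Metric Real

noncomputable section

namespace Vale.Agent.P284Y.Lib

open Vale.Agent.P272.K Vale.Agent.P284Z

/-- **GL2**: gluing of functions of two points. -/
def Gl2St : Prop :=
  ∀ (n : ℕ) (Γ E : Type) [Group Γ] [TopologicalSpace E] [T2Space E] [MulAction Γ E]
    (C : Cov n Γ E), ∃ K > (0 : ℝ), ∀ (A δ : ℝ) (u : Γ → C.I → Γ → C.I → Cm n × Cm n → ℝ), 0 < δ →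
    (∀ γ a γ' b, ∀ q ∈ C.B 2 a ×ˢ C.B 2 b, ContDiffAt ℝ ∞ (u γ a γ' b) q) →
    (∀ γ a γ' b, Psh (fun q : Cm n × Cm n => A * C.ρ a q.1 + A * C.ρ b q.2 + u γ a γ' b q)
      (C.B 2 a ×ˢ C.B 2 b)) →
    (∀ γ a γ' b, ∀ q ∈ C.B 2 a ×ˢ C.B 2 b, ∀ γ₁ a₁ γ₁' b₁, ∀ q₁ ∈ C.B 2 a₁ ×ˢ C.B 2 b₁,
      C.pt γ a q.1 = C.pt γ₁ a₁ q₁.1 → C.pt γ' b q.2 = C.pt γ₁' b₁ q₁.2 →
      u γ a γ' b q ≤ u γ₁ a₁ γ₁' b₁ q₁ + δ) →
    ∃ g : E → E → ℝ, Sm₂ C g ∧ QP₂ C (A + K * δ) g ∧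
      (∀ γ a γ' b, ∀ q ∈ C.B 2 a ×ˢ C.B 2 b,
        |g (C.pt γ a q.1) (C.pt γ' b q.2) - u γ a γ' b q| ≤ K * δ) ∧
      ((∀ g γ a γ' b, u (g * γ) a (g * γ') b = u γ a γ' b) →
        ∀ (γ : Γ) x y, g (γ • x) (γ • y) = g x y) ∧
      ((∀ γ a γ' b z z', u γ a γ' b (z, z') = u γ' b γ a (z', z)) → ∀ x y, g x y = g y x)

section mul
variable {W : Type} [NormedAddCommGroup W] [NormedSpace ℝ W] [NormedSpace ℂ W] {z w : W}
  {u v : W → ℝ}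

theorem mul_bd (hu : ContDiffAt ℝ 2 u z) (hv : ContDiffAt ℝ 2 v z) (h1 : |u z| ≤ 1)
    (h2 : |v z| ≤ 1) :
    gsq (fun y => u y * v y) z w + |u z * v z * levi (fun y => u y * v y) z w| ≤
      3 * (gsq u z w + |levi u z w|) + 3 * (gsq v z w + |levi v z w|) := by
  have a : ∀ s t : ℝ, (u z * s + v z * t) ^ 2 ≤ 2 * s ^ 2 + 2 * t ^ 2 := fun s t => by
    have b1 := (sq_le_one_iff_abs_le_one _).2 h1
    have b2 := (sq_le_one_iff_abs_le_one _).2 h2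
    nlinarith [sq_nonneg (u z * s - v z * t), mul_le_mul_of_nonneg_right b1 (sq_nonneg s),
      mul_le_mul_of_nonneg_right b2 (sq_nonneg t)]
  have b : gsq (fun y => u y * v y) z w ≤ 2 * gsq u z w + 2 * gsq v z w := by
    rw [gsq, fderiv_fun_mul (hu.differentiableAt two_ne_zero) (hv.differentiableAt two_ne_zero)]
    simp only [add_apply, smul_apply, smul_eq_mul, gsq]
    linarith [a (fderiv ℝ v z w) (fderiv ℝ u z w),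
      a (fderiv ℝ v z (Complex.I • w)) (fderiv ℝ u z (Complex.I • w))]
  have c : |levi (fun y => u y * v y) z w| ≤
      |levi v z w| + |levi u z w| + (gsq u z w + gsq v z w) := by
    rw [levi_mul hu hv]
    refine (abs_add_three _ _ _).trans (add_le_add (add_le_add ?_ ?_) (abs_le.2 ⟨?_, ?_⟩))
    · rw [abs_mul]
      exact mul_le_of_le_one_left (abs_nonneg _) h1
    · rw [abs_mul]
      exact mul_le_of_le_one_left (abs_nonneg _) h2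
    · rw [gsq, gsq]
      nlinarith [sq_nonneg (fderiv ℝ u z w + fderiv ℝ v z w),
        sq_nonneg (fderiv ℝ u z (Complex.I • w) + fderiv ℝ v z (Complex.I • w))]
    · rw [gsq, gsq]
      nlinarith [sq_nonneg (fderiv ℝ u z w - fderiv ℝ v z w),
        sq_nonneg (fderiv ℝ u z (Complex.I • w) - fderiv ℝ v z (Complex.I • w))]
  have d : |u z * v z * levi (fun y => u y * v y) z w| ≤ |levi (fun y => u y * v y) z w| := by
    rw [abs_mul, abs_mul]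
    exact mul_le_of_le_one_left (abs_nonneg _) (mul_le_one₀ h1 (abs_nonneg _) h2)
  linarith [abs_nonneg (levi u z w), abs_nonneg (levi v z w)]

end mul

section prod
variable {W V : Type} [NormedAddCommGroup W] [NormedSpace ℝ W] [NormedSpace ℂ W]
  [IsScalarTower ℝ ℂ W] [NormedAddCommGroup V] [NormedSpace ℝ V] [NormedSpace ℂ V]
  [IsScalarTower ℝ ℂ V] {q w : W × V}

theorem levi_fst [CompleteSpace W] {u : W → ℝ} (hu : ContDiffAt ℝ 2 u q.1) :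
    levi (fun p : W × V => u p.1) q w = levi u q.1 w.1 := by
  rw [levi_hol analyticAt_fst hu, fderiv_fst]
  rfl

theorem levi_snd [CompleteSpace V] {u : V → ℝ} (hu : ContDiffAt ℝ 2 u q.2) :
    levi (fun p : W × V => u p.2) q w = levi u q.2 w.2 := by
  rw [levi_hol analyticAt_snd hu, fderiv_snd]
  rfl

theorem gsq_fst {u : W → ℝ} (hu : ContDiffAt ℝ 2 u q.1) :
    gsq (fun p : W × V => u p.1) q w = gsq u q.1 w.1 := by
  rw [gsq_hol differentiableAt_fst (hu.differentiableAt two_ne_zero), fderiv_fst]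
  rfl

theorem gsq_snd {u : V → ℝ} (hu : ContDiffAt ℝ 2 u q.2) :
    gsq (fun p : W × V => u p.2) q w = gsq u q.2 w.2 := by
  rw [gsq_hol differentiableAt_snd (hu.differentiableAt two_ne_zero), fderiv_snd]
  rfl

end prod

variable {n : ℕ} {Γ E : Type} [Group Γ] [TopologicalSpace E] [MulAction Γ E] {C : Cov n Γ E}
  {Θ : C.I → E → ℝ} {K δ A : ℝ} {u : Γ → C.I → Γ → C.I → Cm n × Cm n → ℝ}

/-- the piece of index `i` -/
def loc₂ (u : Γ → C.I → Γ → C.I → Cm n × Cm n → ℝ) (i : C.I × C.I) (x y : E) : ℝ :=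
  loc C i.1 (fun γ z => loc C i.2 (fun γ' z' => u γ i.1 γ' i.2 (z, z')) y) x

/-- the glued function -/
def gl₂ (Θ : C.I → E → ℝ) (δ : ℝ) (u : Γ → C.I → Γ → C.I → Cm n × Cm n → ℝ) (x y : E) : ℝ :=
  δ * log (∑ i : C.I × C.I, (Θ i.1 x * Θ i.2 y) ^ 2 * exp (loc₂ u i x y / δ))

theorem loc₂_pt {i : C.I × C.I} {z z' : Cm n} (hz : z ∈ C.B 4 i.1) (hz' : z' ∈ C.B 4 i.2)
    (γ γ' : Γ) : loc₂ u i (C.pt γ i.1 z) (C.pt γ' i.2 z') = u γ i.1 γ' i.2 (z, z') := by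
  rw [loc₂, loc_pt C hz, loc_pt C hz']

theorem TH.one_le₂ (h : TH C Θ K) (x y : E) : 1 ≤ ∑ i : C.I × C.I, (Θ i.1 x * Θ i.2 y) ^ 2 := by
  obtain ⟨a, ha⟩ := h.exists_one x
  obtain ⟨b, hb⟩ := h.exists_one y
  have := Finset.single_le_sum (f := fun i : C.I × C.I => (Θ i.1 x * Θ i.2 y) ^ 2)
    (fun _ _ => sq_nonneg _) (Finset.mem_univ (a, b))
  rwa [ha, hb, one_mul, one_pow] at this

theorem gl₂_smul (h : TH C Θ K) (g g' : Γ) (x y : E) :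
    gl₂ Θ δ u (g • x) (g' • y) = gl₂ Θ δ (fun γ a γ' => u (g * γ) a (g' * γ')) x y := by
  simp only [gl₂, loc₂, h.inv, loc_smul]

theorem gl₂_symm (h : TH C Θ K) (hu : ∀ γ a γ' b z z', u γ a γ' b (z, z') = u γ' b γ a (z', z))
    (x y : E) : gl₂ Θ δ u x y = gl₂ Θ δ u y x := by
  refine congrArg (fun t => δ * log t) (Fintype.sum_equiv (Equiv.prodComm _ _) _ _ fun i => ?_)
  by_cases h1 : Θ i.1 x = 0
  · simp [h1]
  by_cases h2 : Θ i.2 y = 0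
  · simp [h2]
  obtain ⟨γ, z, hz, rfl⟩ := h.act h1
  obtain ⟨γ', z', hz', rfl⟩ := h.act h2
  have e := loc₂_pt (u := u) (i := i.swap) (B24 _ hz') (B24 _ hz) γ' γ
  simp only [Prod.fst_swap, Prod.snd_swap] at e
  simp only [Equiv.prodComm_apply, Prod.fst_swap, Prod.snd_swap]
  rw [loc₂_pt (B24 _ hz) (B24 _ hz'), e, hu, mul_comm (Θ i.1 _)]

theorem gl₂_abs (h : TH C Θ K) (hδ : 0 < δ) {x y : E} {t : ℝ}
    (ht : ∀ γ a γ' b, ∀ q ∈ C.B 2 a ×ˢ C.B 2 b, x = C.pt γ a q.1 → y = C.pt γ' b q.2 →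
      |u γ a γ' b q - t| ≤ δ) :
    |gl₂ Θ δ u x y - t| ≤ (1 + Fintype.card (C.I × C.I)) * δ :=
  glue_abs (θ := fun i : C.I × C.I => Θ i.1 x * Θ i.2 y) hδ (h.one_le₂ x y) (fun i => by
    rw [abs_mul]
    exact mul_le_one₀ (h.abs_le _ _) (abs_nonneg _) (h.abs_le _ _)) fun i hi => by
    obtain ⟨γ, z, hz, rfl⟩ := h.act (left_ne_zero_of_mul hi)
    obtain ⟨γ', z', hz', rfl⟩ := h.act (right_ne_zero_of_mul hi)
    rw [loc₂_pt (B24 _ hz) (B24 _ hz')]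
    exact ht γ _ γ' _ (z, z') ⟨hz, hz'⟩ rfl rfl

theorem levi_ρ₂ {c d : C.I} {q : Cm n × Cm n} (hq : q ∈ C.B 4 c ×ˢ C.B 4 d) {f : Cm n × Cm n → ℝ}
    (hf : ContDiffAt ℝ 2 f q) (A : ℝ) :
    ContDiffAt ℝ 2 (fun p : Cm n × Cm n => A * C.ρ c p.1 + A * C.ρ d p.2 + f p) q ∧
    ∀ w, levi (fun p : Cm n × Cm n => A * C.ρ c p.1 + A * C.ρ d p.2 + f p) q w =
      A * (levi (C.ρ c) q.1 w.1 + levi (C.ρ d) q.2 w.2) + levi f q w := by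
  have h1 : ContDiffAt ℝ 2 (C.ρ c) q.1 := (C.ρ_sm c _ hq.1).of_le two_le_inf
  have h2 : ContDiffAt ℝ 2 (C.ρ d) q.2 := (C.ρ_sm d _ hq.2).of_le two_le_inf
  have h3 : ContDiffAt ℝ 2 (fun p : Cm n × Cm n => C.ρ c p.1) q := h1.comp q contDiffAt_fst
  have h4 : ContDiffAt ℝ 2 (fun p : Cm n × Cm n => C.ρ d p.2) q := h2.comp q contDiffAt_snd
  have h5 : ContDiffAt ℝ 2 (fun p : Cm n × Cm n => A * C.ρ c p.1) q := contDiffAt_const.mul h3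
  have h6 : ContDiffAt ℝ 2 (fun p : Cm n × Cm n => A * C.ρ d p.2) q := contDiffAt_const.mul h4
  refine ⟨(h5.add h6).add hf, fun w => ?_⟩
  rw [levi_add (h5.add h6) hf, levi_add h5 h6, levi_const_mul h3, levi_const_mul h4, levi_fst h1,
    levi_snd h2, mul_add]

theorem gl₂_pt (h : TH C Θ K) (hδ : 0 < δ) {γ γ' : Γ} {c d : C.I} {q : Cm n × Cm n}
    (hq : q ∈ C.B 4 c ×ˢ C.B 4 d)
    (hu : ∀ γ₁ a γ₁' b, ∀ p ∈ C.B 2 a ×ˢ C.B 2 b, C.pt γ c q.1 = C.pt γ₁ a p.1 →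
      C.pt γ' d q.2 = C.pt γ₁' b p.2 → ContDiffAt ℝ ∞ (u γ₁ a γ₁' b) p ∧ ∀ w, 0 ≤
        levi (fun x : Cm n × Cm n => A * C.ρ a x.1 + A * C.ρ b x.2 + u γ₁ a γ₁' b x) p w)
    (hg : ∀ γ₁ a γ₁' b, ∀ p ∈ C.B 2 a ×ˢ C.B 2 b, ∀ γ₂ a₂ γ₂' b₂, ∀ p₂ ∈ C.B 2 a₂ ×ˢ C.B 2 b₂,
      C.pt γ c q.1 = C.pt γ₁ a p.1 → C.pt γ' d q.2 = C.pt γ₁' b p.2 →
      C.pt γ c q.1 = C.pt γ₂ a₂ p₂.1 → C.pt γ' d q.2 = C.pt γ₂' b₂ p₂.2 →
      u γ₁ a γ₁' b p ≤ u γ₂ a₂ γ₂' b₂ p₂ + δ) :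
    ContDiffAt ℝ ∞ (fun x : Cm n × Cm n => gl₂ Θ δ u (C.pt γ c x.1) (C.pt γ' d x.2)) q ∧ ∀ w,
      -((A + 2 * exp 1 * (Fintype.card (C.I × C.I) * (3 * K)) * δ) *
        (levi (C.ρ c) q.1 w.1 + levi (C.ρ d) q.2 w.2)) ≤
      levi (fun x : Cm n × Cm n => gl₂ Θ δ u (C.pt γ c x.1) (C.pt γ' d x.2)) q w := by
  have k : ∀ i : C.I × C.I, ((∃ γ₁, ∃ z ∈ C.B 2 i.1, C.pt γ c q.1 = C.pt γ₁ i.1 z) ∧
      ∃ γ₁, ∃ z ∈ C.B 2 i.2, C.pt γ' d q.2 = C.pt γ₁ i.2 z) →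
      ContDiffAt ℝ ∞ (fun x : Cm n × Cm n => loc₂ u i (C.pt γ c x.1) (C.pt γ' d x.2)) q ∧ ∀ w,
        -(A * (levi (C.ρ c) q.1 w.1 + levi (C.ρ d) q.2 w.2)) ≤
          levi (fun x : Cm n × Cm n => loc₂ u i (C.pt γ c x.1) (C.pt γ' d x.2)) q w := by
    rintro i ⟨⟨γ₁, z, hz, e⟩, γ₁', z', hz', e'⟩
    obtain ⟨s, h1, rfl, h3, h4⟩ := two_charts C hq.1 (B24 _ hz) e
    obtain ⟨s', h1', rfl, h3', h4'⟩ := two_charts C hq.2 (B24 _ hz') e'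
    obtain ⟨h5, h6⟩ := hu γ₁ i.1 γ₁' i.2 (s q.1, s' q.2) ⟨hz, hz'⟩ e e'
    have hS : AnalyticAt ℂ (fun x : Cm n × Cm n => (s x.1, s' x.2)) q :=
      (h1.comp analyticAt_fst).prod (h1'.comp analyticAt_snd)
    have hD : ∀ w, fderiv ℂ (fun x : Cm n × Cm n => (s x.1, s' x.2)) q w =
        (fderiv ℂ s q.1 w.1, fderiv ℂ s' q.2 w.2) := fun w =>
      congrArg (fun L => L w) ((h1.differentiableAt.hasFDerivAt.comp q hasFDerivAt_fst).prodMk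
        (h1'.differentiableAt.hasFDerivAt.comp q hasFDerivAt_snd)).fderiv
    have h7 : (fun x : Cm n × Cm n => loc₂ u i (C.pt γ c x.1) (C.pt γ' d x.2)) =ᶠ[𝓝 q]
        fun x => u γ₁ i.1 γ₁' i.2 (s x.1, s' x.2) := by
      filter_upwards [continuousAt_fst.eventually h3, continuousAt_snd.eventually h3'] with x a b
      rw [a.2, b.2, loc₂_pt a.1 b.1]
    refine ⟨(h5.comp q ((hS.contDiffAt (n := ∞)).restrict_scalars ℝ)).congr_of_eventuallyEq h7,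
      fun w => ?_⟩
    have h8 := h5.of_le two_le_inf
    have := h6 (fderiv ℂ s q.1 w.1, fderiv ℂ s' q.2 w.2)
    rw [(levi_ρ₂ (q := (s q.1, s' q.2)) ⟨B24 _ hz, B24 _ hz'⟩ h8 A).2, ← h4, ← h4'] at this
    rw [levi_congr h7, levi_hol hS h8, hD]
    linarith
  have s1 : ∀ a, ContDiffAt ℝ ∞ (fun x => Θ a (C.pt γ c x)) q.1 := fun a =>
    h.sm a _ γ c _ hq.1 rfl
  have s2 : ∀ a, ContDiffAt ℝ ∞ (fun x => Θ a (C.pt γ' d x)) q.2 := fun a =>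
    h.sm a _ γ' d _ hq.2 rfl
  have s3 : ∀ a, ContDiffAt ℝ ∞ (fun x : Cm n × Cm n => Θ a (C.pt γ c x.1)) q := fun a =>
    (s1 a).comp q contDiffAt_fst
  have s4 : ∀ a, ContDiffAt ℝ ∞ (fun x : Cm n × Cm n => Θ a (C.pt γ' d x.2)) q := fun a =>
    (s2 a).comp q contDiffAt_snd
  obtain ⟨k1, k2⟩ := glue_alt (θ := fun (i : C.I × C.I) (x : Cm n × Cm n) =>
      Θ i.1 (C.pt γ c x.1) * Θ i.2 (C.pt γ' d x.2))
    (f := fun i x => loc₂ u i (C.pt γ c x.1) (C.pt γ' d x.2))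
    (fun i => (∃ γ₁, ∃ z ∈ C.B 2 i.1, C.pt γ c q.1 = C.pt γ₁ i.1 z) ∧
      ∃ γ₁, ∃ z ∈ C.B 2 i.2, C.pt γ' d q.2 = C.pt γ₁ i.2 z) hδ (fun i => (s3 i.1).mul (s4 i.2))
    (fun i hi => by
      obtain h1 | h1 := not_and_or.1 hi
      · filter_upwards [continuousAt_fst.eventually
          ((C.ev_pt hq.1 γ).1 ((h.alt i.1 _).resolve_left h1))] with x hx
        exact mul_eq_zero_of_left hx _
      · filter_upwards [continuousAt_snd.eventually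
          ((C.ev_pt hq.2 γ').1 ((h.alt i.2 _).resolve_left h1))] with x hx
        exact mul_eq_zero_of_right _ hx) (fun i hi => (k i hi).1)
    (by
      rintro i j ⟨⟨γ₁, z₁, h1, e1⟩, γ₁', z₁', h1', e1'⟩ ⟨⟨γ₂, z₂, h2, e2⟩, γ₂', z₂', h2', e2'⟩
      have := hg γ₁ _ γ₁' _ (z₁, z₁') ⟨h1, h1'⟩ γ₂ _ γ₂' _ (z₂, z₂') ⟨h2, h2'⟩ e1 e1' e2 e2'
      rwa [← loc₂_pt (u := u) (B24 _ h1) (B24 _ h1'), ← loc₂_pt (u := u) (B24 _ h2) (B24 _ h2'),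
        ← e1, ← e2, ← e1', ← e2'] at this) (h.one_le₂ _ _)
  refine ⟨k1, fun w => le_of_eq_of_le ?_ (k2 w _
    (3 * K * (levi (C.ρ c) q.1 w.1 + levi (C.ρ d) q.2 w.2)) (fun i hi => (k i hi).2 w) fun i => ?_)⟩
  · ring
  · refine (mul_bd ((s3 i.1).of_le two_le_inf) ((s4 i.2).of_le two_le_inf) (h.abs_le _ _)
      (h.abs_le _ _)).trans ?_
    rw [levi_fst ((s1 i.1).of_le two_le_inf), levi_snd ((s2 i.2).of_le two_le_inf),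
      gsq_fst ((s1 i.1).of_le two_le_inf), gsq_snd ((s2 i.2).of_le two_le_inf)]
    linarith [h.bd i.1 γ c _ hq.1 w.1, h.bd i.2 γ' d _ hq.2 w.2]

theorem gl2 : Gl2St := by
  intro n Γ E _ _ _ _ C
  obtain ⟨Θ, K, h⟩ := exists_th C
  have h0 : 0 ≤ 2 * exp 1 * (Fintype.card (C.I × C.I) * (3 * K)) := by
    have := h.K_nonneg
    positivity
  have h1 : (0 : ℝ) < 1 + Fintype.card (C.I × C.I) := by positivity
  refine ⟨2 * exp 1 * (Fintype.card (C.I × C.I) * (3 * K)) + (1 + Fintype.card (C.I × C.I)),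
    by positivity, fun A δ u hδ hu hp hg => ?_⟩
  have k := fun γ c γ' d q (hq : q ∈ C.B 4 c ×ˢ C.B 4 d) =>
    gl₂_pt (A := A) (u := u) (γ := γ) (γ' := γ') h hδ hq
    (fun γ₁ a γ₁' b p hp' _ _ => ⟨hu γ₁ a γ₁' b p hp', (hp γ₁ a γ₁' b).levi_nonneg
      (((C.isOpen_B 2 a).prod (C.isOpen_B 2 b)).mem_nhds hp')
      (levi_ρ₂ ⟨B24 _ hp'.1, B24 _ hp'.2⟩ ((hu γ₁ a γ₁' b p hp').of_le two_le_inf) A).1⟩)
    fun γ₁ a γ₁' b p hp γ₂ a₂ γ₂' b₂ p₂ hp₂ e₁ e₁' e₂ e₂' =>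
      hg γ₁ a γ₁' b p hp γ₂ a₂ γ₂' b₂ p₂ hp₂ (e₁.symm.trans e₂) (e₁'.symm.trans e₂')
  refine ⟨gl₂ Θ δ u, fun γ a γ' b q hq => (k γ a γ' b q hq).1, fun γ a γ' b =>
    psh_of_levi fun q hq => ?_, fun γ a γ' b q hq => (gl₂_abs h hδ
      fun γ₁ a₁ γ₁' b₁ p hp e e' => abs_le.2 ⟨?_, ?_⟩).trans (by nlinarith), fun hi γ x y => ?_,
    gl₂_symm h⟩
  · obtain ⟨k1, k2⟩ := k γ a γ' b q hq
    obtain ⟨k3, k4⟩ := levi_ρ₂ hq (k1.of_le two_le_inf) (A + (2 * exp 1 *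
      (Fintype.card (C.I × C.I) * (3 * K)) + (1 + Fintype.card (C.I × C.I))) * δ)
    refine ⟨k3, fun w => ?_⟩
    rw [k4]
    linarith [k2 w, mul_nonneg (mul_pos h1 hδ).le
      (add_nonneg (levi_ρ_nonneg C hq.1 w.1) (levi_ρ_nonneg C hq.2 w.2))]
  · linarith [hg γ a γ' b q hq γ₁ a₁ γ₁' b₁ p hp e e']
  · linarith [hg γ₁ a₁ γ₁' b₁ p hp γ a γ' b q hq e.symm e'.symm]
  · rw [gl₂_smul h]
    exact congrArg (fun u => gl₂ Θ δ u x y)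
      (funext fun γ₁ => funext fun a => funext fun γ₂ => funext fun b => hi γ γ₁ a γ₂ b)

end Vale.Agent.P284Y.Lib
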