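import Vale.Agent.P284Y.Lib.Gl1
import Vale.Agent.P284Y.Lib.Gl2

/-!
# P284Y, library: gluing of continuous pieces, regularisation of Richberg
-/

set_option linter.unusedVariables false

open scoped ContDiff Topology ComplexOrder
open Filter Set Function Metric

noncomputable section

namespace Vale.Agent.P284Y.Lib

open Vale.Agent.P272.K Vale.Agent.P284Z

section sm
variable {W : Type} [NormedAddCommGroup W] [NormedSpace ℂ W] [FiniteDimensional ℂ W]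
  {u : W → ℝ} {U K : Set W} {ε : ℝ}

theorem exists_smo (hU : IsOpen U) (hK : IsCompact K) (hKU : K ⊆ U) (hc : ContinuousOn u U)
    (h : Psh u U) (hε : 0 < ε) :
    ∃ v : W → ℝ, ContDiff ℝ ∞ v ∧ Psh v K ∧ ∀ z ∈ K, u z ≤ v z ∧ v z ≤ u z + ε := by
  have : ProperSpace W := Z.proper
  obtain ⟨δ, h1, h2⟩ := hK.exists_cthickening_subset_open hU hKU
  obtain ⟨η, h3, h4⟩ := Metric.uniformContinuousOn_iff_le.1
    (hK.cthickening.uniformContinuousOn_of_continuous (hc.mono h2)) ε hε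
  obtain ⟨v, v1, v2, v3⟩ := h.reg (.of_cont hc) hU hK (lt_min h1 h3)
    ((cthickening_mono (min_le_left _ _) K).trans h2)
  refine ⟨v, v1, v2, fun z hz => ⟨(v3 z hz).1, (v3 z hz).2 _ fun x hx => ?_⟩⟩
  have := h4 x (closedBall_subset_cthickening hz δ (closedBall_subset_closedBall
    (min_le_left _ _) hx)) z (self_subset_cthickening K hz) (hx.trans (min_le_right _ _))
  linarith [(abs_le.1 this).2]

open Classical in
/-- a smooth approximation, chosen once and for all -/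
def smo (u : W → ℝ) (K : Set W) (ε : ℝ) : W → ℝ :=
  if h : ∃ v : W → ℝ, ContDiff ℝ ∞ v ∧ Psh v K ∧ ∀ z ∈ K, u z ≤ v z ∧ v z ≤ u z + ε then h.choose
  else 0

theorem smo_spec (hU : IsOpen U) (hK : IsCompact K) (hKU : K ⊆ U) (hc : ContinuousOn u U)
    (h : Psh u U) (hε : 0 < ε) : ContDiff ℝ ∞ (smo u K ε) ∧ Psh (smo u K ε) K ∧
      ∀ z ∈ K, u z ≤ smo u K ε z ∧ smo u K ε z ≤ u z + ε := by
  have e := exists_smo hU hK hKU hc h hε
  rw [smo, dif_pos e]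
  exact e.choose_spec

end sm

variable {n : ℕ} {Γ E : Type} [Group Γ] [TopologicalSpace E] [T2Space E] [MulAction Γ E]
  (C : Cov n Γ E)

/-- **GL** for continuous pieces, one variable -/
theorem glc [Countable Γ] : ∃ K > (0 : ℝ), ∀ (A δ k : ℝ) (u : Γ → C.I → Cm n → ℝ), 0 < δ → 2 < k →
    k ≤ 4 → (∀ γ a, ContinuousOn (u γ a) (C.B k a)) →
    (∀ γ a, Psh (fun w => A * C.ρ a w + u γ a w) (C.B k a)) →
    (∀ γ a γ' b, ∀ z ∈ C.B 2 a, ∀ z' ∈ C.B 2 b, C.pt γ a z = C.pt γ' b z' →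
      u γ a z ≤ u γ' b z' + δ) →
    ∃ g : E → ℝ, (∀ y, C.SmAt g y) ∧
      (∀ γ a, ∀ z ∈ C.B 4 a, (C.om (A + K * δ) g γ a z).PosSemidef) ∧
      (∀ γ a, ∀ z ∈ C.B 2 a, |g (C.pt γ a z) - u γ a z| ≤ K * δ) ∧
      ((∀ γ a, u γ a = u 1 a) → ∀ (γ : Γ) y, g (γ • y) = g y) := by
  obtain ⟨K, hK, H⟩ := gl n Γ E C
  refine ⟨2 * K + 1, by positivity, fun A δ k u hδ hk hk' hc hp hg => ?_⟩
  have S := fun γ a => smo_spec (u := fun w => A * C.ρ a w + u γ a w) (C.isOpen_B k a) (C.isCompact_cB 2 a) (C.cB_sub_B hk a)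
    (((C.ρ_cont a).mono (C.B_mono hk' a)).const_mul A |>.add (hc γ a)) (hp γ a) hδ
  obtain ⟨g, g1, g2, g3, g4⟩ := H A (2 * δ) univ
    (fun γ a z => smo (fun w => A * C.ρ a w + u γ a w) (C.cB 2 a) δ z - A * C.ρ a z) (by positivity)
    isOpen_univ (fun γ a z hz _ => ⟨(S γ a).1.contDiffAt.sub (contDiffAt_const.mul
      (C.ρ_sm a z (B24 a hz))), by
        simp only [add_sub_cancel]
        exact (S γ a).2.1.cHess_psd (mem_of_superset ((C.isOpen_B 2 a).mem_nhds hz) (C.B_sub_cB 2 a))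
          ((S γ a).1.contDiffAt.of_le two_le_inf)⟩)
    fun γ a γ' b z hz z' hz' e _ => by
      linarith [((S γ a).2.2 z (C.B_sub_cB 2 a hz)).2, ((S γ' b).2.2 z' (C.B_sub_cB 2 b hz')).1,
        hg γ a γ' b z hz z' hz' e]
  refine ⟨g, fun y => g1 y trivial, fun γ a z hz => om_mono hz ((g1 _ trivial γ a z hz rfl).of_le
    two_le_inf) (by nlinarith)
    (g2 γ a z hz trivial), fun γ a z hz => ?_, fun h => g4 fun γ a => by rw [h γ a]⟩
  have h1 := abs_le.1 (g3 γ a z hz trivial)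
  have h2 := (S γ a).2.2 z (C.B_sub_cB 2 a hz)
  exact abs_le.2 ⟨by linarith [h1.1, h2.1], by linarith [h1.2, h2.2]⟩

omit [T2Space E] in
theorem ρ₂_cont (A : ℝ) (a b : C.I) :
    ContinuousOn (fun q : Cm n × Cm n => A * C.ρ a q.1 + A * C.ρ b q.2) (C.B 4 a ×ˢ C.B 4 b) :=
  (((C.ρ_cont a).comp continuousOn_fst fun _ h => h.1).const_mul A).add
    (((C.ρ_cont b).comp continuousOn_snd fun _ h => h.2).const_mul A)

omit [T2Space E] in
theorem QP₂.mono' {A A' : ℝ} {g : E → E → ℝ} (h : QP₂ C A g) (hs : Sm₂ C g) (hA : A ≤ A') :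
    QP₂ C A' g := fun γ a γ' b => by
  have h1 : ContinuousOn (fun q : Cm n × Cm n => g (C.pt γ a q.1) (C.pt γ' b q.2))
      (C.B 4 a ×ˢ C.B 4 b) := fun q hq => (hs γ a γ' b q hq).continuousAt.continuousWithinAt
  have l1 : LB (fun q : Cm n × Cm n => (A' - A) * C.ρ a q.1) (C.B 4 a ×ˢ C.B 4 b) :=
    .of_cont (((C.ρ_cont a).comp continuousOn_fst fun _ h => h.1).const_mul _)
  have l2 : LB (fun q : Cm n × Cm n => (A' - A) * C.ρ b q.2) (C.B 4 a ×ˢ C.B 4 b) :=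
    .of_cont (((C.ρ_cont b).comp continuousOn_snd fun _ h => h.2).const_mul _)
  have h2 := ((((C.ρ_psh a).fst (C.B 4 b)).const_mul (sub_nonneg.2 hA)).add
    (((C.ρ_psh b).snd (C.B 4 a)).const_mul (sub_nonneg.2 hA)) l1 l2).add (h γ a γ' b) (l1.add l2)
    (.of_cont ((ρ₂_cont C A a b).add h1))
  exact h2.congr fun q _ => by ring

/-- **GL** for continuous pieces, two variables -/
theorem glc₂ : ∃ K > (0 : ℝ), ∀ (A δ k : ℝ) (u : Γ → C.I → Γ → C.I → Cm n × Cm n → ℝ), 0 < δ →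
    2 < k → k ≤ 4 → (∀ γ a γ' b, ContinuousOn (u γ a γ' b) (C.B k a ×ˢ C.B k b)) →
    (∀ γ a γ' b, Psh (fun q : Cm n × Cm n => A * C.ρ a q.1 + A * C.ρ b q.2 + u γ a γ' b q)
      (C.B k a ×ˢ C.B k b)) →
    (∀ γ a γ' b, ∀ q ∈ C.B 2 a ×ˢ C.B 2 b, ∀ γ₁ a₁ γ₁' b₁, ∀ q₁ ∈ C.B 2 a₁ ×ˢ C.B 2 b₁,
      C.pt γ a q.1 = C.pt γ₁ a₁ q₁.1 → C.pt γ' b q.2 = C.pt γ₁' b₁ q₁.2 →
      u γ a γ' b q ≤ u γ₁ a₁ γ₁' b₁ q₁ + δ) →
    ∃ g : E → E → ℝ, Sm₂ C g ∧ QP₂ C (A + K * δ) g ∧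
      (∀ γ a γ' b, ∀ q ∈ C.B 2 a ×ˢ C.B 2 b,
        |g (C.pt γ a q.1) (C.pt γ' b q.2) - u γ a γ' b q| ≤ K * δ) ∧
      ((∀ g γ a γ' b, u (g * γ) a (g * γ') b = u γ a γ' b) →
        ∀ (γ : Γ) x y, g (γ • x) (γ • y) = g x y) ∧
      ((∀ γ a γ' b z z', u γ a γ' b (z, z') = u γ' b γ a (z', z)) → ∀ x y, g x y = g y x) := by
  obtain ⟨K, hK, H⟩ := gl2 n Γ E C
  refine ⟨2 * K + 1, by positivity, fun A δ k u hδ hk hk' hc hp hg => ?_⟩
  set v : Γ → C.I → Γ → C.I → Cm n × Cm n → ℝ := fun γ a γ' b => smo (fun q : Cm n × Cm n =>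
    A * C.ρ a q.1 + A * C.ρ b q.2 + u γ a γ' b q) (C.cB 2 a ×ˢ C.cB 2 b) δ with hv
  have S : ∀ γ a γ' b, ContDiff ℝ ∞ (v γ a γ' b) ∧ Psh (v γ a γ' b) (C.cB 2 a ×ˢ C.cB 2 b) ∧
      ∀ q ∈ C.cB 2 a ×ˢ C.cB 2 b, A * C.ρ a q.1 + A * C.ρ b q.2 + u γ a γ' b q ≤ v γ a γ' b q ∧
        v γ a γ' b q ≤ A * C.ρ a q.1 + A * C.ρ b q.2 + u γ a γ' b q + δ :=
    fun γ a γ' b => smo_spec ((C.isOpen_B k a).prod (C.isOpen_B k b))
      ((C.isCompact_cB 2 a).prod (C.isCompact_cB 2 b)) (prod_mono (C.cB_sub_B hk a) (C.cB_sub_B hk b))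
      (((ρ₂_cont C A a b).mono (prod_mono (C.B_mono hk' a) (C.B_mono hk' b))).add (hc γ a γ' b))
      (hp γ a γ' b) hδ
  have sub : ∀ a b, C.B 2 a ×ˢ C.B 2 b ⊆ C.cB 2 a ×ˢ C.cB 2 b := fun a b =>
    prod_mono (C.B_sub_cB 2 a) (C.B_sub_cB 2 b)
  -- the pieces, symmetric if `u` is symmetric
  obtain ⟨w, w1, w2, w3, w4, w5⟩ : ∃ w : Γ → C.I → Γ → C.I → Cm n × Cm n → ℝ,
      (∀ γ a γ' b, ContDiff ℝ ∞ (w γ a γ' b)) ∧ (∀ γ a γ' b, Psh (w γ a γ' b) (C.B 2 a ×ˢ C.B 2 b)) ∧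
      (∀ γ a γ' b, ∀ q ∈ C.B 2 a ×ˢ C.B 2 b,
        A * C.ρ a q.1 + A * C.ρ b q.2 + u γ a γ' b q ≤ w γ a γ' b q ∧
        w γ a γ' b q ≤ A * C.ρ a q.1 + A * C.ρ b q.2 + u γ a γ' b q + δ) ∧
      ((∀ g γ a γ' b, u (g * γ) a (g * γ') b = u γ a γ' b) →
        ∀ g γ a γ' b, w (g * γ) a (g * γ') b = w γ a γ' b) ∧
      ((∀ γ a γ' b z z', u γ a γ' b (z, z') = u γ' b γ a (z', z)) →
        ∀ γ a γ' b z z', w γ a γ' b (z, z') = w γ' b γ a (z', z)) := by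
    have i1 : (∀ g γ a γ' b, u (g * γ) a (g * γ') b = u γ a γ' b) →
        ∀ g γ a γ' b, v (g * γ) a (g * γ') b = v γ a γ' b := fun h g γ a γ' b => by
      simp only [hv, h g γ a γ' b]
    by_cases hs : ∀ γ a γ' b z z', u γ a γ' b (z, z') = u γ' b γ a (z', z)
    swap
    · exact ⟨v, fun γ a γ' b => (S γ a γ' b).1, fun γ a γ' b => (S γ a γ' b).2.1.mono (sub a b),
        fun γ a γ' b q hq => (S γ a γ' b).2.2 q (sub a b hq), i1, fun h => (hs h).elim⟩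
    have sw : ∀ γ a γ' b, ContDiff ℝ ∞ fun q : Cm n × Cm n => v γ' b γ a (q.2, q.1) :=
      fun γ a γ' b => (S γ' b γ a).1.comp (contDiff_snd.prodMk contDiff_fst)
    refine ⟨fun γ a γ' b q => 2⁻¹ * (v γ a γ' b q + v γ' b γ a (q.2, q.1)), fun γ a γ' b =>
      contDiff_const.mul ((S γ a γ' b).1.add (sw γ a γ' b)), fun γ a γ' b => ?_,
      fun γ a γ' b q hq => ?_, fun h g γ a γ' b => by simp only [i1 h], fun _ γ a γ' b z z' => by
        simp only [add_comm]⟩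
    · refine (((S γ a γ' b).2.1.mono (sub a b)).add ?_ (.of_cont (S γ a γ' b).1.continuous.continuousOn)
        (.of_cont (sw γ a γ' b).continuous.continuousOn)).const_mul (by norm_num)
      simpa using ((S γ' b γ a).2.1.affine 0
        ((ContinuousLinearMap.snd ℂ _ _).prod (ContinuousLinearMap.fst ℂ _ _))).mono
        (U' := C.B 2 a ×ˢ C.B 2 b) fun q hq => by simpa using (sub a b hq).symm
    · have h1 := (S γ a γ' b).2.2 q (sub a b hq)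
      have h2 := (S γ' b γ a).2.2 (q.2, q.1) (sub b a ⟨hq.2, hq.1⟩)
      rw [← hs] at h2
      exact ⟨by linarith [h1.1, h2.1], by linarith [h1.2, h2.2]⟩
  obtain ⟨g, g1, g2, g3, g4, g5⟩ := H A (2 * δ)
    (fun γ a γ' b q => w γ a γ' b q - (A * C.ρ a q.1 + A * C.ρ b q.2)) (by positivity)
    (fun γ a γ' b q hq => (w1 γ a γ' b).contDiffAt.sub ((contDiffAt_const.mul
      ((C.ρ_sm a q.1 (B24 a hq.1)).comp q contDiffAt_fst)).add (contDiffAt_const.mul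
      ((C.ρ_sm b q.2 (B24 b hq.2)).comp q contDiffAt_snd))))
    (fun γ a γ' b => by simpa only [add_sub_cancel] using w2 γ a γ' b)
    fun γ a γ' b q hq γ₁ a₁ γ₁' b₁ q₁ hq₁ e e' => by
      linarith [(w3 γ a γ' b q hq).2, (w3 γ₁ a₁ γ₁' b₁ q₁ hq₁).1,
        hg γ a γ' b q hq γ₁ a₁ γ₁' b₁ q₁ hq₁ e e']
  refine ⟨g, g1, g2.mono' C g1 (by nlinarith), fun γ a γ' b q hq => ?_,
    fun h => g4 fun g γ a γ' b => by rw [w4 h], fun h => g5 fun γ a γ' b z z' => by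
      simp only [w5 h γ a γ' b z z', add_comm]⟩
  have h1 := abs_le.1 (g3 γ a γ' b q hq)
  have h2 := w3 γ a γ' b q hq
  exact abs_le.2 ⟨by linarith [h1.1, h2.1], by linarith [h1.2, h2.2]⟩

/-- **RICH** -/
theorem rich : RichSt where
  one n Γ E _ _ _ _ _ C A f hf hq ε hε := by
    obtain ⟨K, hK, H⟩ := glc C
    obtain ⟨g, g1, g2, g3, g4⟩ := H A (ε / K) 4 (fun γ a z => f (C.pt γ a z)) (by positivity)
      (by norm_num) le_rfl (fun γ a => hf.comp_continuousOn (C.continuousOn_pt γ a))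
      (fun γ a => by simpa using hq γ a) fun γ a γ' b z _ z' _ e => by
        rw [e]
        exact le_add_of_nonneg_right (by positivity)
    rw [mul_div_cancel₀ _ hK.ne'] at g2 g3
    refine ⟨g, g1, g2, fun y => ?_, fun h => g4 fun γ a => funext fun z => by rw [C.pt_eq, h]⟩
    obtain ⟨γ, a, z, hz, rfl⟩ := C.exists_pt y
    exact g3 γ a z (C.B_mono one_le_two a hz)
  two n Γ E _ _ _ _ _ C A f hf hq hi hs ε hε := by
    obtain ⟨K, hK, H⟩ := glc₂ C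
    obtain ⟨g, g1, g2, g3, g4, g5⟩ := H A (ε / K) 4
      (fun γ a γ' b q => f (C.pt γ a q.1) (C.pt γ' b q.2)) (by positivity) (by norm_num) le_rfl
      (fun γ a γ' b => hf.comp_continuousOn
        (f := fun q : Cm n × Cm n => (C.pt γ a q.1, C.pt γ' b q.2))
        (((C.continuousOn_pt γ a).comp continuousOn_fst fun _ h => h.1).prodMk
          ((C.continuousOn_pt γ' b).comp continuousOn_snd fun _ h => h.2))) hq
      fun γ a γ' b q _ γ₁ a₁ γ₁' b₁ q₁ _ e e' => by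
        rw [e, e']
        exact le_add_of_nonneg_right (by positivity)
    rw [mul_div_cancel₀ _ hK.ne'] at g2 g3
    refine ⟨g, g1, g2, fun x y => ?_, g4 fun g γ a γ' b => funext fun q => by
      rw [← C.smul_pt, ← C.smul_pt, hi], g5 fun γ a γ' b z z' => hs _ _⟩
    obtain ⟨γ, a, z, hz, rfl⟩ := C.exists_pt x
    obtain ⟨γ', b, z', hz', rfl⟩ := C.exists_pt y
    exact g3 γ a γ' b (z, z') ⟨C.B_mono one_le_two a hz, C.B_mono one_le_two b hz'⟩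

end Vale.Agent.P284Y.Lib
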