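import Vale.Agent.P284Y.Lib.Dg
import Mathlib.Analysis.Calculus.BumpFunction.FiniteDimension

/-!
# P284Y: invariant bump functions on the covering, with bounds of their derivatives
-/

open scoped ContDiff Topology ComplexOrder
open Filter Set Metric Real

noncomputable section

namespace Vale.Agent.P284Y.Lib

open Vale.Agent.P272.K Vale.Agent.P284Z

section alt
variable {W : Type} [NormedAddCommGroup W] [NormedSpace ℝ W] [NormedSpace ℂ W] {z w : W}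

theorem levi_smul (u : W → ℝ) [IsScalarTower ℝ ℂ W] (t : ℝ) :
    levi u z (t • w) = t ^ 2 * levi u z w := by
  simp only [levi, smul_comm Complex.I t w, map_smul, smul_apply, smul_eq_mul]
  ring

theorem gsq_smul (u : W → ℝ) [IsScalarTower ℝ ℂ W] (t : ℝ) :
    gsq u z (t • w) = t ^ 2 * gsq u z w := by
  simp only [gsq, smul_comm Complex.I t w, map_smul, smul_eq_mul]
  ring

theorem levi_contAt {u : W → ℝ} (hu : ContDiffAt ℝ 2 u z) :
    ContinuousAt (fun q : W × W => levi u q.1 q.2) (z, w) := by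
  have h : ContinuousAt (fun q : W × W => fderiv ℝ (fderiv ℝ u) q.1) (z, w) :=
    ContinuousAt.comp (f := Prod.fst) (((hu.fderiv_right (m := 1) (by norm_num)).fderiv_right
      (m := 0) (by norm_num)).continuousAt) continuousAt_fst
  have h' : ContinuousAt (fun q : W × W => Complex.I • q.2) (z, w) := by fun_prop
  exact ((h.clm_apply continuousAt_snd).clm_apply continuousAt_snd).add
    ((h.clm_apply h').clm_apply h')

theorem gsq_contAt {u : W → ℝ} (hu : ContDiffAt ℝ 2 u z) :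
    ContinuousAt (fun q : W × W => gsq u q.1 q.2) (z, w) := by
  have h : ContinuousAt (fun q : W × W => fderiv ℝ u q.1) (z, w) :=
    ContinuousAt.comp (f := Prod.fst) (hu.fderiv_right (m := 1) (by norm_num)).continuousAt
      continuousAt_fst
  have h' : ContinuousAt (fun q : W × W => Complex.I • q.2) (z, w) := by fun_prop
  exact ((h.clm_apply continuousAt_snd).pow 2).add ((h.clm_apply h').pow 2)

/-- on a compact set the derivatives of `f` are dominated by a positive Levi form -/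
theorem exists_levi_bound [IsScalarTower ℝ ℂ W] [ProperSpace W] {K : Set W} {ρ f : W → ℝ}
    (hK : IsCompact K) (hρ : ∀ z ∈ K, ContDiffAt ℝ 2 ρ z ∧ ∀ w, w ≠ 0 → 0 < levi ρ z w)
    (hf : ∀ z ∈ K, ContDiffAt ℝ 2 f z) :
    ∃ M ≥ (0 : ℝ), ∀ z ∈ K, ∀ w, gsq f z w + |levi f z w| ≤ M * levi ρ z w := by
  have hpos : ∀ q ∈ K ×ˢ sphere (0 : W) 1, 0 < levi ρ q.1 q.2 := fun q hq =>
    (hρ q.1 hq.1).2 q.2 (ne_zero_of_mem_unit_sphere ⟨q.2, hq.2⟩)
  have hc : ContinuousOn (fun q : W × W => (gsq f q.1 q.2 + |levi f q.1 q.2|) / levi ρ q.1 q.2)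
      (K ×ˢ sphere (0 : W) 1) := fun q hq =>
    (((gsq_contAt (hf q.1 hq.1)).add (levi_contAt (hf q.1 hq.1)).abs).div
      (levi_contAt (hρ q.1 hq.1).1) (hpos q hq).ne').continuousWithinAt
  obtain ⟨M, hM⟩ := (hK.prod (isCompact_sphere (0 : W) 1)).bddAbove_image hc
  refine ⟨max M 0, le_max_right _ _, fun z hz w => ?_⟩
  by_cases hw : w = 0
  · simp [hw, gsq, levi]
  have hn := norm_pos_iff.2 hw
  have h1 : (z, ‖w‖⁻¹ • w) ∈ K ×ˢ sphere (0 : W) 1 :=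
    ⟨hz, by simp [norm_smul, inv_mul_cancel₀ hn.ne']⟩
  have h2 := (div_le_iff₀ (hpos _ h1)).1 ((hM ⟨_, h1, rfl⟩).trans (le_max_left M 0))
  simp only [levi_smul, gsq_smul, abs_mul, abs_of_nonneg (sq_nonneg ‖w‖⁻¹)] at h2
  exact le_of_mul_le_mul_left (by linarith) (pow_pos (inv_pos.2 hn) 2)

variable {ι : Type} [Fintype ι] {θ f : ι → W → ℝ} {g e K : ℝ} (act : ι → Prop) [DecidablePred act]

omit [NormedSpace ℝ W] [NormedSpace ℂ W] in
theorem glue_ev (h0 : ∀ i, ¬ act i → θ i =ᶠ[𝓝 z] 0) (F : ι → W → ℝ) :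
    ∀ᶠ y in 𝓝 z, ∑ i, θ i y ^ 2 * F i y = ∑ i with act i, θ i y ^ 2 * F i y := by
  have : ∀ᶠ y in 𝓝 z, ∀ i, ¬ act i → θ i y = 0 := eventually_all.2 fun i => by
    by_cases h : act i
    · exact Eventually.of_forall fun _ h' => (h' h).elim
    · exact (h0 i h).mono fun y hy _ => hy
  exact this.mono fun y hy => (Finset.sum_subset (Finset.subset_univ _) fun i _ h => by
    simp [hy i (by simpa using h)]).symm

omit [DecidablePred act] in
/-- the gluing lemma with inactive pieces -/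
theorem glue_alt (hg : 0 < g) (hθ : ∀ i, ContDiffAt ℝ ∞ (θ i) z)
    (h0 : ∀ i, ¬ act i → θ i =ᶠ[𝓝 z] 0) (hf : ∀ i, act i → ContDiffAt ℝ ∞ (f i) z)
    (hgap : ∀ i j, act i → act j → f i z ≤ f j z + g) (h1 : 1 ≤ ∑ i, θ i z ^ 2) :
    ContDiffAt ℝ ∞ (fun y => g * log (∑ i, θ i y ^ 2 * exp (f i y / g))) z ∧
    ∀ w e K, (∀ i, act i → -e ≤ levi (f i) z w) →
      (∀ i, gsq (θ i) z w + |θ i z * levi (θ i) z w| ≤ K) →
      -(e + 2 * exp 1 * (Fintype.card ι * K) * g) ≤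
        levi (fun y => g * log (∑ i, θ i y ^ 2 * exp (f i y / g))) z w := by
  classical
  have e1 : (fun y => g * log (∑ i, θ i y ^ 2 * exp (f i y / g))) =ᶠ[𝓝 z]
      fun y => g * log (∑ i with act i, θ i y ^ 2 * exp (f i y / g)) :=
    (glue_ev act h0 fun i y => exp (f i y / g)).mono fun y hy => by
      beta_reduce
      rw [hy]
  have e2 : 1 ≤ ∑ i with act i, θ i z ^ 2 := by
    simpa using h1.trans_eq (by simpa using (glue_ev act h0 fun _ _ => 1).self_of_nhds)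
  have ha : ∀ i ∈ Finset.univ.filter act, act i := fun i hi => (Finset.mem_filter.1 hi).2
  refine ⟨(glue_smooth _ (fun i _ => hθ i) (fun i hi => hf i (ha i hi)) one_pos
    e2).congr_of_eventuallyEq e1, fun w e K he hK => ?_⟩
  rw [levi_congr e1]
  have := levi_glue (w := w) (K := Fintype.card ι * K) _ hg (fun i _ => (hθ i).of_le two_le_inf)
    (fun i hi => (hf i (ha i hi)).of_le two_le_inf) (fun i hi j hj => hgap i j (ha i hi) (ha j hj))
    one_pos e2 (fun i hi => he i (ha i hi)) ((Finset.sum_le_univ_sum_of_nonneg fun i =>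
      add_nonneg gsq_nonneg (abs_nonneg _)).trans ((Finset.sum_le_card_nsmul _ _ K
        fun i _ => hK i).trans_eq (by simp)))
  simpa only [div_one] using this

theorem glue_abs {θ f : ι → ℝ} {t : ℝ} (hg : 0 < g) (h1 : 1 ≤ ∑ i, θ i ^ 2)
    (h2 : ∀ i, |θ i| ≤ 1) (h : ∀ i, θ i ≠ 0 → |f i - t| ≤ g) :
    |g * log (∑ i, θ i ^ 2 * exp (f i / g)) - t| ≤ (1 + Fintype.card ι) * g := by
  obtain ⟨a, b⟩ := glue_bounds Finset.univ (f := f) (lo := t - g) (hi := t + g) hg one_pos h1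
    fun i _ hi => by constructor <;> linarith [abs_le.1 (h i hi)]
  have c : ∑ i, θ i ^ 2 ≤ Fintype.card ι :=
    (Finset.sum_le_card_nsmul _ _ 1 fun i _ => (sq_le_one_iff_abs_le_one _).2 (h2 i)).trans_eq
      (by simp)
  have d := mul_le_mul_of_nonneg_left
    ((log_le_self (zero_le_one.trans h1)).trans c) hg.le
  have d' := mul_nonneg hg.le (log_nonneg h1)
  have d'' : 0 ≤ (Fintype.card ι : ℝ) * g := by positivity
  rw [abs_le]
  constructor <;> linarith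

end alt

variable {n : ℕ} {Γ E : Type} [Group Γ] [TopologicalSpace E] [MulAction Γ E] (C : Cov n Γ E)
  {γ γ' g : Γ} {a b : C.I} {z w : Cm n} {y : E}

open Classical in
/-- the function which is `f γ` in the chart `a` of the sheet `γ`, and zero elsewhere -/
def loc (a : C.I) (f : Γ → Cm n → ℝ) (y : E) : ℝ :=
  if h : ∃ γ, y ∈ (C.ch γ a).source then f h.choose (C.co h.choose a y) else 0

variable {f : Γ → Cm n → ℝ}

theorem sheet_uniq (h : y ∈ (C.ch γ a).source) (h' : y ∈ (C.ch γ' a).source) : γ = γ' := by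
  have := C.disj (γ'⁻¹ * γ) a (γ⁻¹ • y) h (by rw [mul_smul, smul_inv_smul]; exact h')
  exact (inv_mul_eq_one.1 this).symm

theorem loc_of_mem (h : y ∈ (C.ch γ a).source) : loc C a f y = f γ (C.co γ a y) := by
  have h' : ∃ γ, y ∈ (C.ch γ a).source := ⟨γ, h⟩
  rw [loc, dif_pos h', sheet_uniq C h'.choose_spec h]

theorem loc_of_not (h : ∀ γ, y ∉ (C.ch γ a).source) : loc C a f y = 0 :=
  dif_neg (not_exists.2 h)

theorem loc_pt (hz : z ∈ C.B 4 a) : loc C a f (C.pt γ a z) = f γ z := by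
  rw [loc_of_mem C (C.pt_mem hz γ), C.co_pt hz]

theorem smul_mem_ch : g • y ∈ (C.ch (g * γ) a).source ↔ y ∈ (C.ch γ a).source := by
  show (g * γ)⁻¹ • g • y ∈ (C.e a).source ↔ γ⁻¹ • y ∈ (C.e a).source
  rw [mul_inv_rev, mul_smul, inv_smul_smul]

theorem loc_smul : loc C a f (g • y) = loc C a (fun γ => f (g * γ)) y := by
  by_cases h : ∃ γ, y ∈ (C.ch γ a).source
  · obtain ⟨γ, h⟩ := h
    rw [loc_of_mem C h, loc_of_mem C ((smul_mem_ch C).2 h), C.co_smul]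
  · rw [loc_of_not C (not_exists.1 h), loc_of_not C fun γ h' => h ⟨g⁻¹ * γ, ?_⟩]
    rwa [← smul_mem_ch C (g := g), mul_inv_cancel_left]

/-- two charts at the same point -/
theorem two_charts {z' : Cm n} (hz : z ∈ C.B 4 b) (hz' : z' ∈ C.B 4 a)
    (h : C.pt γ b z = C.pt γ' a z') : ∃ s : Cm n → Cm n, AnalyticAt ℂ s z ∧ s z = z' ∧
      (∀ᶠ x in 𝓝 z, s x ∈ C.B 4 a ∧ C.pt γ b x = C.pt γ' a (s x)) ∧
      ∀ w, levi (C.ρ b) z w = levi (C.ρ a) z' (fderiv ℂ s z w) := by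
  obtain ⟨o, e⟩ := C.Ov_of_eq hz hz' h
  refine ⟨_, C.an_tr o, e, (C.ev_Ov o).mono fun x hx => ⟨C.tr_mem hx, by
    rw [C.pt_tr hx, mul_inv_cancel_left]⟩, fun w => ?_⟩
  obtain ⟨t, h1, h2⟩ := C.ρ_ch _ b a z o.1 o.2
  have h3 : ContDiffAt ℝ 2 (C.ρ a) (C.tr (γ'⁻¹ * γ) b a z) :=
    (C.ρ_sm a _ (C.tr_mem o)).of_le two_le_inf
  have h4 : C.ρ b =ᶠ[𝓝 z] fun x => C.ρ a (C.tr (γ'⁻¹ * γ) b a x) + (t x).re := h2
  have h5 : ContDiffAt ℝ 2 (fun x => C.ρ a (C.tr (γ'⁻¹ * γ) b a x)) z :=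
    h3.comp z (((C.an_tr o).contDiffAt (n := 2)).restrict_scalars ℝ)
  have h6 : ContDiffAt ℝ 2 (fun x => (t x).re) z :=
    Complex.reCLM.contDiff.contDiffAt.comp z ((h1.contDiffAt (n := 2)).restrict_scalars ℝ)
  rw [levi_congr h4, levi_add h5 h6, levi_re h1, add_zero, levi_hol (C.an_tr o) h3, e]

theorem levi_ρ_pos (hz : z ∈ C.B 4 a) (hw : w ≠ 0) : 0 < levi (C.ρ a) z w := by
  have h := (C.ρ_pos a z hz).dotProduct_mulVec_pos (x := star w) (star_ne_zero.2 hw)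
  rw [cHess_quad ((C.ρ_sm a z hz).of_le two_le_inf), star_star, Complex.zero_lt_real] at h
  linarith

theorem levi_ρ_nonneg (hz : z ∈ C.B 4 a) (w : Cm n) : 0 ≤ levi (C.ρ a) z w :=
  (cHess_psd_iff ((C.ρ_sm a z hz).of_le two_le_inf)).1 (C.ρ_pos a z hz).posSemidef w

/-- the derivatives of a smooth invariant function are dominated by the Kähler form -/
theorem exists_inv_bound {F : E → ℝ} (hF : ∀ y, C.SmAt F y) (hi : ∀ (g : Γ) y, F (g • y) = F y) :
    ∃ M ≥ (0 : ℝ), ∀ γ b, ∀ z ∈ C.B 4 b, ∀ w, gsq (fun x => F (C.pt γ b x)) z w +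
      |levi (fun x => F (C.pt γ b x)) z w| ≤ M * levi (C.ρ b) z w := by
  have h14 : ∀ a, C.cB 1 a ⊆ C.B 4 a := fun a => C.cB_sub_B (by norm_num) a
  choose M hM0 hM using fun a => exists_levi_bound (ρ := C.ρ a) (f := fun x => F (C.pt 1 a x))
    (C.isCompact_cB 1 a) (fun z hz => ⟨(C.ρ_sm a z (h14 a hz)).of_le two_le_inf,
      fun w hw => levi_ρ_pos C (h14 a hz) hw⟩)
    fun z hz => (hF _ 1 a z (h14 a hz) rfl).of_le two_le_inf
  refine ⟨∑ a, M a, Finset.sum_nonneg fun a _ => hM0 a, fun γ b z hz w => ?_⟩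
  obtain ⟨γ', a, z', hz', e⟩ := C.exists_pt (C.pt γ b z)
  obtain ⟨s, h1, rfl, h3, h4⟩ := two_charts C hz (C.B14 hz') e
  have h5 : (fun x => F (C.pt γ b x)) =ᶠ[𝓝 z] fun x => F (C.pt 1 a (s x)) :=
    h3.mono fun x hx => by
      beta_reduce
      rw [hx.2, C.pt_eq γ', hi]
  have h6 : ContDiffAt ℝ 2 (fun x => F (C.pt 1 a x)) (s z) :=
    (hF _ 1 a _ (C.B14 hz') rfl).of_le two_le_inf
  rw [gsq_congr h5, levi_congr h5, h4, levi_hol h1 h6,
    gsq_hol h1.differentiableAt (h6.differentiableAt two_ne_zero)]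
  exact (hM a _ (C.B_sub_cB 1 a hz') _).trans (mul_le_mul_of_nonneg_right
    (Finset.single_le_sum (fun a _ => hM0 a) (Finset.mem_univ a)) (levi_ρ_nonneg C (C.B14 hz') _))

theorem ev_not_mem [T2Space E] {K : Set (Cm n)} (hK : IsCompact K) (hKa : K ⊆ C.B 4 a)
    (h : ∀ γ, y ∉ C.pt γ a '' K) : ∀ᶠ y' in 𝓝 y, ∀ γ, y' ∉ C.pt γ a '' K := by
  have := C.locallyCompact
  obtain ⟨L, hL, hy⟩ := exists_compact_mem_nhds y
  have hf := C.proper (L ∪ C.pt 1 a '' K) (hL.union (C.isCompact_image_pt 1 hK hKa))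
  have h1 : ∀ᶠ y' in 𝓝 y, ∀ γ ∈ {γ : Γ | ∃ y ∈ L ∪ C.pt 1 a '' K, γ • y ∈ L ∪ C.pt 1 a '' K},
      y' ∉ C.pt γ a '' K := (eventually_all_finite hf).2 fun γ _ =>
    (C.isCompact_image_pt γ hK hKa).isClosed.isOpen_compl.mem_nhds (h γ)
  filter_upwards [h1, hy] with y' h2 h3 γ h4
  obtain ⟨x, hx, rfl⟩ := id h4
  exact h2 γ ⟨C.pt 1 a x, Or.inr ⟨x, hx, rfl⟩, Or.inl (C.pt_eq γ a x ▸ h3)⟩ h4

/-- invariant bump functions -/
structure TH (Θ : C.I → E → ℝ) (K : ℝ) : Prop where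
  sm : ∀ a y, C.SmAt (Θ a) y
  inv : ∀ a (g : Γ) y, Θ a (g • y) = Θ a y
  nonneg : ∀ a y, 0 ≤ Θ a y
  le_one : ∀ a y, Θ a y ≤ 1
  one : ∀ γ a, ∀ z ∈ C.B 1 a, Θ a (C.pt γ a z) = 1
  alt : ∀ a y, (∃ γ, ∃ z ∈ C.B 2 a, y = C.pt γ a z) ∨ Θ a =ᶠ[𝓝 y] 0
  K_nonneg : 0 ≤ K
  bd : ∀ a γ b, ∀ z ∈ C.B 4 b, ∀ w, gsq (fun x => Θ a (C.pt γ b x)) z w +
    |levi (fun x => Θ a (C.pt γ b x)) z w| ≤ K * levi (C.ρ b) z w

theorem exists_th [T2Space E] : ∃ Θ K, TH C Θ K := by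
  set β : ∀ a : C.I, ContDiffBump (C.c a) := fun a =>
    ⟨1 * C.r a, 3 / 2 * C.r a, by linarith [C.r_pos a], by linarith [C.r_pos a]⟩ with hβ
  have h32 : ∀ a, C.cB (3 / 2) a ⊆ C.B 2 a := fun a => C.cB_sub_B (by norm_num) a
  have h24 : ∀ a, C.B 2 a ⊆ C.B 4 a := fun a => C.B_mono (by norm_num) a
  have alt : ∀ a y, (∃ γ, ∃ z ∈ C.B 2 a, y = C.pt γ a z) ∨
      loc C a (fun _ => β a) =ᶠ[𝓝 y] 0 := fun a y => by
    refine or_iff_not_imp_left.2 fun h => ?_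
    refine (ev_not_mem C (C.isCompact_cB (3 / 2) a) ((h32 a).trans (h24 a)) fun γ h' =>
      h (h'.elim fun x hx => ⟨γ, x, h32 a hx.1, hx.2.symm⟩)).mono fun y' hy' => ?_
    by_cases h1 : ∃ γ, y' ∈ (C.ch γ a).source
    · obtain ⟨γ, h1⟩ := h1
      rw [loc_of_mem C h1]
      refine (β a).zero_of_le_dist (not_lt.1 fun h2 => hy' γ ⟨_, le_of_lt h2, C.pt_co h1⟩)
    · exact loc_of_not C (not_exists.1 h1)
  have sm : ∀ a y, C.SmAt (loc C a fun _ => β a) y := by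
    rintro a _ γ b z hz rfl
    obtain ⟨γ', z', hz', e⟩ | h := alt a (C.pt γ b z)
    · obtain ⟨s, h1, -, h3, -⟩ := two_charts C hz (h24 a hz') e
      refine ((β a).contDiffAt.comp z ((h1.contDiffAt (n := ∞)).restrict_scalars ℝ)
        ).congr_of_eventuallyEq (h3.mono fun x hx => ?_)
      beta_reduce
      rw [hx.2, loc_pt C hx.1]
      rfl
    · exact (contDiffAt_const (c := 0)).congr_of_eventuallyEq ((C.ev_pt hz γ).1 h)
  have inv : ∀ a (g : Γ) y, loc C a (fun _ => β a) (g • y) = loc C a (fun _ => β a) y :=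
    fun a g y => loc_smul C
  choose M hM0 hM using fun a => exists_inv_bound C (sm a) (inv a)
  refine ⟨fun a => loc C a fun _ => β a, ∑ a, M a, sm, inv, fun a y => ?_, fun a y => ?_,
    fun γ a z hz => ?_, alt, Finset.sum_nonneg fun a _ => hM0 a, fun a γ b z hz w =>
      (hM a γ b z hz w).trans (mul_le_mul_of_nonneg_right
        (Finset.single_le_sum (fun a _ => hM0 a) (Finset.mem_univ a)) (levi_ρ_nonneg C hz _))⟩
  · unfold loc
    split_ifs
    · exact (β a).nonneg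
    · exact le_rfl
  · unfold loc
    split_ifs
    · exact (β a).le_one
    · exact zero_le_one
  · rw [loc_pt C (C.B14 hz)]
    exact (β a).one_of_mem_closedBall (C.B_sub_cB 1 a hz)

variable {C} {Θ : C.I → E → ℝ} {K : ℝ}

theorem TH.abs_le (h : TH C Θ K) (a : C.I) (y : E) : |Θ a y| ≤ 1 := by
  rw [abs_of_nonneg (h.nonneg a y)]
  exact h.le_one a y

theorem TH.exists_one (h : TH C Θ K) (y : E) : ∃ a, Θ a y = 1 := by
  obtain ⟨γ, a, z, hz, rfl⟩ := C.exists_pt y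
  exact ⟨a, h.one γ a z hz⟩

theorem TH.one_le (h : TH C Θ K) (y : E) : 1 ≤ ∑ a, Θ a y ^ 2 := by
  obtain ⟨a, ha⟩ := h.exists_one y
  have := Finset.single_le_sum (f := fun a => Θ a y ^ 2) (fun _ _ => sq_nonneg _)
    (Finset.mem_univ a)
  rwa [ha, one_pow] at this

theorem TH.act (h : TH C Θ K) (h0 : Θ a y ≠ 0) : ∃ γ, ∃ z ∈ C.B 2 a, y = C.pt γ a z :=
  (h.alt a y).resolve_right fun h' => h0 h'.self_of_nhds

end Vale.Agent.P284Y.Lib
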