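import Vale.Agent.P284Z.F0.Ball
import Vale.Agent.P284Z.F0.Levi

/-!
# P284Y, library: convolution with a rotation invariant kernel
-/

set_option linter.unusedVariables false
set_option linter.unusedSectionVars false

open scoped Topology ContDiff ENNReal
open Filter Set Metric MeasureTheory Real

noncomputable section

namespace Vale.Agent.P284Y.Lib

open Vale.Agent.P284Z

variable {W : Type} [NormedAddCommGroup W] [NormedSpace ℂ W] [FiniteDimensional ℂ W]
  [MeasurableSpace W] [BorelSpace W] (μ : Measure W) [μ.IsAddHaarMeasure]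

/-- the kernel of radius `1` -/
def ker₁ : W → ℝ := (exists_kernel μ one_pos).choose

/-- the kernel of radius `r` -/
def ker (r : ℝ) (w : W) : ℝ := (r ^ Module.finrank ℝ W)⁻¹ * ker₁ μ (r⁻¹ • w)

/-- the convolution at the scale `r` -/
def cv (r : ℝ) (u : W → ℝ) (z : W) : ℝ := ∫ w, ker μ r w * u (z + w) ∂μ

variable {μ} {r R t c M : ℝ} {u v P : W → ℝ} {U O : Set W} {z x : W}

theorem ker_sm (r : ℝ) : ContDiff ℝ ∞ (ker μ r) :=
  contDiff_const.mul ((exists_kernel μ one_pos).choose_spec.1.comp (contDiff_id.const_smul r⁻¹))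

theorem ker_nonneg (hr : 0 < r) (w : W) : 0 ≤ ker μ r w :=
  mul_nonneg (by positivity) ((exists_kernel μ one_pos).choose_spec.2.2.1 _)

theorem ker_zero (hr : 0 < r) {w : W} (hw : r < ‖w‖) : ker μ r w = 0 := by
  rw [ker, ker₁, (exists_kernel μ one_pos).choose_spec.2.2.2.1, mul_zero]
  rw [norm_smul, norm_inv, Real.norm_of_nonneg hr.le, ← div_eq_inv_mul, one_lt_div hr]
  exact hw

theorem ker_rot (r : ℝ) (a : ℂ) (ha : ‖a‖ = 1) (w : W) : ker μ r (a • w) = ker μ r w := by
  rw [ker, ker, ker₁, smul_comm, (exists_kernel μ one_pos).choose_spec.2.2.2.2.1 a ha]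

theorem ker_one (hr : 0 < r) : ∫ w, ker μ r w ∂μ = 1 := by
  have : ProperSpace W := Z.proper
  unfold ker
  rw [integral_const_mul, Measure.integral_comp_inv_smul_of_nonneg μ (ker₁ μ) hr.le, ker₁,
    (exists_kernel μ one_pos).choose_spec.2.2.2.2.2, smul_eq_mul, mul_one, inv_mul_cancel₀]
  positivity

theorem ker_cpt (hr : 0 < r) : HasCompactSupport (ker μ r) := by
  have : ProperSpace W := Z.proper
  exact .intro (isCompact_closedBall 0 r) fun w hw => ker_zero hr (by simpa using hw)

theorem ker_int (hr : 0 < r) : Integrable (ker μ r) μ := by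
  have : ProperSpace W := Z.proper
  exact (ker_sm r).continuous.integrable_of_hasCompactSupport (ker_cpt hr)

variable (μ) in
theorem ker_bdd : ∃ C > (0 : ℝ), ∀ r > (0 : ℝ), ∀ w, ker μ r w ≤ C / r ^ Module.finrank ℝ W := by
  obtain ⟨h1, h2, -⟩ := (exists_kernel μ one_pos).choose_spec
  obtain ⟨C, hC⟩ := h1.continuous.bounded_above_of_compact_support h2
  refine ⟨|C| + 1, by positivity, fun r hr w => ?_⟩
  rw [ker, div_eq_inv_mul]
  exact mul_le_mul_of_nonneg_left (((le_abs_self _).trans (hC _)).trans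
    ((le_abs_self C).trans (le_add_of_nonneg_right zero_le_one))) (by positivity)

theorem ker_mul_congr (hr : 0 < r) {a b : W → ℝ} (h : ∀ w, ‖w‖ ≤ r → a w = b w) (w : W) :
    ker μ r w * a w = ker μ r w * b w :=
  (lt_or_ge r ‖w‖).elim (fun hw => by simp only [ker_zero hr hw, zero_mul]) fun hw => by rw [h w hw]

theorem cv_int (hr : 0 < r) (hu : IntegrableOn u (closedBall z r) μ) :
    Integrable (fun w => ker μ r w * u (z + w)) μ := by
  obtain ⟨C, -, hC⟩ := ker_bdd μ
  have h1 := ((integrable_indicator_iff measurableSet_closedBall).2 hu).comp_add_left z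
  refine (h1.bdd_mul (c := C / r ^ Module.finrank ℝ W) (ker_sm r).continuous.aestronglyMeasurable
    (Eventually.of_forall fun w => (Real.norm_of_nonneg (ker_nonneg hr w)).trans_le (hC r hr w))).congr
    (Eventually.of_forall (ker_mul_congr hr fun w hw => indicator_of_mem (by simpa using hw) _))

theorem cv_congr (hr : 0 < r) (h : ∀ y ∈ closedBall z r, u y = v y) : cv μ r u z = cv μ r v z :=
  integral_congr_ae (Eventually.of_forall (ker_mul_congr hr fun w hw => h _ (by simpa using hw)))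

theorem ae_add {p : W → Prop} (h : ∀ᵐ y ∂μ, p y) (z : W) : ∀ᵐ w ∂μ, p (z + w) :=
  (measurePreserving_add_left μ z).quasiMeasurePreserving.ae h

theorem cv_congr_ae (hr : 0 < r) (h : ∀ᵐ y ∂μ, y ∈ closedBall z r → u y = v y) :
    cv μ r u z = cv μ r v z :=
  integral_congr_ae ((ae_add h z).mono fun w hw => (lt_or_ge r ‖w‖).elim
    (fun h' => by simp only [ker_zero hr h', zero_mul]) fun h' => by
      simp only [hw (by simpa using h')])

theorem cv_mono_ae (hr : 0 < r) (hu : IntegrableOn u (closedBall z r) μ)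
    (hv : IntegrableOn v (closedBall z r) μ) (h : ∀ᵐ y ∂μ, y ∈ closedBall z r → u y ≤ v y) :
    cv μ r u z ≤ cv μ r v z :=
  integral_mono_ae (cv_int hr hu) (cv_int hr hv) ((ae_add h z).mono fun w hw =>
    (lt_or_ge r ‖w‖).elim (fun h' => by simp only [ker_zero hr h', zero_mul, le_refl]) fun h' =>
      mul_le_mul_of_nonneg_left (hw (by simpa using h')) (ker_nonneg hr w))

theorem cv_mono (hr : 0 < r) (hu : IntegrableOn u (closedBall z r) μ)
    (hv : IntegrableOn v (closedBall z r) μ) (h : ∀ y ∈ closedBall z r, u y ≤ v y) :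
    cv μ r u z ≤ cv μ r v z := cv_mono_ae hr hu hv (Eventually.of_forall h)

theorem cv_const (hr : 0 < r) (c : ℝ) (z : W) : cv μ r (fun _ => c) z = c := by
  rw [cv, integral_mul_const, ker_one hr, one_mul]

theorem int_const (c : ℝ) (z : W) (r : ℝ) : IntegrableOn (fun _ => c) (closedBall z r) μ := by
  have : ProperSpace W := Z.proper
  exact integrableOn_const measure_closedBall_lt_top.ne

theorem cv_le_ae (hr : 0 < r) (hu : IntegrableOn u (closedBall z r) μ)
    (h : ∀ᵐ y ∂μ, y ∈ closedBall z r → u y ≤ t) : cv μ r u z ≤ t :=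
  (cv_mono_ae hr hu (int_const t z r) h).trans_eq (cv_const hr t z)

theorem cv_le (hr : 0 < r) (hu : IntegrableOn u (closedBall z r) μ)
    (h : ∀ y ∈ closedBall z r, u y ≤ t) : cv μ r u z ≤ t := cv_le_ae hr hu (Eventually.of_forall h)

theorem le_cv_ae (hr : 0 < r) (hu : IntegrableOn u (closedBall z r) μ)
    (h : ∀ᵐ y ∂μ, y ∈ closedBall z r → t ≤ u y) : t ≤ cv μ r u z :=
  (cv_const hr t z).ge.trans (cv_mono_ae hr (int_const t z r) hu h)

theorem le_cv (hr : 0 < r) (hu : IntegrableOn u (closedBall z r) μ)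
    (h : ∀ y ∈ closedBall z r, t ≤ u y) : t ≤ cv μ r u z := le_cv_ae hr hu (Eventually.of_forall h)

theorem abs_cv_sub_le (hr : 0 < r) (hu : IntegrableOn u (closedBall z r) μ)
    (h : ∀ y ∈ closedBall z r, |u y - t| ≤ c) : |cv μ r u z - t| ≤ c :=
  abs_le.2 ⟨by linarith [le_cv (t := t - c) hr hu fun y hy => by linarith [(abs_le.1 (h y hy)).1]],
    by linarith [cv_le (t := t + c) hr hu fun y hy => by linarith [(abs_le.1 (h y hy)).2]]⟩

theorem cv_add (hr : 0 < r) (hu : IntegrableOn u (closedBall z r) μ)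
    (hv : IntegrableOn v (closedBall z r) μ) :
    cv μ r (fun y => u y + v y) z = cv μ r u z + cv μ r v z := by
  simp only [cv, mul_add]
  exact integral_add (cv_int hr hu) (cv_int hr hv)

theorem cv_sub (hr : 0 < r) (hu : IntegrableOn u (closedBall z r) μ)
    (hv : IntegrableOn v (closedBall z r) μ) :
    cv μ r (fun y => u y - v y) z = cv μ r u z - cv μ r v z := by
  simp only [cv, mul_sub]
  exact integral_sub (cv_int hr hu) (cv_int hr hv)

theorem cv_const_mul (c : ℝ) : cv μ r (fun y => c * u y) z = c * cv μ r u z := by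
  simp only [cv, mul_left_comm _ c]
  exact integral_const_mul _ _

theorem cv_neg : cv μ r (fun y => -u y) z = -cv μ r u z := by
  simp only [cv, mul_neg]
  exact integral_neg _

theorem cv_add_const (hr : 0 < r) (hu : IntegrableOn u (closedBall z r) μ) (c : ℝ) :
    cv μ r (fun y => u y + c) z = cv μ r u z + c := by
  rw [cv_add hr hu (int_const c z r), cv_const hr]

/-- the convolution of an integrable function is smooth -/
theorem cv_smooth₀ (hr : 0 < r) (hu : Integrable u μ) : ContDiff ℝ ∞ (cv μ r u) := by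
  have : ProperSpace W := Z.proper
  convert (ker_cpt (μ := μ) hr).contDiff_convolution_right (ContinuousLinearMap.mul ℝ ℝ)
    hu.locallyIntegrable (ker_sm r) using 1
  funext y
  rw [convolution_mul, ← integral_add_left_eq_self (fun t => u t * ker μ r (y - t)) y, cv]
  refine integral_congr_ae (Eventually.of_forall fun w => ?_)
  have := ker_rot (μ := μ) r (-1) (by simp) w
  simp only [neg_smul, one_smul] at this
  simp [this, mul_comm]

theorem cv_smooth' (hr : 0 < r) (hR : r < R) (hu : IntegrableOn u (closedBall z R) μ) :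
    ContDiffAt ℝ ∞ (cv μ r u) z := by
  refine (cv_smooth₀ hr ((integrable_indicator_iff measurableSet_closedBall).2 hu)).contDiffAt.congr_of_eventuallyEq ?_
  filter_upwards [closedBall_mem_nhds z (sub_pos.2 hR)] with y hy
  exact cv_congr hr fun x hx => (indicator_of_mem (closedBall_subset_closedBall'
    (by linarith [mem_closedBall.1 hy]) hx) _).symm

theorem exists_big (hU : IsOpen U) (hr : 0 ≤ r) (hB : closedBall z r ⊆ U) :
    ∃ R > r, closedBall z R ⊆ U := by
  have : ProperSpace W := Z.proper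
  obtain ⟨δ, h1, h2⟩ := (isCompact_closedBall z r).exists_cthickening_subset_open hU hB
  exact ⟨δ + r, by linarith, cthickening_closedBall h1.le hr z ▸ h2⟩

/-- `u` is integrable on the compact subsets of `U` -/
def Lc (μ : Measure W) (u : W → ℝ) (U : Set W) : Prop :=
  ∀ K, IsCompact K → K ⊆ U → IntegrableOn u K μ

theorem Lc.ball (h : Lc μ u U) (hB : closedBall z r ⊆ U) : IntegrableOn u (closedBall z r) μ := by
  have : ProperSpace W := Z.proper
  exact h _ (isCompact_closedBall z r) hB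

theorem Lc.mono (h : Lc μ u U) (hO : O ⊆ U) : Lc μ u O := fun K h1 h2 => h K h1 (h2.trans hO)

theorem Lc.add (h : Lc μ u U) (h' : Lc μ v U) : Lc μ (fun y => u y + v y) U :=
  fun K h1 h2 => (h K h1 h2).add (h' K h1 h2)

theorem Lc.sub (h : Lc μ u U) (h' : Lc μ v U) : Lc μ (fun y => u y - v y) U :=
  fun K h1 h2 => (h K h1 h2).sub (h' K h1 h2)

theorem Lc.const_mul (h : Lc μ u U) (c : ℝ) : Lc μ (fun y => c * u y) U :=
  fun K h1 h2 => Integrable.const_mul (h K h1 h2) c

theorem lc_cont (h : ContinuousOn u U) : Lc μ u U :=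
  fun K h1 h2 => (h.mono h2).integrableOn_compact h1

theorem lc_usc (h : UpperSemicontinuousOn u U) (hb : LB u U) : Lc μ u U :=
  fun K h1 h2 => usc_integrableOn μ h hb h1 h2

theorem lc_psh (h : Psh u U) (hb : LB u U) : Lc μ u U := lc_usc h.1 hb

theorem lc_log (h : LPsh P U) (hU : IsOpen U) (hc : IsPreconnected U) (h0 : ∃ z ∈ U, 0 < P z) :
    Lc μ (fun y => log (P y)) U := fun K h1 h2 => h.integrableOn_log μ hU hc h0 h1 h2

theorem cv_smooth (hr : 0 < r) (hU : IsOpen U) (hu : Lc μ u U) (hB : closedBall z r ⊆ U) :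
    ContDiffAt ℝ ∞ (cv μ r u) z :=
  (exists_big hU hr.le hB).elim fun R hR => cv_smooth' hr hR.1 (hu.ball hR.2)

theorem cv_cont (hr : 0 < r) (hU : IsOpen U) (hu : Lc μ u U) (hO : ∀ z ∈ O, closedBall z r ⊆ U) :
    ContinuousOn (cv μ r u) O :=
  fun z hz => (cv_smooth hr hU hu (hO z hz)).continuousAt.continuousWithinAt

/-- the sub-mean value inequality -/
theorem self_le_cv (hr : 0 < r) (hU : IsOpen U) (h : Psh u U) (hb : LB u U)
    (hB : closedBall z r ⊆ U) : u z ≤ cv μ r u z := by
  have : ProperSpace W := Z.proper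
  obtain ⟨V, v1, v2, hV⟩ := h.exists_bp hb hU (isCompact_closedBall z r) hB
  have := hV.kernel (μ := μ) v1 (ker_int hr) (ker_nonneg hr) (fun w => ker_zero hr) (ker_rot r)
  rwa [ker_one hr, mul_one] at this

theorem cv_psh (hr : 0 < r) (hU : IsOpen U) (h : Psh u U) (hb : LB u U)
    (hO : ∀ z ∈ O, closedBall z r ⊆ U) : Psh (cv μ r u) O := by
  have : ProperSpace W := Z.proper
  refine ⟨(cv_cont hr hU (lc_psh h hb) hO).upperSemicontinuousOn, fun z w hw => ?_⟩
  have hK : IsCompact ((fun p : ℂ × W => z + p.1 • w + p.2) '' (closedBall 0 1 ×ˢ closedBall 0 r)) :=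
    ((isCompact_closedBall 0 1).prod (isCompact_closedBall 0 r)).image (by fun_prop)
  have mem : ∀ ζ : ℂ, ‖ζ‖ ≤ 1 → ∀ x : W, ‖x‖ ≤ r → z + ζ • w + x ∈
      (fun p : ℂ × W => z + p.1 • w + p.2) '' (closedBall 0 1 ×ˢ closedBall 0 r) :=
    fun ζ hζ x hx => ⟨(ζ, x), ⟨by simpa using hζ, by simpa using hx⟩, rfl⟩
  have hKU : (fun p : ℂ × W => z + p.1 • w + p.2) '' (closedBall 0 1 ×ˢ closedBall 0 r) ⊆ U := by
    rintro _ ⟨p, hp, rfl⟩
    exact hO _ (hw p.1 (by simpa using hp.1)) (by simpa using hp.2)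
  obtain ⟨V, v1, v2, hV⟩ := h.exists_bp hb hU hK hKU
  obtain ⟨f, B, m1, m2, m3, -⟩ := hV.cut hK v1
  obtain ⟨s1, s2⟩ := Z.swap m1 m2 (ker_int (μ := μ) hr) (q := fun p => z + p.1 • w + p.2)
    (by fun_prop)
  have e : circleAverage (fun ζ : ℂ => cv μ r u (z + ζ • w)) 0 1 =
      circleAverage (fun ζ : ℂ => ∫ x, ker μ r x * f (z + ζ • w + x) ∂μ) 0 1 :=
    circleAverage_congr_sphere fun ζ hζ => integral_congr_ae (Eventually.of_forall
      (ker_mul_congr hr fun x hx => (m3 _ (mem ζ (le_of_eq (by simpa using hζ)) x hx)).symm))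
  rw [e, s1]
  refine integral_mono (cv_int hr ((lc_psh h hb).ball (hO z (disc_mem hw)))) s2 fun x => ?_
  rcases lt_or_ge r ‖x‖ with hx | hx
  · simp only [ker_zero hr hx, zero_mul, le_refl]
  refine mul_le_mul_of_nonneg_left ?_ (ker_nonneg hr x)
  refine (h.2 (z + x) w fun ζ hζ => hKU (add_right_comm z _ x ▸ mem ζ hζ x hx)).trans_eq
    (circleAverage_congr_sphere fun ζ hζ => ?_)
  simp only [add_right_comm z x]
  exact (m3 _ (mem ζ (le_of_eq (by simpa using hζ)) x hx)).symm

/-- pluriharmonic functions are reproduced -/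
theorem cv_eq_self (hr : 0 < r) (hU : IsOpen U) (hc : ContinuousOn u U) (h : Psh u U)
    (h' : Psh (fun y => -u y) U) (hB : closedBall z r ⊆ U) : cv μ r u z = u z := by
  have h1 := self_le_cv (μ := μ) hr hU h' (.of_cont hc.neg) hB
  rw [cv_neg] at h1
  linarith [self_le_cv (μ := μ) hr hU h (.of_cont hc) hB]

theorem cv_re {g : W → ℂ} (hr : 0 < r) (hU : IsOpen U) (hg : DifferentiableOn ℂ g U)
    (hB : closedBall z r ⊆ U) : cv μ r (fun y => (g y).re) z = (g z).re :=
  cv_eq_self hr hU (Complex.continuous_re.comp_continuousOn hg.continuousOn) (psh_re hU hg)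
    (by simpa using psh_re hU hg.neg) hB

theorem cont_log_norm {g : W → ℂ} (hg : DifferentiableOn ℂ g U) (h0 : ∀ y ∈ U, g y ≠ 0) :
    ContinuousOn (fun y => log ‖g y‖) U :=
  hg.continuousOn.norm.log fun y hy => norm_ne_zero_iff.2 (h0 y hy)

theorem cv_log_norm {g : W → ℂ} (hr : 0 < r) (hU : IsOpen U) (hg : DifferentiableOn ℂ g U)
    (h0 : ∀ y ∈ U, g y ≠ 0) (hB : closedBall z r ⊆ U) :
    cv μ r (fun y => log ‖g y‖) z = log ‖g z‖ :=
  cv_eq_self hr hU (cont_log_norm hg h0) (by simpa using psh_log_norm hU hg h0 1)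
    (by simpa using psh_log_norm hU hg h0 (-1)) hB

theorem cv_log_norm_sq {g : W → ℂ} (hr : 0 < r) (hU : IsOpen U) (hg : DifferentiableOn ℂ g U)
    (h0 : ∀ y ∈ U, g y ≠ 0) (hB : closedBall z r ⊆ U) :
    cv μ r (fun y => log (‖g y‖ ^ 2)) z = log (‖g z‖ ^ 2) := by
  simp only [log_pow]
  rw [cv_const_mul, cv_log_norm hr hU hg h0 hB]

/-! ### logarithms -/

theorem tendsto_cv_lg (hr : 0 < r) (hP : LPsh P U) (hB : closedBall z r ⊆ U)
    (hi : IntegrableOn (fun y => log (P y)) (closedBall z r) μ)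
    (h0 : ∀ᵐ y ∂μ, y ∈ closedBall z r → 0 < P y) :
    Tendsto (fun T : ℝ => cv μ r (fun y => lg T (P y)) z) atTop (𝓝 (cv μ r (fun y => log (P y)) z)) := by
  refine tendsto_integral_filter_of_dominated_convergence
    (fun w => ker μ r w * |log (P (z + w))|) (Eventually.of_forall fun T =>
      (cv_int hr ((lc_psh (hP.2 T) (lb_lg T P U)).ball hB)).aestronglyMeasurable)
    ((eventually_ge_atTop 0).mono fun T hT => (ae_add h0 z).mono fun w hw => ?_) (cv_int hr hi.abs)
    ((ae_add h0 z).mono fun w hw => ?_)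
  · rcases lt_or_ge r ‖w‖ with h | h
    · simp [ker_zero hr h]
    simp only [norm_mul, Real.norm_of_nonneg (ker_nonneg hr w),
      lg_eq_max T (hw (by simpa using h))]
    refine mul_le_mul_of_nonneg_left (abs_le.2 ⟨(neg_abs_le _).trans (le_max_left _ _),
      max_le (le_abs_self _) (by linarith [abs_nonneg (log (P (z + w)))])⟩) (ker_nonneg hr w)
  · rcases lt_or_ge r ‖w‖ with h | h
    · simp [ker_zero hr h]
    exact tendsto_const_nhds.congr' ((ev_lg (hw (by simpa using h))).mono fun T hT => by simp only [hT])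

theorem cv_log_le_lg (hr : 0 < r) (hP : LPsh P U) (hB : closedBall z r ⊆ U)
    (hi : IntegrableOn (fun y => log (P y)) (closedBall z r) μ)
    (h0 : ∀ᵐ y ∂μ, y ∈ closedBall z r → 0 < P y) (T : ℝ) :
    cv μ r (fun y => log (P y)) z ≤ cv μ r (fun y => lg T (P y)) z :=
  cv_mono_ae hr hi ((lc_psh (hP.2 T) (lb_lg T P U)).ball hB)
    (h0.mono fun y hy hy' => log_le_lg _ (hy hy'))

theorem log_le_cv (hr : 0 < r) (hU : IsOpen U) (hP : LPsh P U) (hB : closedBall z r ⊆ U)
    (hi : IntegrableOn (fun y => log (P y)) (closedBall z r) μ)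
    (h0 : ∀ᵐ y ∂μ, y ∈ closedBall z r → 0 < P y) (hz : 0 < P z) :
    log (P z) ≤ cv μ r (fun y => log (P y)) z :=
  ge_of_tendsto' (tendsto_cv_lg hr hP hB hi h0) fun T =>
    (log_le_lg _ hz).trans (self_le_cv hr hU (hP.2 T) (lb_lg T P U) hB)

theorem le_exp_cv (hr : 0 < r) (hU : IsOpen U) (hP : LPsh P U) (hB : closedBall z r ⊆ U)
    (hi : IntegrableOn (fun y => log (P y)) (closedBall z r) μ)
    (h0 : ∀ᵐ y ∂μ, y ∈ closedBall z r → 0 < P y) : P z ≤ exp (cv μ r (fun y => log (P y)) z) :=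
  (le_or_gt (P z) 0).elim (fun h => h.trans (exp_pos _).le) fun h =>
    (log_le_iff_le_exp h).1 (log_le_cv hr hU hP hB hi h0 h)

theorem cv_log_le (hr : 0 < r) (hi : IntegrableOn (fun y => log (P y)) (closedBall z r) μ)
    (h0 : ∀ᵐ y ∂μ, y ∈ closedBall z r → 0 < P y) (hM : ∀ y ∈ closedBall z r, P y ≤ M) :
    cv μ r (fun y => log (P y)) z ≤ log M :=
  cv_le_ae hr hi (h0.mono fun y hy hy' => log_le_log (hy hy') (hM y hy'))

theorem cv_log_psh (hr : 0 < r) (hU : IsOpen U) (hP : LPsh P U) (hi : Lc μ (fun y => log (P y)) U)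
    (h0 : ∀ᵐ y ∂μ, y ∈ U → 0 < P y) (hO : ∀ z ∈ O, closedBall z r ⊆ U) :
    Psh (cv μ r fun y => log (P y)) O := by
  have hc := cv_cont hr hU hi hO
  have hl : ∀ T, Lc μ (fun y => lg T (P y)) U := fun T => lc_psh (hP.2 T) (lb_lg T P U)
  refine psh_of_lim (𝓕 := atTop) (f := fun T : ℝ => cv μ r fun y => lg T (P y))
    hc.upperSemicontinuousOn (.of_cont hc) (Eventually.of_forall fun T =>
      ⟨cv_psh hr hU (hP.2 T) (lb_lg T P U) hO, .of_cont (cv_cont hr hU (hl T) hO)⟩)
    (fun K h1 h2 => ?_) fun z hz => tendsto_cv_lg hr hP (hO z hz) (hi.ball (hO z hz))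
      (h0.mono fun y hy hy' => hy (hO z hz hy'))
  obtain ⟨M, -, hM⟩ := usc_bdd (cv_cont hr hU (hl 0) hO).upperSemicontinuousOn h2 h1
  exact ⟨M, (eventually_ge_atTop 0).mono fun T hT z hz => (cv_mono hr ((hl T).ball (hO z (h1 hz)))
    ((hl 0).ball (hO z (h1 hz))) fun y _ => Z.lg_anti hT _).trans (hM z hz)⟩

/-! ### the lower bound -/

variable (μ) in
/-- the constant of the Harnack type inequalities -/
def cvC : ℝ := (ker_bdd μ).choose * μ.real (ball 0 1)

theorem cvC_pos : 0 < cvC μ := by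
  have : ProperSpace W := Z.proper
  exact mul_pos (ker_bdd μ).choose_spec.1
    (ENNReal.toReal_pos (measure_ball_pos μ 0 one_pos).ne' measure_ball_lt_top.ne)

theorem harnack₀ (hr : 0 < r) (hx : dist z x + r < R) (hu : IntegrableOn u (ball x R) μ)
    (hM : ∀ᵐ y ∂μ, y ∈ ball x R → u y ≤ M)
    (hc : ∫ y in ball x R, (M - u y) ∂μ ≤ c * μ.real (ball x R)) (h0 : 0 ≤ c) :
    M - cvC μ * (R / r) ^ Module.finrank ℝ W * c ≤ cv μ r u z := by
  have : ProperSpace W := Z.proper
  have hR : 0 < R := by linarith [dist_nonneg (x := z) (y := x)]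
  have sub : closedBall z r ⊆ ball x R := closedBall_subset_ball' (by linarith)
  have hi : IntegrableOn (fun y => M - u y) (ball x R) μ :=
    (integrableOn_const measure_ball_lt_top.ne).sub hu
  set K := (ker_bdd μ).choose / r ^ Module.finrank ℝ W with hK
  have K0 : 0 ≤ K := div_nonneg (ker_bdd μ).choose_spec.1.le (by positivity)
  have h1 : cv μ r (fun y => M - u y) z ≤ K * ∫ y in ball x R, (M - u y) ∂μ := by
    rw [← integral_indicator measurableSet_ball, ← integral_add_left_eq_self _ z,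
      ← integral_const_mul]
    refine integral_mono_ae (cv_int hr (hi.mono_set sub)) ((((integrable_indicator_iff
      measurableSet_ball).2 hi).comp_add_left z).const_mul K) ((ae_add hM z).mono fun w hw => ?_)
    rcases lt_or_ge r ‖w‖ with h | h
    · simp only [ker_zero hr h, zero_mul]
      exact mul_nonneg K0 (indicator_apply_nonneg fun h' => sub_nonneg.2 (hw h'))
    · have m : z + w ∈ ball x R := sub (by simpa using h)
      simp only [indicator_of_mem m]
      exact mul_le_mul_of_nonneg_right ((ker_bdd μ).choose_spec.2 r hr w) (sub_nonneg.2 (hw m))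
  rw [cv_sub hr (int_const M z r) (hu.mono_set sub), cv_const hr] at h1
  have h2 : μ.real (ball x R) = R ^ Module.finrank ℝ W * μ.real (ball 0 1) := by
    rw [measureReal_def, Measure.addHaar_ball_of_pos μ x hR, ENNReal.toReal_mul,
      ENNReal.toReal_ofReal (by positivity), measureReal_def]
  have h3 : K * (c * μ.real (ball x R)) = cvC μ * (R / r) ^ Module.finrank ℝ W * c := by
    rw [h2, hK, cvC, div_pow]
    ring
  linarith [mul_le_mul_of_nonneg_left hc K0]

/-- the convolution at `z` is bounded from below by the value at any point `x` near `z` -/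
theorem harnack (hr : 0 < r) (hx : dist z x + r < R) (h : Psh u U) (hb : LB u U)
    (hB : closedBall x R ⊆ U) (hM : ∀ y ∈ ball x R, u y ≤ M) :
    M - cvC μ * (R / r) ^ Module.finrank ℝ W * (M - u x) ≤ cv μ r u z := by
  have : ProperSpace W := Z.proper
  have hR : 0 < R := by linarith [dist_nonneg (x := z) (y := x)]
  have hi := ((lc_psh (μ := μ) h hb).ball hB).mono_set ball_subset_closedBall
  refine harnack₀ hr hx hi (Eventually.of_forall hM) ?_ (sub_nonneg.2 (hM x (mem_ball_self hR)))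
  have hc : IntegrableOn (fun _ => M) (ball x R) μ := integrableOn_const measure_ball_lt_top.ne
  rw [integral_sub hc hi, setIntegral_const, smul_eq_mul]
  linarith [h.le_ball μ hb hB]

theorem harnack_log (hr : 0 < r) (hx : dist z x + r < R) (hP : LPsh P U)
    (hB : closedBall x R ⊆ U) (hM : ∀ y ∈ ball x R, P y ≤ M) (h0 : 0 < P x) :
    log M - cvC μ * (R / r) ^ Module.finrank ℝ W * (log M - log (P x)) ≤
      cv μ r (fun y => log (P y)) z := by
  have : ProperSpace W := Z.proper
  have hR : 0 < R := by linarith [dist_nonneg (x := z) (y := x)]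
  have sub : closedBall z r ⊆ ball x R := closedBall_subset_ball' (by linarith)
  have hb := ball_subset_closedBall.trans hB
  have h' := hP.mono hb
  have a := (hP.lint_ball μ hB hM h0).1
  have M0 := h0.trans_le (hM x (mem_ball_self hR))
  refine ge_of_tendsto (tendsto_cv_lg hr hP (sub.trans hb) ((lc_log h' isOpen_ball
    (convex_ball x R).isPreconnected ⟨x, mem_ball_self hR, h0⟩).ball sub)
    (a.mono fun y hy hy' => hy (sub hy'))) ?_
  filter_upwards [ev_lg h0, eventually_ge_atTop (-log M)] with T h1 h2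
  have := harnack (μ := μ) (M := log M) hr hx (hP.2 T) (lb_lg T P U) hB fun y hy =>
    Z.lg_le_iff.2 ⟨(hM y hy).trans_eq (exp_log M0).symm, by linarith⟩
  rwa [h1] at this

end Vale.Agent.P284Y.Lib
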