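import Vale.Agent.P284Y.Lib.Spec
import Vale.Agent.P284Y.Lib.Kis

/-!
# P284Y, library: attenuation of the singularities
-/

open scoped Topology
open Filter Set Metric

noncomputable section

namespace Vale.Agent.P284Y.Lib

open Vale.Agent.P284Z

namespace Att

variable {W V : Type} [NormedAddCommGroup W] [NormedSpace ℂ W] [NormedAddCommGroup V]
  [NormedSpace ℂ V] [FiniteDimensional ℂ V] {P : W → ℝ} {L : V →L[ℂ] W} {c a b r : ℝ}
  {U O : Set W} {z : W}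

theorem cpt (r : ℝ) : IsCompact (closedBall (0 : V) r) :=
  have := FiniteDimensional.proper ℂ V
  isCompact_closedBall 0 r

theorem attain (hP : LPsh P U) (hb : ∀ z ∈ O, ∀ h : V, ‖h‖ ≤ b → z + L h ∈ U) (hz : z ∈ O)
    (hr : r ∈ Icc 0 b) : (∀ h : V, ‖h‖ ≤ r → P (z + L h) ≤ sb P L r z) ∧
      ∃ h : V, ‖h‖ ≤ r ∧ sb P L r z = P (z + L h) := by
  obtain ⟨h, h1, h2⟩ := UpperSemicontinuousOn.exists_isMaxOn (f := fun h : V => P (z + L h))
    (nonempty_closedBall.2 hr.1) (cpt r) (hP.usc.comp (g := fun h : V => z + L h) (by fun_prop)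
      fun h hh => hb z hz h ((mem_closedBall_zero_iff.1 hh).trans hr.2))
  have bd : BddAbove (range fun h : closedBall (0 : V) r => P (z + L h)) :=
    ⟨P (z + L h), by rintro _ ⟨k, rfl⟩; exact h2 k.2⟩
  have le : ∀ h : V, ‖h‖ ≤ r → P (z + L h) ≤ sb P L r z := fun k hk =>
    le_ciSup bd ⟨k, mem_closedBall_zero_iff.2 hk⟩
  have : Nonempty (closedBall (0 : V) r) := ⟨⟨h, h1⟩⟩
  exact ⟨le, h, mem_closedBall_zero_iff.1 h1,
    le_antisymm (ciSup_le fun k => h2 k.2) (le h (mem_closedBall_zero_iff.1 h1))⟩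

theorem nonneg (hP : LPsh P U) (hb : ∀ z ∈ O, ∀ h : V, ‖h‖ ≤ b → z + L h ∈ U) (hz : z ∈ O)
    (hr : r ∈ Icc 0 b) : 0 ≤ sb P L r z := by
  obtain ⟨h, h1, h2⟩ := (attain hP hb hz hr).2
  rw [h2]
  exact hP.1 _ (hb z hz h (h1.trans hr.2))

theorem mono (hP : LPsh P U) (hb : ∀ z ∈ O, ∀ h : V, ‖h‖ ≤ b → z + L h ∈ U) (hz : z ∈ O)
    {r' : ℝ} (h0 : 0 ≤ r) (h1 : r ≤ r') (h2 : r' ≤ b) : sb P L r z ≤ sb P L r' z := by
  obtain ⟨h, h3, h4⟩ := (attain hP hb hz ⟨h0, h1.trans h2⟩).2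
  rw [h4]
  exact (attain hP hb hz ⟨h0.trans h1, h2⟩).1 h (h3.trans h1)

omit [FiniteDimensional ℂ V] in
theorem scale {h : V} {τ : ℂ} (hh : ‖h‖ ≤ ‖τ‖) : ∃ k : V, ‖k‖ ≤ 1 ∧ h = τ • k := by
  rcases eq_or_ne τ 0 with rfl | hτ
  · exact ⟨0, by simp, by simpa using hh⟩
  · refine ⟨τ⁻¹ • h, ?_, (smul_inv_smul₀ hτ h).symm⟩
    rw [norm_smul, norm_inv, inv_mul_le_iff₀ (norm_pos_iff.2 hτ), mul_one]
    exact hh

omit [FiniteDimensional ℂ V] in
theorem norm_le {k : V} (τ : ℂ) (hk : ‖k‖ ≤ 1) : ‖τ • k‖ ≤ ‖τ‖ := by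
  rw [norm_smul]
  exact mul_le_of_le_one_right (norm_nonneg _) hk

theorem usc (hU : IsOpen U) (hP : LPsh P U) (hb : ∀ z ∈ O, ∀ h : V, ‖h‖ ≤ b → z + L h ∈ U) :
    UpperSemicontinuousOn (fun q : W × ℂ => sb P L ‖q.2‖ q.1) (O ×ˢ closedBall 0 b) := by
  intro q hq t ht
  have hr : ∀ q ∈ O ×ˢ closedBall (0 : ℂ) b, ‖q.2‖ ∈ Icc 0 b := fun q hq =>
    ⟨norm_nonneg _, mem_closedBall_zero_iff.1 hq.2⟩
  have key := (cpt (V := V) 1).eventually_forall_of_forall_eventually (x₀ := q)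
    (P := fun q k => P (q.1 + L (q.2 • k)) < t) fun k hk => by
      have h1 := norm_le q.2 (mem_closedBall_zero_iff.1 hk)
      have h2 := hb _ hq.1 _ (h1.trans (hr q hq).2)
      have h3 := hP.usc _ h2 t (((attain hP hb hq.1 (hr q hq)).1 _ h1).trans_lt ht)
      rw [hU.nhdsWithin_eq h2] at h3
      exact ((by fun_prop : Continuous fun y : (W × ℂ) × V =>
        y.1.1 + L (y.1.2 • y.2)).tendsto (q, k)).eventually h3
  filter_upwards [mem_nhdsWithin_of_mem_nhds key, self_mem_nhdsWithin] with y h1 h2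
  obtain ⟨h, h3, h4⟩ := (attain hP hb h2.1 (hr y h2)).2
  obtain ⟨k, h5, rfl⟩ := scale h3
  rw [h4]
  exact h1 k (mem_closedBall_zero_iff.2 h5)

variable [FiniteDimensional ℂ W]

theorem rad (hU : IsOpen U) (hO : IsOpen O) (hP : LPsh P U)
    (hb : ∀ z ∈ O, ∀ h : V, ‖h‖ ≤ b → z + L h ∈ U) :
    LPsh (fun q : W × ℂ => sb P L ‖q.2‖ q.1) (O ×ˢ ball 0 b) := by
  have hr : ∀ q ∈ O ×ˢ ball (0 : ℂ) b, ‖q.2‖ ∈ Icc 0 b := fun q hq =>
    ⟨norm_nonneg _, (mem_ball_zero_iff.1 hq.2).le⟩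
  refine lpsh_of_sup ((usc hU hP hb).mono (prod_mono_right ball_subset_closedBall))
    (fun q hq => nonneg hP hb hq.1 (hr q hq)) fun q hq t ht _ => ?_
  obtain ⟨h, h3, h4⟩ := (attain hP hb hq.1 (hr q hq)).2
  obtain ⟨k, h5, rfl⟩ := scale h3
  exact ⟨fun y => P (y.1 + L (y.2 • k)), hP.comp hU (hO.prod isOpen_ball) (by fun_prop)
    fun y hy => hb _ hy.1 _ ((norm_le _ h5).trans (hr y hy).2),
    fun y hy => (attain hP hb hy.1 (hr y hy)).1 _ (norm_le _ h5), ht.trans_eq h4⟩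

theorem slice (hU : IsOpen U) (hO : IsOpen O) (hP : LPsh P U)
    (hb : ∀ z ∈ O, ∀ h : V, ‖h‖ ≤ b → z + L h ∈ U) (hr : r ∈ Icc 0 b) : LPsh (sb P L r) O := by
  have e : ‖(r : ℂ)‖ = r := by rw [Complex.norm_real, Real.norm_of_nonneg hr.1]
  have h1 := (usc hU hP hb).comp (g := fun z : W => (z, (r : ℂ))) (t := O) (by fun_prop)
    fun z hz => ⟨hz, mem_closedBall_zero_iff.2 (e.trans_le hr.2)⟩
  simp only [Function.comp_def, e] at h1
  refine lpsh_of_sup h1 (fun z hz => nonneg hP hb hz hr) fun z hz t ht _ => ?_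
  obtain ⟨h, h3, h4⟩ := (attain hP hb hz hr).2
  exact ⟨fun y => P (y + L h), hP.comp hU hO (by fun_prop) fun y hy => hb _ hy _ (h3.trans hr.2),
    fun y hy => (attain hP hb hy hr).1 _ h3, ht.trans_eq h4⟩

theorem att_lpsh (hU : IsOpen U) (hO : IsOpen O) (hP : LPsh P U) (ha : 0 ≤ a) (hab : a < b)
    (hb : ∀ z ∈ O, ∀ h : V, ‖h‖ ≤ b → z + L h ∈ U) : LPsh (att P L c a b) O := by
  have b0 : 0 < b := ha.trans_lt hab
  have hI : IsOpen (Real.exp ⁻¹' Ioo a b) := isOpen_Ioo.preimage Real.continuous_exp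
  have hO' : IsOpen (O ×ˢ {t : ℂ | t.re ∈ Real.exp ⁻¹' Ioo a b}) :=
    hO.prod (hI.preimage Complex.continuous_re)
  have h1 := (rad hU hO hP hb).comp (hO.prod isOpen_ball)
    (g := fun q : W × ℂ => (q.1, Complex.exp q.2)) hO' (by fun_prop) fun q hq =>
      ⟨hq.1, mem_ball_zero_iff.2 (by rw [Complex.norm_exp]; exact hq.2.2)⟩
  have h2 := lpsh_norm_rpow (f := fun q : W × ℂ => (b : ℂ) * Complex.exp (-q.2)) hO' (by fun_prop)
    (fun q _ => mul_ne_zero (Complex.ofReal_ne_zero.2 b0.ne') (Complex.exp_ne_zero _)) c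
  have h3 := kiselman_lpsh (P := fun z x => sb P L (Real.exp x) z * (b / Real.exp x) ^ c) hO hI
    (ordConnected_Ioo.preimage_mono Real.exp_monotone)
    ⟨Real.log ((a + b) / 2), by
      rw [mem_preimage, Real.exp_log (by linarith)]
      exact ⟨by linarith, by linarith⟩⟩
    ((h1.mul h2).congr fun q _ => by
      simp only [norm_mul, Complex.norm_exp, Complex.norm_real, Real.norm_of_nonneg b0.le,
        Complex.neg_re, Real.exp_neg, div_eq_mul_inv])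
  refine h3.congr fun z _ => congrArg sInf ?_
  ext y
  constructor
  · rintro ⟨r, rfl⟩
    have := Real.exp_log (ha.trans_lt r.2.1)
    exact ⟨Real.log r, by rw [mem_preimage, this]; exact r.2, by simp only [this]⟩
  · rintro ⟨x, hx, rfl⟩
    exact ⟨⟨Real.exp x, hx⟩, rfl⟩

omit [FiniteDimensional ℂ W] in
theorem bounds (hP : LPsh P U) (hc : 0 ≤ c) (ha : 0 ≤ a) (hab : a < b)
    (hb : ∀ z ∈ O, ∀ h : V, ‖h‖ ≤ b → z + L h ∈ U) (hz : z ∈ O) :
    sb P L a z ≤ att P L c a b z ∧ att P L c a b z ≤ sb P L b z ∧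
      ∀ r ∈ Ioc a b, att P L c a b z ≤ sb P L r z * (b / r) ^ c := by
  have b0 : 0 < b := ha.trans_lt hab
  have : Nonempty (Ioo a b) := (nonempty_Ioo.2 hab).to_subtype
  have h1 : ∀ r : Ioo a b, sb P L a z ≤ sb P L r z * (b / r) ^ c := fun r =>
    (mono hP hb hz ha r.2.1.le r.2.2.le).trans (le_mul_of_one_le_right
      (nonneg hP hb hz ⟨ha.trans r.2.1.le, r.2.2.le⟩)
      (Real.one_le_rpow ((one_le_div (ha.trans_lt r.2.1)).2 r.2.2.le) hc))
  have h2 : ∀ r ∈ Ioo a b, att P L c a b z ≤ sb P L r z * (b / r) ^ c := fun r hr =>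
    ciInf_le ⟨_, forall_mem_range.2 h1⟩ (⟨r, hr⟩ : Ioo a b)
  have h3 : att P L c a b z ≤ sb P L b z * (b / b) ^ c := by
    have t1 : ContinuousAt (fun r : ℝ => sb P L b z * (b / r) ^ c) b :=
      continuousAt_const.mul ((continuousAt_const.div continuousAt_id b0.ne').rpow_const
        (Or.inr hc))
    refine ge_of_tendsto (t1.tendsto.mono_left (nhdsWithin_le_nhds (s := Iio b))) ?_
    filter_upwards [Ioo_mem_nhdsLT hab] with r hr
    exact (h2 r hr).trans (mul_le_mul_of_nonneg_right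
      (mono hP hb hz (ha.trans hr.1.le) hr.2.le le_rfl)
      (Real.rpow_nonneg (div_nonneg b0.le (ha.trans hr.1.le)) _))
  refine ⟨le_ciInf h1, by simpa only [div_self b0.ne', Real.one_rpow, mul_one] using h3,
    fun r hr => ?_⟩
  rcases hr.2.eq_or_lt with rfl | h
  exacts [h3, h2 r ⟨hr.1, h⟩]

omit [FiniteDimensional ℂ W] in
theorem lsc (hU : IsOpen U) (hP : LPsh P U) (hc : 0 ≤ c) (ha : 0 < a) (hab : a < b)
    (hb : ∀ z ∈ O, ∀ h : V, ‖h‖ ≤ b → z + L h ∈ U) (hC : ContinuousOn P U) :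
    LowerSemicontinuousOn (att P L c a b) O := by
  intro z hz t ht
  have b0 : 0 < b := ha.trans hab
  have : Nonempty (Ioo a b) := (nonempty_Ioo.2 hab).to_subtype
  have M0 : 0 < (b / a) ^ c := Real.rpow_pos_of_pos (div_pos b0 ha) c
  obtain ⟨ε, ε0, ε1⟩ : ∃ ε > 0, t < att P L c a b z - ε * (b / a) ^ c :=
    ⟨(att P L c a b z - t) / 2 / (b / a) ^ c, by have := sub_pos.2 ht; positivity,
      by rw [div_mul_cancel₀ _ M0.ne']; linarith⟩
  have key := (cpt (V := V) b).eventually_forall_of_forall_eventually (x₀ := z)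
    (P := fun y h => P (z + L h) - ε < P (y + L h)) fun h hh => by
      have h1 := hC.continuousAt (hU.mem_nhds (hb z hz h (mem_closedBall_zero_iff.1 hh)))
      have h2 : ContinuousAt (fun y : W × V => P (z + L y.2) - ε) (z, h) :=
        (ContinuousAt.comp (f := fun y : W × V => z + L y.2) h1 (by fun_prop)).sub
          continuousAt_const
      have h3 : ContinuousAt (fun y : W × V => P (y.1 + L y.2)) (z, h) :=
        ContinuousAt.comp (f := fun y : W × V => y.1 + L y.2) h1 (by fun_prop)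
      exact h2.eventually_lt h3 (sub_lt_self _ ε0)
  filter_upwards [mem_nhdsWithin_of_mem_nhds key, self_mem_nhdsWithin] with y h1 h2
  refine ε1.trans_le (le_ciInf fun r => ?_)
  have r0 : 0 < (r : ℝ) := ha.trans r.2.1
  have hr : (r : ℝ) ∈ Icc 0 b := ⟨r0.le, r.2.2.le⟩
  obtain ⟨h, h3, h4⟩ := (attain hP hb hz hr).2
  have h5 := (h1 h (mem_closedBall_zero_iff.2 (h3.trans hr.2))).trans_le
    ((attain hP hb h2 hr).1 h h3)
  have h6 := (bounds hP hc ha.le hab hb hz).2.2 r ⟨r.2.1, r.2.2.le⟩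
  have h7 : (b / r) ^ c ≤ (b / a) ^ c :=
    Real.rpow_le_rpow (div_pos b0 r0).le (div_le_div_of_nonneg_left b0.le ha r.2.1.le) hc
  have h8 := mul_le_mul_of_nonneg_right h5.le (Real.rpow_nonneg (div_pos b0 r0).le c)
  have h9 := mul_le_mul_of_nonneg_left h7 ε0.le
  rw [h4] at h6
  linarith

end Att

theorem att_st : AttSt := by
  intro W V _ _ _ _ _ _ P L c a b U O hU hO hP hc ha hab hb
  exact ⟨Att.rad hU hO hP hb, Att.att_lpsh hU hO hP ha hab hb, fun r hr => Att.slice hU hO hP hb hr,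
    fun z hz r hr => Att.attain hP hb hz hr, fun z hz => Att.bounds hP hc ha hab hb hz,
    fun hC h0 => continuousOn_iff_lower_upperSemicontinuousOn.2
      ⟨Att.lsc hU hP hc h0 hab hb hC, (Att.att_lpsh hU hO hP ha hab hb).usc⟩⟩

end Vale.Agent.P284Y.Lib
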