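import Vale.Agent.P284Y.Lib.GlC

/-!
# P284Y: gluing on the covering, one and two variables
-/

open scoped ContDiff Topology ComplexOrder
open Filter Set Metric Real

noncomputable section

namespace Vale.Agent.P284Y.Lib

open Vale.Agent.P272.K Vale.Agent.P284Z

variable {n : ℕ} {Γ E : Type} [Group Γ] [TopologicalSpace E] [MulAction Γ E] {C : Cov n Γ E}
  {Θ : C.I → E → ℝ} {K δ A : ℝ}

/-- the glued function -/
def gl₁ (Θ : C.I → E → ℝ) (δ : ℝ) (u : Γ → C.I → Cm n → ℝ) (y : E) : ℝ :=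
  δ * log (∑ a, Θ a y ^ 2 * exp (loc C a (fun γ => u γ a) y / δ))

theorem B24 (a : C.I) : C.B 2 a ⊆ C.B 4 a := C.B_mono (by norm_num) a

theorem gl₁_smul {u : Γ → C.I → Cm n → ℝ} (h : TH C Θ K) (g : Γ) (y : E) :
    gl₁ Θ δ u (g • y) = gl₁ Θ δ (fun γ => u (g * γ)) y := by
  simp only [gl₁, h.inv, loc_smul]

theorem gl₁_abs {u : Γ → C.I → Cm n → ℝ} (h : TH C Θ K) (hδ : 0 < δ) {y : E} {t : ℝ}
    (ht : ∀ γ a, ∀ z ∈ C.B 2 a, y = C.pt γ a z → |u γ a z - t| ≤ δ) :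
    |gl₁ Θ δ u y - t| ≤ (1 + Fintype.card C.I) * δ :=
  glue_abs hδ (h.one_le y) (fun a => h.abs_le a y) fun a ha => by
    obtain ⟨γ, z, hz, rfl⟩ := h.act ha
    rw [loc_pt C (B24 a hz)]
    exact ht γ a z hz rfl

theorem TH.bd' (h : TH C Θ K) (a : C.I) (γ : Γ) (b : C.I) {z : Cm n} (hz : z ∈ C.B 4 b) (w : Cm n) :
    gsq (fun x => Θ a (C.pt γ b x)) z w + |Θ a (C.pt γ b z) *
      levi (fun x => Θ a (C.pt γ b x)) z w| ≤ K * levi (C.ρ b) z w := by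
  refine le_trans (add_le_add_right ?_ _) (h.bd a γ b z hz w)
  rw [abs_mul]
  exact mul_le_of_le_one_left (abs_nonneg _) (h.abs_le _ _)

theorem gl₁_pt {u : Γ → C.I → Cm n → ℝ} (h : TH C Θ K) (hδ : 0 < δ) {γ : Γ} {b : C.I} {z : Cm n}
    (hz : z ∈ C.B 4 b) (hu : ∀ γ' a, ∀ z' ∈ C.B 2 a, C.pt γ b z = C.pt γ' a z' →
      ContDiffAt ℝ ∞ (u γ' a) z' ∧ (cHess (fun w => A * C.ρ a w + u γ' a w) z').PosSemidef)
    (hg : ∀ γ₁ a₁ γ₂ a₂, ∀ z₁ ∈ C.B 2 a₁, ∀ z₂ ∈ C.B 2 a₂, C.pt γ b z = C.pt γ₁ a₁ z₁ →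
      C.pt γ b z = C.pt γ₂ a₂ z₂ → u γ₁ a₁ z₁ ≤ u γ₂ a₂ z₂ + δ) :
    ContDiffAt ℝ ∞ (fun x => gl₁ Θ δ u (C.pt γ b x)) z ∧
      (C.om (A + 2 * exp 1 * (Fintype.card C.I * K) * δ) (gl₁ Θ δ u) γ b z).PosSemidef := by
  have hρ : ∀ a, ∀ z ∈ C.B 4 a, ContDiffAt ℝ 2 (C.ρ a) z := fun a z hz =>
    (C.ρ_sm a z hz).of_le two_le_inf
  have k : ∀ a, (∃ γ', ∃ z' ∈ C.B 2 a, C.pt γ b z = C.pt γ' a z') →
      ContDiffAt ℝ ∞ (fun x => loc C a (fun γ => u γ a) (C.pt γ b x)) z ∧ ∀ w,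
        -(A * levi (C.ρ b) z w) ≤ levi (fun x => loc C a (fun γ => u γ a) (C.pt γ b x)) z w := by
    rintro a ⟨γ', z', hz', e⟩
    obtain ⟨s, h1, rfl, h3, h4⟩ := two_charts C hz (B24 a hz') e
    obtain ⟨h5, h6⟩ := hu γ' a _ hz' e
    have h7 : (fun x => loc C a (fun γ => u γ a) (C.pt γ b x)) =ᶠ[𝓝 z] fun x => u γ' a (s x) :=
      h3.mono fun x hx => by
        beta_reduce
        rw [hx.2, loc_pt C hx.1]
    refine ⟨(h5.comp z ((h1.contDiffAt (n := ∞)).restrict_scalars ℝ)).congr_of_eventuallyEq h7,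
      fun w => ?_⟩
    have h8 := h5.of_le two_le_inf
    have h9 : ContDiffAt ℝ 2 (fun w => A * C.ρ a w) (s z) :=
      contDiffAt_const.mul (hρ a _ (B24 a hz'))
    have := (cHess_psd_iff (h9.add h8)).1 h6 (fderiv ℂ s z w)
    rw [levi_add h9 h8, levi_const_mul (hρ a _ (B24 a hz')), ← h4] at this
    rw [levi_congr h7, levi_hol h1 h8]
    linarith
  obtain ⟨k1, k2⟩ := glue_alt (θ := fun a x => Θ a (C.pt γ b x))
    (f := fun a x => loc C a (fun γ => u γ a) (C.pt γ b x))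
    (fun a => ∃ γ', ∃ z' ∈ C.B 2 a, C.pt γ b z = C.pt γ' a z') hδ (fun a => h.sm a _ γ b z hz rfl)
    (fun a ha => (C.ev_pt hz γ).1 ((h.alt a _).resolve_left ha)) (fun a ha => (k a ha).1)
    (by
      rintro a₁ a₂ ⟨γ₁, z₁, h1, e1⟩ ⟨γ₂, z₂, h2, e2⟩
      have := hg γ₁ a₁ γ₂ a₂ z₁ h1 z₂ h2 e1 e2
      rwa [← loc_pt C (f := fun γ => u γ a₁) (B24 _ h1), ← loc_pt C (f := fun γ => u γ a₂)
        (B24 _ h2), ← e1, ← e2] at this) (h.one_le _)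
  have k3 : ContDiffAt ℝ 2 (fun x => gl₁ Θ δ u (C.pt γ b x)) z := k1.of_le two_le_inf
  have k4 : ContDiffAt ℝ 2 (fun w => (A + 2 * exp 1 * (Fintype.card C.I * K) * δ) * C.ρ b w) z :=
    contDiffAt_const.mul (hρ b z hz)
  refine ⟨k1, (cHess_psd_iff (k4.add k3)).2 fun w => ?_⟩
  have k5 : _ ≤ levi (fun x => gl₁ Θ δ u (C.pt γ b x)) z w :=
    k2 w _ _ (fun a ha => (k a ha).2 w) fun a => h.bd' a γ b hz w
  rw [levi_add k4 k3, levi_const_mul (hρ b z hz)]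
  linarith

theorem om_mono {A' : ℝ} {g : E → ℝ} {γ : Γ} {b : C.I} {z : Cm n} (hz : z ∈ C.B 4 b)
    (hg : ContDiffAt ℝ 2 (fun x => g (C.pt γ b x)) z) (hA : A ≤ A')
    (h : (C.om A g γ b z).PosSemidef) : (C.om A' g γ b z).PosSemidef := by
  have hρ : ContDiffAt ℝ 2 (C.ρ b) z := (C.ρ_sm b z hz).of_le two_le_inf
  have k : ∀ t : ℝ, ContDiffAt ℝ 2 (fun w => t * C.ρ b w) z := fun t => contDiffAt_const.mul hρ
  refine (cHess_psd_iff ((k A').add hg)).2 fun w => ?_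
  have := (cHess_psd_iff ((k A).add hg)).1 h w
  rw [levi_add (k _) hg, levi_const_mul hρ] at this ⊢
  linarith [mul_le_mul_of_nonneg_right hA (levi_ρ_nonneg C hz w)]

theorem gl : GlSt := by
  intro n Γ E _ _ _ _ _ C
  obtain ⟨Θ, K, h⟩ := exists_th C
  have h0 : 0 ≤ 2 * exp 1 * (Fintype.card C.I * K) := by
    have := h.K_nonneg
    positivity
  have h1 : (0 : ℝ) < 1 + Fintype.card C.I := by positivity
  refine ⟨2 * exp 1 * (Fintype.card C.I * K) + (1 + Fintype.card C.I), by positivity,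
    fun A δ Ω u hδ _ hu hg => ?_⟩
  have k := fun γ b z (hz : z ∈ C.B 4 b) (hy : C.pt γ b z ∈ Ω) => gl₁_pt (A := A) (u := u) h hδ hz
    (fun γ' a z' hz' e => hu γ' a z' hz' (e ▸ hy))
    fun γ₁ a₁ γ₂ a₂ z₁ h₁ z₂ h₂ e₁ e₂ => hg γ₁ a₁ γ₂ a₂ z₁ h₁ z₂ h₂ (e₁.symm.trans e₂) (e₁ ▸ hy)
  refine ⟨gl₁ Θ δ u, fun y hy γ a z hz e => (k γ a z hz (e ▸ hy)).1, fun γ a z hz hy =>
    om_mono hz ((k γ a z hz hy).1.of_le two_le_inf) (by nlinarith) (k γ a z hz hy).2,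
    fun γ a z hz hy => (gl₁_abs h hδ fun γ' b z' hz' e => abs_le.2 ⟨?_, ?_⟩).trans (by nlinarith),
    fun hi γ y => ?_⟩
  · linarith [hg γ a γ' b z hz z' hz' e hy]
  · linarith [hg γ' b γ a z' hz' z hz e.symm (e ▸ hy)]
  · rw [gl₁_smul h]
    exact congrArg (fun u => gl₁ Θ δ u y)
      (funext fun γ' => funext fun a => (hi _ a).trans (hi γ' a).symm)

end Vale.Agent.P284Y.Lib
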