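import Vale.Agent.P284Y.Lib.Loc2
import Vale.Agent.P284Z.F0.Cov

/-!
# P284Y, library: basic facts on towers of relations and their boxes
-/

open scoped Topology
open Filter Set Metric

noncomputable section

namespace Vale.Agent.P284Y.Lib

open Vale.Agent.P272.K Vale.Agent.P284Z Vale.Agent.P284Z.G

variable {n : ℕ} {Γ E : Type} [Group Γ] [TopologicalSpace E] [MulAction Γ E] {C : Cov n Γ E}

namespace Tw

variable (T : Tw C) {k k' l : ℕ} {x y z : E}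

theorem R_le (h : T.R k x y) (hk : k ≤ k') : T.R k' x y := by
  induction hk with
  | refl => exact h
  | step _ ih => exact T.mono _ _ _ ih

theorem R_refl (k : ℕ) (x : E) : T.R k x x := T.R_le (T.refl x) k.zero_le

theorem A_refl (k : ℕ) (x : E) : T.A k x x := T.sub _ _ _ (T.R_refl k x)

theorem A_of_R (h : T.R k x y) (hk : k ≤ k') : T.A k' x y := T.sub _ _ _ (T.R_le h hk)

theorem R_of_A (h : T.A k x y) (hx : x ∉ T.bad k) (hk : k < k') : T.R k' x y :=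
  T.R_le (T.back _ _ _ hx h) hk

theorem R_symm (h : T.R k x y) (hk : k < k') : T.R k' y x := T.R_le (T.symm _ _ _ h) hk

theorem R_trans (h : T.R k x y) (h' : T.R k' y z) (hk : k < l) (hk' : k' < l) : T.R l x z :=
  T.R_le (T.trans _ _ _ _ (T.R_le h (le_max_left k k')) (T.R_le h' (le_max_right k k')))
    (max_lt hk hk')

theorem R_smul (γ : Γ) : T.R k (γ • x) (γ • y) ↔ T.R k x y :=
  ⟨fun h => by simpa using T.R_inv k γ⁻¹ _ _ h, T.R_inv k γ x y⟩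

theorem A_smul (γ : Γ) : T.A k (γ • x) (γ • y) ↔ T.A k x y :=
  ⟨fun h => by simpa using T.A_inv k γ⁻¹ _ _ h, T.A_inv k γ x y⟩

theorem bad_smul (γ : Γ) : γ • x ∈ T.bad k ↔ x ∈ T.bad k :=
  ⟨fun h => by simpa using T.bad_inv k γ⁻¹ _ h, T.bad_inv k γ x⟩

/-- the equations in arbitrary charts -/
theorem an' (k : ℕ) (γ : Γ) (a : C.I) (γ' : Γ) (b : C.I) :
    AnRel (fun z w => T.A k (C.pt γ a z) (C.pt γ' b w)) (C.B 2 a) (C.B 2 b) := by
  have e : ∀ z w, T.A k (C.pt γ a z) (C.pt γ' b w) ↔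
      T.A k (C.pt 1 a z) (C.pt (γ⁻¹ * γ') b w) := fun z w => by
    rw [← T.A_smul γ⁻¹, C.smul_pt, C.smul_pt, inv_mul_cancel]
  simpa only [e] using T.an k (γ⁻¹ * γ') a b

theorem closed (k : ℕ) : IsClosed {q : E × E | T.A k q.1 q.2} := by
  rw [← isOpen_compl_iff, isOpen_iff_mem_nhds]
  rintro ⟨x, y⟩ h
  obtain ⟨γ, a, z, hz, rfl⟩ := C.exists_pt x
  obtain ⟨γ', b, w, hw, rfl⟩ := C.exists_pt y
  obtain ⟨S, hS, hS'⟩ := T.an' k γ a γ' b
  have z2 := C.B_mono one_le_two a hz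
  have w2 := C.B_mono one_le_two b hw
  obtain ⟨f, hf, h0⟩ : ∃ f ∈ S, f (z, w) ≠ 0 := by
    by_contra h1
    exact h ((hS' z z2 w w2).2 fun f hf => not_not.1 fun h2 => h1 ⟨f, hf, h2⟩)
  rw [nhds_prod_eq, ← C.map_pt' (C.B14 hz), ← C.map_pt' (C.B14 hw), prod_map_map_eq,
    ← nhds_prod_eq, mem_map]
  filter_upwards [(hS f hf (z, w) ⟨z2, w2⟩).continuousAt.eventually_ne h0,
    ((C.isOpen_B 2 a).prod (C.isOpen_B 2 b)).mem_nhds (show (z, w) ∈ _ from ⟨z2, w2⟩)]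
    with q h1 h2 h3
  exact h1 ((hS' _ h2.1 _ h2.2).1 h3 f hf)

/-- one function for finitely many bad sets -/
theorem thin' (K : ℕ) (a : C.I) : ∃ h : Cm n → ℂ, AnalyticOnNhd ℂ h (C.B 2 a) ∧
    (∃ z ∈ C.B 2 a, h z ≠ 0) ∧ ∀ z ∈ C.B 2 a, h z ≠ 0 → ∀ k ≤ K, ∀ γ, C.pt γ a z ∉ T.bad k := by
  induction K with
  | zero =>
    obtain ⟨h, h1, h2, h3⟩ := T.thin 0 a
    refine ⟨h, h1, h2, fun z hz h0 k hk γ => ?_⟩
    rw [Nat.le_zero.1 hk, C.pt_eq, T.bad_smul]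
    exact h3 z hz h0
  | succ K ih =>
    obtain ⟨h, h1, ⟨x, hx, h2⟩, h3⟩ := ih
    obtain ⟨g, g1, g2, g3⟩ := T.thin (K + 1) a
    obtain ⟨z, z1, z2, z3⟩ := ((dense_ne_zero (C.preconn_B 2 a) g1 g2 hx).and_eventually
      (((h1 x hx).continuousAt.eventually_ne h2).and ((C.isOpen_B 2 a).eventually_mem hx))).exists
    refine ⟨fun z => h z * g z, h1.mul g1, ⟨z, z3, mul_ne_zero z2 z1⟩, fun z hz h0 k hk γ => ?_⟩
    rcases Nat.of_le_succ hk with hk | rfl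
    · exact h3 z hz (left_ne_zero_of_mul h0) k hk γ
    · rw [C.pt_eq, T.bad_smul]
      exact g3 z hz (right_ne_zero_of_mul h0)

/-- the classes of the hulls have empty interior -/
theorem not_open [Infinite Γ] [ConnectedSpace E] (hx : x ∉ T.bad k) :
    ¬ ∀ᶠ w in 𝓝 y, T.A k x w := by
  intro hy
  have h1 : IsClopen {y | ∀ᶠ w in 𝓝 y, T.A k x w} := by
    refine ⟨isClosed_iff_frequently.2 fun y h => ?_, isOpen_setOfPred_eventually_nhds⟩
    obtain ⟨γ, a, z, hz, rfl⟩ := C.exists_pt x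
    obtain ⟨γ', b, w, hw, rfl⟩ := C.exists_pt y
    obtain ⟨S, hS, hS'⟩ := T.an' k γ a γ' b
    have z2 := C.B_mono one_le_two a hz
    have w2 := C.B_mono one_le_two b hw
    have hB := (C.isOpen_B 2 b).eventually_mem w2
    rw [← C.map_pt' (C.B14 hw), frequently_map] at h
    obtain ⟨u, u1, u2⟩ := (h.and_eventually hB).exists
    refine (C.ev_pt (C.B14 hw) γ').2 (hB.mono fun v hv => (hS' z z2 v hv).2 fun f hf => ?_)
    have h2 : AnalyticOnNhd ℂ (fun v => f (z, v)) (C.B 2 b) := fun v hv =>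
      (hS f hf (z, v) ⟨z2, hv⟩).comp (analyticAt_const.prod analyticAt_id)
    refine h2.eqOn_zero_of_preconnected_of_eventuallyEq_zero (C.preconn_B 2 b) u2 ?_ hv
    filter_upwards [(C.ev_pt (C.B_mono (by norm_num) b u2) γ').1 u1,
      (C.isOpen_B 2 b).eventually_mem u2] with v v1 v2
    exact (hS' z z2 v v2).1 v1 f hf
  have h2 := h1.eq_univ ⟨y, hy⟩
  obtain ⟨K, hK, hK'⟩ := T.cpt (k + 1) x
  have h3 : ∀ y, y ∈ K := fun y =>
    hK' y (T.back _ _ _ hx (Eventually.self_of_nhds (eq_univ_iff_forall.1 h2 y)))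
  exact infinite_univ ((C.proper K hK).subset fun γ _ => ⟨x, h3 _, h3 _⟩)

end Tw

namespace TBox

variable {T : Tw C} {d p k₁ K d' p' K' : ℕ} (N : TBox T d p k₁ K) {x y : E}

theorem map_mem (h : y ∈ N.Ψ.source) : N.Ψ y ∈ ball (0 : Cm d × Cm p) N.r :=
  N.tgt ▸ N.Ψ.map_source h

theorem symm_mem {u : Cm d × Cm p} (h : u ∈ ball (0 : Cm d × Cm p) N.r) :
    N.Ψ.symm u ∈ N.Ψ.source := N.Ψ.map_target (N.tgt ▸ h)

theorem right_inv {u : Cm d × Cm p} (h : u ∈ ball (0 : Cm d × Cm p) N.r) :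
    N.Ψ (N.Ψ.symm u) = u := N.Ψ.right_inv (N.tgt ▸ h)

theorem snd_mem (h : y ∈ N.Ψ.source) : (N.Ψ y).2 ∈ ball (0 : Cm p) N.r :=
  mem_ball_zero_iff.2 ((norm_snd_le _).trans_lt (mem_ball_zero_iff.1 (N.map_mem h)))

theorem slice_mem {t : Cm p} (h : t ∈ ball (0 : Cm p) N.r) :
    ((0, t) : Cm d × Cm p) ∈ ball 0 N.r := by simpa [N.r_pos] using h

theorem co_mem (h : y ∈ N.Ψ.source) :
    C.co N.g N.a y ∈ C.B 2 N.a ∧ C.pt N.g N.a (C.co N.g N.a y) = y := by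
  obtain ⟨z, hz, rfl⟩ := N.inch y h
  rw [C.co_pt (C.B_mono (show (2 : ℝ) ≤ 4 by norm_num) _ hz)]
  exact ⟨hz, rfl⟩

/-- holomorphic maps read in the box -/
theorem an_symm {W : Type} [NormedAddCommGroup W] [NormedSpace ℂ W] {F : E → W} {Ω : Set E}
    (hF : C.HolOn F Ω) {u : Cm d × Cm p} (hu : u ∈ ball (0 : Cm d × Cm p) N.r)
    (h : N.Ψ.symm u ∈ Ω) : AnalyticAt ℂ (fun v => F (N.Ψ.symm v)) u := by
  obtain ⟨e1, e2⟩ := N.co_mem (N.symm_mem hu)
  refine ((hF N.g N.a _ (C.B_mono (by norm_num) _ e1) (by rwa [e2])).comp_of_eq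
    (N.hol' u hu) rfl).congr ?_
  filter_upwards [isOpen_ball.mem_nhds hu] with v hv
  simp only [Function.comp_apply, (N.co_mem (N.symm_mem hv)).2]

/-- boxes of different levels have the same plaques -/
theorem same_of (N' : TBox T d' p' k₁ K') (hK : k₁ + 3 ≤ K') (hx : x ∈ N.Ψ.source)
    (hy : y ∈ N.Ψ.source) (hx' : x ∈ N'.Ψ.source) (hy' : y ∈ N'.Ψ.source)
    (h : (N.Ψ x).2 = (N.Ψ y).2) : (N'.Ψ x).2 = (N'.Ψ y).2 :=
  N'.sep x hx' y hy' _ hK (T.sub _ _ _ (N.same x hx y hy h))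

/-- two boxes at the same point have plaques of the same dimension -/
theorem dim_le (N' : TBox T d' p' k₁ K') (hK : k₁ + 3 ≤ K') (h : y ∈ N.Ψ.source)
    (h0 : N.Ψ y = 0) (h' : y ∈ N'.Ψ.source) (h0' : N'.Ψ y = 0) : d ≤ d' := by
  have e1 : N.Ψ.symm 0 = y := h0 ▸ N.Ψ.left_inv h
  have e1' : N'.Ψ.symm 0 = y := h0' ▸ N'.Ψ.left_inv h'
  have e2 : Tendsto N.Ψ.symm (𝓝 0) (𝓝 y) := h0 ▸ N.Ψ.tendsto_symm h
  set θ : Cm d × Cm p → Cm d' × Cm p' := fun u => N'.Ψ (N.Ψ.symm u) with hθ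
  have hθd := (N.an_symm N'.hol (mem_ball_self N.r_pos) (e1 ▸ h')).differentiableAt.hasFDerivAt
  have hθd' := (N'.an_symm N.hol (mem_ball_self N'.r_pos) (e1' ▸ h)).differentiableAt.hasFDerivAt
  have hθ0 : θ 0 = 0 := by simp only [hθ, e1, h0']
  have hm : ∀ᶠ u in 𝓝 (0 : Cm d × Cm p), u ∈ N.Ψ.target ∧ N.Ψ.symm u ∈ N'.Ψ.source :=
    (N.Ψ.open_target.eventually_mem (h0 ▸ N.Ψ.map_source h)).and
      (e2.eventually (N'.Ψ.open_source.mem_nhds h'))
  have h1 := (HasFDerivAt.comp (f := θ) 0 (hθ0 ▸ hθd') hθd).unique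
    ((hasFDerivAt_id 0).congr_of_eventuallyEq (hm.mono fun u hu => by
      simp only [Function.comp_apply, hθ, N'.Ψ.left_inv hu.2, N.Ψ.right_inv hu.1, id]))
  have t1 : Tendsto (fun a : Cm d => ((a, 0) : Cm d × Cm p)) (𝓝 0) (𝓝 0) :=
    (continuous_id.prodMk continuous_const).tendsto 0
  have h2 := (HasFDerivAt.comp (f := fun a : Cm d => ((a, 0) : Cm d × Cm p)) 0 hθd
    (hasFDerivAt_prodMk_left 0 0)).snd.unique ((hasFDerivAt_const (0 : Cm p') 0).congr_of_eventuallyEq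
      ((t1.eventually hm).mono fun a ha => by
        have e4 := N.same_of N' hK (N.Ψ.map_target ha.1) h ha.2 h'
          (by rw [N.Ψ.right_inv ha.1, h0]; rfl)
        rw [h0'] at e4
        exact e4))
  have h3 : Function.Injective ((LinearMap.fst ℂ _ _ ∘ₗ (fderiv ℂ θ 0).toLinearMap) ∘ₗ
      LinearMap.inl ℂ (Cm d) (Cm p)) := by
    rw [injective_iff_map_eq_zero]
    intro a ha
    have e1 : fderiv ℂ θ 0 (a, 0) = 0 := Prod.ext ha (DFunLike.congr_fun h2 a)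
    have e2 := DFunLike.congr_fun h1 (a, 0)
    rw [ContinuousLinearMap.comp_apply, e1, map_zero] at e2
    exact (congrArg Prod.fst e2).symm
  simpa using LinearMap.finrank_le_finrank_of_injective h3

include N in
/-- the plaques are not open -/
theorem pos [Infinite Γ] [ConnectedSpace E] (hK : k₁ + 3 ≤ K) : 1 ≤ p := by
  rcases Nat.eq_zero_or_pos p with rfl | h
  swap
  · exact h
  have h1 := N.symm_mem (mem_ball_self N.r_pos)
  exact (T.not_open (N.good _ h1 _ hK) ((N.Ψ.open_source.eventually_mem h1).mono fun w hw =>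
    T.sub _ _ _ (N.same _ h1 _ hw (Subsingleton.elim _ _)))).elim

end TBox

end Vale.Agent.P284Y.Lib
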