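import Vale.Agent.P284Y.Lib.Loc2Spec

/-!
# P284Y, library: flow boxes of a tower of relations (A8), statements
-/

open scoped Topology
open Filter Set Metric

noncomputable section

namespace Vale.Agent.P284Y.Lib

open Vale.Agent.P272.K Vale.Agent.P284Z Vale.Agent.P284Z.G

/-- the relation `R` is the zero set of a family of analytic functions on `U × V` -/
def AnRel {n : ℕ} (R : Cm n → Cm n → Prop) (U V : Set (Cm n)) : Prop :=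
  ∃ S : Set (Cm n × Cm n → ℂ), (∀ f ∈ S, AnalyticOnNhd ℂ f (U ×ˢ V)) ∧
    ∀ x ∈ U, ∀ y ∈ V, R x y ↔ ∀ f ∈ S, f (x, y) = 0

/-- A box centred at `x₀`, inside `V`: the plaques are `R₀`-related to their points on the slice,
and different points of the slice are not `R₂`-related. -/
def Box2 {n : ℕ} (R₀ R₂ : Cm n → Cm n → Prop) (d q : ℕ) (x₀ : Cm n) (V : Set (Cm n)) : Prop :=
  ∃ (Ψ : OpenPartialHomeomorph (Cm n) (Cm d × Cm q)) (r : ℝ) (ι : Cm q →L[ℂ] Cm n), 0 < r ∧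
    Ψ.target = ball 0 r ∧ x₀ ∈ Ψ.source ∧ Ψ x₀ = 0 ∧ Ψ.source ⊆ V ∧ AnalyticOnNhd ℂ Ψ Ψ.source ∧
    AnalyticOnNhd ℂ Ψ.symm (ball 0 r) ∧ Function.Injective ι ∧
    (∀ t ∈ ball (0 : Cm q) r, Ψ.symm (0, t) = x₀ + ι t) ∧
    (∀ w ∈ ball (0 : Cm d × Cm q) r, R₀ (Ψ.symm (0, w.2)) (Ψ.symm w)) ∧
    ∀ t ∈ ball (0 : Cm q) r, ∀ t' ∈ ball (0 : Cm q) r,
      R₂ (Ψ.symm (0, t)) (Ψ.symm (0, t')) → t = t'

/-- **LOC2**, with two relations and arbitrary families of equations -/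
def Loc3St : Prop :=
  ∀ (n d e : ℕ) (U : Set (Cm n)) (R₀ R₂ : Cm n → Cm n → Prop), d + e = n → IsOpen U →
    IsPreconnected U → AnRel R₀ U U → AnRel R₂ U U → (∀ x ∈ U, R₀ x x) → (∀ x ∈ U, R₂ x x) →
    (∃ x ∈ U, ∃ ι : Cm e →L[ℂ] Cm n, Iso R₂ x ι) →
    (∀ x ∈ U, ∀ ι : Cm (e + 1) →L[ℂ] Cm n, ¬ Iso R₀ x ι) →
    ∃ h : Cm n → ℂ, AnalyticOnNhd ℂ h U ∧ (∃ x ∈ U, h x ≠ 0) ∧ ∀ x₀ ∈ U, h x₀ ≠ 0 → ∀ V ∈ 𝓝 x₀,
      (∀ p ∈ V, ∀ x ∈ V, ∀ y ∈ V, R₀ p x → R₀ p y → R₂ x y) → Box2 R₀ R₂ d e x₀ V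

variable {n : ℕ} {Γ E : Type} [Group Γ] [TopologicalSpace E] [MulAction Γ E]

/-- A tower of relations `R k`, which are equivalence relations up to a shift of the level, with
analytic hulls `A k` (rows A5, A6, A7). -/
structure Tw (C : Cov n Γ E) where
  R : ℕ → E → E → Prop
  A : ℕ → E → E → Prop
  bad : ℕ → Set E
  refl : ∀ x, R 0 x x
  mono : ∀ k x y, R k x y → R (k + 1) x y
  symm : ∀ k x y, R k x y → R (k + 1) y x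
  trans : ∀ k x y z, R k x y → R k y z → R (k + 1) x z
  R_inv : ∀ k (γ : Γ) x y, R k x y → R k (γ • x) (γ • y)
  A_inv : ∀ k (γ : Γ) x y, A k x y → A k (γ • x) (γ • y)
  bad_inv : ∀ k (γ : Γ) x, x ∈ bad k → γ • x ∈ bad k
  sub : ∀ k x y, R k x y → A k x y
  back : ∀ k x y, x ∉ bad k → A k x y → R (k + 1) x y
  an : ∀ k γ a b, AnRel (fun z w => A k (C.pt 1 a z) (C.pt γ b w)) (C.B 2 a) (C.B 2 b)
  thin : ∀ k a, ∃ h : Cm n → ℂ, AnalyticOnNhd ℂ h (C.B 2 a) ∧ (∃ z ∈ C.B 2 a, h z ≠ 0) ∧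
    ∀ z ∈ C.B 2 a, h z ≠ 0 → C.pt 1 a z ∉ bad k
  cpt : ∀ k x, ∃ K : Set E, IsCompact K ∧ ∀ y, R k x y → y ∈ K

/-- A flow box of the tower for the levels from `k₁` to `K`. -/
structure TBox {C : Cov n Γ E} (T : Tw C) (d p k₁ K : ℕ) where
  Ψ : OpenPartialHomeomorph E (Cm d × Cm p)
  r : ℝ
  r_pos : 0 < r
  tgt : Ψ.target = ball 0 r
  g : Γ
  a : C.I
  inch : ∀ y ∈ Ψ.source, ∃ z ∈ C.B 2 a, y = C.pt g a z
  hol : C.HolOn Ψ Ψ.source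
  hol' : AnalyticOnNhd ℂ (fun u => C.co g a (Ψ.symm u)) (ball 0 r)
  aff : ∃ ι : Cm p →L[ℂ] Cm n, Function.Injective ι ∧ ∀ t ∈ ball (0 : Cm p) r,
    C.co g a (Ψ.symm (0, t)) = C.co g a (Ψ.symm 0) + ι t
  good : ∀ y ∈ Ψ.source, ∀ k ≤ K, y ∉ T.bad k
  plq : ∀ w ∈ ball (0 : Cm d × Cm p) r, T.A k₁ (Ψ.symm (0, w.2)) (Ψ.symm w)
  same : ∀ x ∈ Ψ.source, ∀ y ∈ Ψ.source, (Ψ x).2 = (Ψ y).2 → T.R (k₁ + 3) x y
  sep : ∀ x ∈ Ψ.source, ∀ y ∈ Ψ.source, ∀ k ≤ K, T.A k x y → (Ψ x).2 = (Ψ y).2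

/-- The foliation of the tower: `O K` is the set of the centres of boxes of level `K`. -/
structure TFol {C : Cov n Γ E} (T : Tw C) where
  d : ℕ
  p : ℕ
  k₁ : ℕ
  dim : d + p = n
  p_pos : 1 ≤ p
  O : ℕ → Set E
  opn : ∀ K, IsOpen (O K)
  inv : ∀ K (γ : Γ) y, y ∈ O K → γ • y ∈ O K
  conn : ∀ K, IsPreconnected (O K)
  thin : ∀ K a, ∃ h : Cm n → ℂ, AnalyticOnNhd ℂ h (C.B 2 a) ∧ (∃ z ∈ C.B 2 a, h z ≠ 0) ∧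
    ∀ z ∈ C.B 2 a, h z ≠ 0 → C.pt 1 a z ∈ O K
  box : ∀ K, ∀ y ∈ O K, ∀ U ∈ 𝓝 y, ∃ N : TBox T d p k₁ K, y ∈ N.Ψ.source ∧ N.Ψ y = 0 ∧
    N.Ψ.source ⊆ O K ∩ U

/-- **A8** -/
def A8St : Prop :=
  ∀ (n : ℕ) (Γ E : Type) [Group Γ] [Infinite Γ] [TopologicalSpace E] [T2Space E]
    [ConnectedSpace E] [MulAction Γ E] (C : Cov n Γ E) (T : Tw C), Nonempty (TFol T)

end Vale.Agent.P284Y.Lib
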