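import Vale.Agent.P284Y.Lib.TwB

/-!
# P284Y, library: the foliation of a tower of relations (A8)
-/

open scoped Topology
open Filter Set Metric

noncomputable section

namespace Vale.Agent.P284Y.Lib

open Vale.Agent.P272.K Vale.Agent.P284Z Vale.Agent.P284Z.G

variable {n : ℕ} {Γ E : Type} [Group Γ] [TopologicalSpace E] [MulAction Γ E] {C : Cov n Γ E}

namespace A8

variable (T : Tw C)

/-- the hull read in a chart -/
def rel (k : ℕ) (a : C.I) (z w : Cm n) : Prop := T.A k (C.pt 1 a z) (C.pt 1 a w)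

/-- some class meets a slice of dimension `e` in an isolated point -/
def P (k : ℕ) (a : C.I) (e : ℕ) : Prop :=
  ∃ x ∈ C.B 2 a, ∃ ι : Cm e →L[ℂ] Cm n, Iso (rel T k a) x ι

theorem P_le {k a e} (h : P T k a e) : e ≤ n := by
  obtain ⟨x, -, ι, h⟩ := h
  simpa using LinearMap.finrank_le_finrank_of_injective (f := ι.toLinearMap)
    (h.inj (T.A_refl _ _))

theorem P_anti {k k' a e} (h : P T k' a e) (hk : k ≤ k') : P T k a e := by
  rcases hk.eq_or_lt with rfl | hk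
  · exact h
  obtain ⟨x₁, hx₁, ι, h⟩ := h
  obtain ⟨f, f1, ⟨x, hx, f2⟩, f3⟩ := (T.an k' 1 a a).ui (C.isOpen_B 2 a) (C.preconn_B 2 a) hx₁ h
  obtain ⟨g, g1, g2, g3⟩ := T.thin k a
  obtain ⟨z, z1, z2, z3⟩ := ((dense_ne_zero (C.preconn_B 2 a) g1 g2 hx).and_eventually
    (((f1 x hx).continuousAt.eventually_ne f2).and ((C.isOpen_B 2 a).eventually_mem hx))).exists
  exact ⟨z, z3, ι, (iso_of_ui (R := rel T k' a) (f3 z z3 z2)).mono fun t ht h =>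
    ht (T.sub _ _ _ (T.R_of_A h (g3 z z3 z1) hk))⟩

theorem exists_dim (a : C.I) : ∃ p k₀, (∀ k, P T k a p) ∧ ∀ k ≥ k₀, ¬ P T k a (p + 1) := by
  classical
  have h : ∃ e k, ¬ P T k a (e + 1) := ⟨n, 0, fun h => (P_le T h).not_gt n.lt_succ_self⟩
  obtain ⟨k₀, h0⟩ := Nat.find_spec h
  refine ⟨Nat.find h, k₀, fun k => ?_, fun k hk h1 => h0 (P_anti T h1 hk)⟩
  rcases Nat.eq_zero_or_eq_succ_pred (Nat.find h) with e | e
  · rw [e]
    exact ⟨_, C.c_mem two_pos a, 0, Eventually.of_forall fun t _ => Subsingleton.elim _ _⟩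
  · rw [e]
    exact not_not.1 fun h1 => Nat.find_min h (m := (Nat.find h).pred) (by omega) ⟨k, h1⟩

/-- a box of the tower from a box in a chart -/
theorem tbox_of {d p k₁ K : ℕ} {a : C.I} (g : Γ) {z : Cm n} {V : Set (Cm n)} (hV : V ⊆ C.B 2 a)
    (hb : ∀ x ∈ V, ∀ k ≤ K + k₁, ∀ γ, C.pt γ a x ∉ T.bad k)
    (h : Box2 (rel T k₁ a) (rel T (K + k₁ + 4) a) d p z V) :
    ∃ N : TBox T d p k₁ K, C.pt g a z ∈ N.Ψ.source ∧ N.Ψ (C.pt g a z) = 0 ∧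
      N.Ψ.source ⊆ C.pt g a '' V := by
  obtain ⟨Ψ, r, ι, hr, htgt, hz, hz0, hsrc, han, han', hι, haff, hplq, hsep⟩ := h
  have h4 : Ψ.source ⊆ C.B 4 a := hsrc.trans (hV.trans (C.B_mono (by norm_num) a))
  have hs : ∀ y ∈ ((C.ch g a).trans Ψ).source, C.co g a y ∈ Ψ.source ∧
      y = C.pt g a (C.co g a y) := fun y hy => ⟨hy.2, (C.pt_co hy.1).symm⟩
  have eA : ∀ k x y, T.A k (C.pt g a x) (C.pt g a y) ↔ rel T k a x y := fun k x y => by
    rw [C.pt_eq g a x, C.pt_eq g a y, T.A_smul, rel]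
  have hm : ∀ u ∈ ball (0 : Cm d × Cm p) r, Ψ.symm u ∈ Ψ.source := fun u hu =>
    Ψ.map_target (htgt ▸ hu)
  have key : ∀ x ∈ Ψ.source, (Ψ x).2 ∈ ball (0 : Cm p) r ∧
      T.R (k₁ + 1) (C.pt 1 a (Ψ.symm (0, (Ψ x).2))) (C.pt 1 a x) := fun x hx => by
    have e1 : Ψ x ∈ ball (0 : Cm d × Cm p) r := htgt ▸ Ψ.map_source hx
    have e2 := (norm_snd_le (Ψ x)).trans_lt (mem_ball_zero_iff.1 e1)
    have e3 := hplq _ e1
    rw [Ψ.left_inv hx] at e3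
    exact ⟨mem_ball_zero_iff.2 e2, T.back _ _ _
      (hb _ (hsrc (hm _ (by simpa [hr] using e2))) _ (Nat.le_add_left _ _) 1) e3⟩
  refine ⟨⟨(C.ch g a).trans Ψ, r, hr, ?_, g, a, fun y hy => ⟨_, hV (hsrc (hs y hy).1), (hs y hy).2⟩,
    fun γ b w hw hy => ?_, fun u hu => ?_, ⟨ι, hι, fun t ht => ?_⟩, fun y hy k hk => ?_,
    fun w _ => (eA _ _ _).2 (hplq w ‹_›), fun x hx y hy e => ?_, fun x hx y hy k hk e => ?_⟩,
    ⟨C.pt_mem (h4 hz) g, ?_⟩, ?_, fun y hy => ⟨_, hsrc (hs y hy).1, (hs y hy).2.symm⟩⟩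
  · rw [OpenPartialHomeomorph.trans_target, ← htgt]
    exact inter_eq_left.2 fun u hu => h4 (Ψ.map_target hu)
  · exact AnalyticAt.comp (f := fun w => C.co g a (C.pt γ b w)) (han _ hy.2)
      (C.holOn_co g a γ b w hw hy.1)
  · refine (han' u hu).congr ?_
    filter_upwards [isOpen_ball.mem_nhds hu] with v hv
    exact (C.co_pt (h4 (hm v hv)) g).symm
  · change C.co g a (C.pt g a (Ψ.symm (0, t))) = C.co g a (C.pt g a (Ψ.symm 0)) + ι t
    rw [C.co_pt (h4 (hm _ (by simpa [hr] using ht))), C.co_pt (h4 (hm _ (mem_ball_self hr))),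
      haff t ht, ← hz0, Ψ.left_inv hz]
  · rw [(hs y hy).2]
    exact hb _ (hsrc (hs y hy).1) k (hk.trans (Nat.le_add_right _ _)) g
  · obtain ⟨x1, x2⟩ := hs x hx
    obtain ⟨y1, y2⟩ := hs y hy
    have e' : (Ψ (C.co g a x)).2 = (Ψ (C.co g a y)).2 := e
    rw [x2, y2, C.pt_eq g a (C.co g a x), C.pt_eq g a (C.co g a y), T.R_smul]
    exact T.R_trans (T.symm _ _ _ (key _ x1).2) (e' ▸ (key _ y1).2) (by omega) (by omega)
  · obtain ⟨x1, x2⟩ := hs x hx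
    obtain ⟨y1, y2⟩ := hs y hy
    rw [x2, y2, eA] at e
    have e1 := T.back _ _ _ (hb _ (hsrc x1) k (hk.trans (Nat.le_add_right _ _)) 1) e
    exact hsep _ (key _ x1).1 _ (key _ y1).1 (T.sub _ _ _ (T.R_trans
      (T.R_trans (l := K + k₁ + 2) (key _ x1).2 e1 (by omega) (by omega))
      (T.symm _ _ _ (key _ y1).2) (by omega) (by omega)))
  · show C.co g a _ ∈ Ψ.source
    rwa [C.co_pt (h4 hz)]
  · show Ψ (C.co g a _) = 0
    rwa [C.co_pt (h4 hz)]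

end A8

open A8 in
theorem a8 : A8St := by
  intro n Γ E _ _ _ _ _ _ C T
  choose p k₀ hP hP' using exists_dim T
  set k₁ := Finset.univ.sup k₀
  have hk₁ : ∀ a, k₀ a ≤ k₁ := fun a => Finset.le_sup (Finset.mem_univ a)
  have hpn : ∀ a, n - p a + p a = n := fun a => Nat.sub_add_cancel (P_le T (hP a 0))
  choose h hh hh0 hbox using fun K a => loc3 n (n - p a) (p a) (C.B 2 a) (rel T k₁ a)
    (rel T (K + k₁ + 4) a) (hpn a) (C.isOpen_B 2 a) (C.preconn_B 2 a) (T.an _ 1 a a) (T.an _ 1 a a)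
    (fun x _ => T.A_refl _ _) (fun x _ => T.A_refl _ _) (hP a _)
    fun x hx ι hι => hP' a k₁ (hk₁ a) ⟨x, hx, ι, hι⟩
  choose k hk hk0 hks using fun K => T.thin' (K + k₁)
  have h24 : ∀ a, C.B 2 a ⊆ C.B 4 a := fun a => C.B_mono (by norm_num) a
  have hfa : ∀ K a, AnalyticOnNhd ℂ (fun z => h K a z * k K a z) (C.B 2 a) := fun K a =>
    (hh K a).mul (hk K a)
  have hf0 : ∀ K a, ∃ z ∈ C.B 2 a, h K a z * k K a z ≠ 0 := fun K a => by
    obtain ⟨x, hx, e⟩ := hh0 K a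
    obtain ⟨z, z1, z2, z3⟩ := ((dense_ne_zero (C.preconn_B 2 a) (hk K a) (hk0 K a)
      hx).and_eventually (((hh K a x hx).continuousAt.eventually_ne e).and
        ((C.isOpen_B 2 a).eventually_mem hx))).exists
    exact ⟨z, z3, mul_ne_zero z2 z1⟩
  set O : ℕ → ∀ a, Set (Cm n) := fun K a => C.B 2 a ∩ (fun z => h K a z * k K a z) ⁻¹' {0}ᶜ
  have hO : ∀ K a, IsOpen (O K a) := fun K a =>
    (hfa K a).continuousOn.isOpen_inter_preimage (C.isOpen_B 2 a) isOpen_compl_singleton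
  set En : ℕ → Set C.I → Set E := fun K P => ⋃ γ : Γ, ⋃ a ∈ P, C.pt γ a '' O K a
  have hmem : ∀ {K P y}, y ∈ En K P ↔ ∃ γ, ∃ a ∈ P, ∃ z ∈ O K a, C.pt γ a z = y := by
    simp [En]
  have hEo : ∀ K P, IsOpen (En K P) := fun K P => isOpen_iUnion fun γ => isOpen_biUnion fun a _ =>
    C.isOpen_image_pt γ (hO K a) fun z hz => h24 a hz.1
  have hnc : ∀ K γ a, ∀ z ∈ O K a, ∀ U ∈ 𝓝 (C.pt γ a z), ∃ N : TBox T (n - p a) (p a) k₁ K,
      C.pt γ a z ∈ N.Ψ.source ∧ N.Ψ (C.pt γ a z) = 0 ∧ N.Ψ.source ⊆ En K univ ∩ U := by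
    intro K γ a z hz U hU
    have hs := fun x (hx : x ∈ O K a) => hks K a x hx.1 (right_ne_zero_of_mul hx.2)
    obtain ⟨N, n1, n2, n3⟩ := tbox_of T γ (V := O K a ∩ C.pt γ a ⁻¹' U) (fun x hx => hx.1.1)
      (fun x hx => hs x hx.1)
      (hbox K a z hz.1 (left_ne_zero_of_mul hz.2) _ (inter_mem ((hO K a).mem_nhds hz)
        ((C.continuousAt_pt (h24 a hz.1) γ).preimage_mem_nhds hU)) fun x hx y _ w _ e1 e2 => by
          have hx' := hs x hx.1 k₁ (Nat.le_add_left _ _) 1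
          exact T.sub _ _ _ (T.R_trans (T.symm _ _ _ (T.back _ _ _ hx' e1)) (T.back _ _ _ hx' e2)
            (by omega) (by omega)))
    refine ⟨N, n1, n2, fun y hy => ?_⟩
    obtain ⟨x, hx, rfl⟩ := n3 hy
    exact ⟨hmem.2 ⟨γ, a, trivial, x, hx.1, rfl⟩, hx.2⟩
  have hconn : ∀ K, IsPreconnected (En K univ) := fun K =>
    (C.preconn_of_thin (k := 2) (by norm_num) (by norm_num) isOpen_univ isPreconnected_univ
      (subset_univ _) fun γ a => ⟨_, hfa K a, hf0 K a, fun z hz hz' _ =>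
        hmem.2 ⟨γ, a, trivial, z, ⟨hz, hz'⟩, rfl⟩⟩).1
  have hne : ∀ K a, (O K a).Nonempty := fun K a => (hf0 K a).imp fun z hz => hz
  obtain ⟨-, a₀, -⟩ := C.exists_pt (Classical.arbitrary E)
  have hd : ∀ a, p a = p a₀ := by
    intro a
    by_contra hcon
    obtain ⟨y, -, y1, y2⟩ := hconn (k₁ + 3) _ _ (hEo (k₁ + 3) {b | p b = p a₀})
      (hEo (k₁ + 3) {b | p b ≠ p a₀})
      (fun y hy => by
        obtain ⟨γ, b, -, hb⟩ := hmem.1 hy
        by_cases h : p b = p a₀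
        · exact .inl (hmem.2 ⟨γ, b, h, hb⟩)
        · exact .inr (hmem.2 ⟨γ, b, h, hb⟩))
      ⟨_, hmem.2 ⟨1, a₀, trivial, _, (hne _ a₀).some_mem, rfl⟩,
        hmem.2 ⟨1, a₀, rfl, _, (hne _ a₀).some_mem, rfl⟩⟩
      ⟨_, hmem.2 ⟨1, a, trivial, _, (hne _ a).some_mem, rfl⟩,
        hmem.2 ⟨1, a, hcon, _, (hne _ a).some_mem, rfl⟩⟩
    obtain ⟨γ, b, hb, z, hz, rfl⟩ := hmem.1 y1
    obtain ⟨γ', b', hb', z', hz', e⟩ := hmem.1 y2
    obtain ⟨N, n1, n2, -⟩ := hnc _ γ b z hz _ univ_mem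
    obtain ⟨N', m1, m2, -⟩ := hnc _ γ' b' z' hz' _ univ_mem
    rw [e] at m1 m2
    have e1 := N'.dim_le N le_rfl m1 m2 n1 n2
    have e2 := N.dim_le N' le_rfl n1 n2 m1 m2
    have e3 := hpn b
    have e4 := hpn b'
    exact hb' ((show p b' = p b by omega).trans hb)
  refine ⟨⟨n - p a₀, p a₀, k₁, hpn a₀,
    (hnc (k₁ + 3) 1 a₀ _ (hne _ a₀).some_mem _ univ_mem).choose.pos le_rfl, fun K => En K univ,
    fun K => hEo K _, fun K g y hy => ?_, hconn, fun K a => ⟨_, hfa K a, hf0 K a, fun z hz hz' =>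
      hmem.2 ⟨1, a, trivial, z, ⟨hz, hz'⟩, rfl⟩⟩, fun K y hy U hU => ?_⟩⟩
  · obtain ⟨γ, a, -, z, hz, rfl⟩ := hmem.1 hy
    exact hmem.2 ⟨g * γ, a, trivial, z, hz, (C.smul_pt g γ a z).symm⟩
  · obtain ⟨γ, a, -, z, hz, rfl⟩ := hmem.1 hy
    rw [← hd a]
    exact hnc K γ a z hz U hU

end Vale.Agent.P284Y.Lib
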