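import Vale.Agent.P284Y.Lib.AR
import Vale.Agent.P284Z.J.Win
import Vale.Agent.P284Z.F0.Levi
import Mathlib.Analysis.SpecialFunctions.JapaneseBracket
import Mathlib.LinearAlgebra.Matrix.SchurComplement

/-!
# P284Y, library: toric models

The functions `log (ε + |z - y|²)` and `log (e^{-λ} + ∑ |z i|^{2 a i})`: complex Hessian, total
Monge-Ampère mass, concentration of the mass, bound of the density.
-/

open scoped ContDiff Topology ComplexOrder ENNReal Matrix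
open Filter Set Function Metric MeasureTheory

noncomputable section

namespace Vale.Agent.P284Y.Lib

open Vale.Agent.P272.K Vale.Agent.P284Z Vale.Agent.P284.H650

variable {k : ℕ} {ε : ℝ}

/-- the Monge-Ampère density of a function -/
def mad (u : Cm k → ℝ) (z : Cm k) : ℝ≥0∞ := ENNReal.ofReal (cHess u z).det.re

/-- the regularised logarithm of the distance to `y` -/
def lg (ε : ℝ) (y z : Cm k) : ℝ := Real.log (ε + nsq (z - y))

theorem lg_pos (hε : 0 < ε) (x : Cm k) : 0 < ε + nsq x :=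
  add_pos_of_pos_of_nonneg hε (J.nsq_nonneg x)

theorem lg_smooth (hε : 0 < ε) (y : Cm k) : ContDiff ℝ ∞ (lg ε y) :=
  (contDiff_const.add (J.sm_nsq y)).log fun _ => (lg_pos hε _).ne'

theorem hess_lg (hε : 0 < ε) (y z : Cm k) : cHess (lg ε y) z =
    (((ε + nsq (z - y))⁻¹ : ℝ) : ℂ) • (1 : J.Mx k) -
      ((((ε + nsq (z - y)) ^ 2)⁻¹ : ℝ) : ℂ) • rk1 (star (z - y)) (z - y) := by
  have h0 := lg_pos hε (z - y)
  have h1 : ContDiffAt ℝ 2 (fun w => nsq (w - y)) z := (J.sm_nsq y).contDiffAt.of_le J.two_le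
  have h := J.cHess_comp' (φ := fun s => Real.log (ε + s)) (f := fun w => nsq (w - y)) (z := z)
    ((contDiffAt_const.add contDiffAt_id).log h0.ne') h1
  have e : deriv (fun s => Real.log (ε + s)) = fun s => (ε + s)⁻¹ := by
    ext s
    rw [deriv_comp_const_add Real.log, Real.deriv_log]
  rw [e, deriv_comp_const_add (fun s : ℝ => s⁻¹), deriv_inv, J.hess_nsq, J.gg_nsq] at h
  rw [sub_eq_add_neg, ← neg_smul, ← Complex.ofReal_neg]
  exact h

theorem det_one_sub_rk1 (c : ℂ) (x : Cm k) :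
    (1 - c • rk1 (star x) x : J.Mx k).det = 1 - c * nsq x := by
  have h := Matrix.det_one_add_replicateCol_mul_replicateRow (ι := Unit) (-c • star x) x
  have e : (1 - c • rk1 (star x) x : J.Mx k) =
      1 + Matrix.replicateCol Unit (-c • star x) * Matrix.replicateRow Unit x := by
    ext i j
    simp [rk1, Matrix.mul_apply, mul_assoc, sub_eq_add_neg]
  rw [e, h]
  simp [dotProduct, nsq, Finset.mul_sum, sub_eq_add_neg, mul_left_comm _ c, Complex.mul_conj']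

/-- the determinant of the Hessian -/
theorem det_lg (hε : 0 < ε) (y z : Cm k) :
    (cHess (lg ε y) z).det = ((ε / (ε + nsq (z - y)) ^ (k + 1) : ℝ) : ℂ) := by
  have h0 : ((ε + nsq (z - y) : ℝ) : ℂ) ≠ 0 := Complex.ofReal_ne_zero.2 (lg_pos hε (z - y)).ne'
  have e : cHess (lg ε y) z = (((ε + nsq (z - y) : ℝ) : ℂ)⁻¹) • (1 -
      (((ε + nsq (z - y) : ℝ) : ℂ)⁻¹) • rk1 (star (z - y)) (z - y) : J.Mx k) := by
    rw [hess_lg hε, smul_sub, smul_smul]
    simp only [Complex.ofReal_inv, sq, Complex.ofReal_mul, mul_inv]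
  rw [e, Matrix.det_smul, det_one_sub_rk1, Fintype.card_fin, inv_pow]
  push_cast at h0 ⊢
  field_simp
  ring

/-- lower bound of the Hessian -/
theorem lg_ge (hε : 0 < ε) (y z : Cm k) : (cHess (lg ε y) z -
    ((ε / (ε + nsq (z - y)) ^ 2 : ℝ) : ℂ) • (1 : J.Mx k)).PosSemidef := by
  have h0 := lg_pos hε (z - y)
  have h := J.psd_smul (J.psd_rad (z - y)) (c := ((ε + nsq (z - y)) ^ 2)⁻¹) (by positivity)
  refine (congrArg Matrix.PosSemidef ?_).mp h
  have h1 : ((ε : ℂ) + nsq (z - y)) ≠ 0 := by exact_mod_cast h0.ne'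
  rw [hess_lg hε]
  push_cast
  match_scalars
  · field_simp
    ring
  · field_simp

/-- upper bound of the Hessian -/
theorem lg_le (hε : 0 < ε) (y z : Cm k) :
    ((((ε + nsq (z - y))⁻¹ : ℝ) : ℂ) • (1 : J.Mx k) - cHess (lg ε y) z).PosSemidef := by
  have h0 := lg_pos hε (z - y)
  rw [hess_lg hε, sub_sub_cancel, ← J.gg_nsq]
  exact J.psd_smul (J.gg_psd _ _) (by positivity)

theorem lg_psd (hε : 0 < ε) (y z : Cm k) : (cHess (lg ε y) z).PosSemidef := by
  have h0 := lg_pos hε (z - y)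
  have h := (lg_ge hε y z).add (J.psd_smul (M := (1 : J.Mx k)) Matrix.PosSemidef.one
    (c := ε / (ε + nsq (z - y)) ^ 2) (by positivity))
  rwa [sub_add_cancel] at h

theorem lg_psh (hε : 0 < ε) (y : Cm k) (U : Set (Cm k)) : Psh (lg ε y) U :=
  psh_of_cHess fun z _ => ⟨(lg_smooth hε y).contDiffAt.of_le J.two_le, lg_psd hε y z⟩

theorem mad_lg (hε : 0 < ε) (y z : Cm k) :
    mad (lg ε y) z = ENNReal.ofReal (ε / (ε + nsq (z - y)) ^ (k + 1)) := by
  rw [mad, det_lg hε, Complex.ofReal_re]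

/-- the density of the model measure -/
def fsd (w : Cm k) : ℝ≥0∞ := ENNReal.ofReal (1 / (1 + nsq w) ^ (k + 1))

/-- the total mass of the model measure -/
def mFS (k : ℕ) : ℝ≥0∞ := ∫⁻ w : Cm k, fsd w

theorem cont_nsq : Continuous (nsq : Cm k → ℝ) := by
  simpa using (J.sm_nsq (0 : Cm k)).continuous

theorem meas_fsd : Measurable (fsd : Cm k → ℝ≥0∞) :=
  ENNReal.measurable_ofReal.comp (measurable_const.div ((cont_nsq.measurable.const_add 1).pow_const _))

theorem sq_le_nsq (x : Cm k) : ‖x‖ ^ 2 ≤ nsq x := by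
  rw [← Real.le_sqrt (norm_nonneg _) (J.nsq_nonneg x), pi_norm_le_iff_of_nonneg (Real.sqrt_nonneg _)]
  intro i
  rw [Real.le_sqrt (norm_nonneg _) (J.nsq_nonneg x)]
  exact Finset.single_le_sum (f := fun b => ‖x b‖ ^ 2) (fun _ _ => sq_nonneg _) (Finset.mem_univ i)

theorem mFS_ne_top (k : ℕ) : mFS k ≠ ⊤ := by
  have h := integrable_rpow_neg_one_add_norm_sq (E := Cm k) (μ := volume) (r := 2 * k + 2) (by
    rw [Module.finrank_pi_fintype]
    simp [mul_comm])
  refine ne_top_of_le_ne_top h.lintegral_lt_top.ne (lintegral_mono fun w => ?_)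
  refine ENNReal.ofReal_le_ofReal ?_
  rw [show -(2 * (k : ℝ) + 2) / 2 = -((k + 1 : ℕ) : ℝ) by push_cast; ring,
    Real.rpow_neg (by positivity), Real.rpow_natCast, one_div]
  have := sq_le_nsq w
  gcongr

theorem mFS_ne_zero (k : ℕ) : mFS k ≠ 0 := by
  refine ((lintegral_pos_iff_support meas_fsd).2 ?_).ne'
  have : support (fsd : Cm k → ℝ≥0∞) = univ := eq_univ_of_forall fun w => by
    have := lg_pos one_pos w
    exact (ENNReal.ofReal_pos.2 (by positivity)).ne'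
  rw [this]
  exact isOpen_univ.measure_pos _ univ_nonempty

/-- tails of the model measure -/
theorem fs_tail {V : ℝ → Set (Cm k)} (hm : ∀ K, MeasurableSet (V K)) (hV : Monotone V)
    (hu : ∀ᵐ w, ∃ K, w ∈ V K) {η : ℝ≥0∞} (hη : η ≠ 0) :
    ∃ K > (0 : ℝ), ∀ K' ≥ K, ∫⁻ w in (V K')ᶜ, fsd w ≤ η := by
  set ν : Measure (Cm k) := volume.withDensity fsd with hν
  have h1 : ∀ S, MeasurableSet S → ν S = ∫⁻ w in S, fsd w := fun S hS => withDensity_apply _ hS
  have : IsFiniteMeasure ν := isFiniteMeasure_withDensity (mFS_ne_top k)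
  have h2 := tendsto_measure_iInter_atTop (μ := ν) (s := fun K => (V K)ᶜ)
    (fun K => (hm K).compl.nullMeasurableSet) (fun _ _ h => compl_subset_compl.2 (hV h))
    ⟨0, measure_ne_top _ _⟩
  have h3 : ν (⋂ K, (V K)ᶜ) = 0 := by
    refine withDensity_absolutelyContinuous _ _ (measure_mono_null (fun w hw => ?_) hu)
    simpa using hw
  rw [h3] at h2
  obtain ⟨K, hK⟩ := eventually_atTop.1 (h2.eventually (ge_mem_nhds (pos_iff_ne_zero.2 hη)))
  exact ⟨max K 1, by positivity, fun K' h => (h1 _ (hm K').compl).symm.trans_le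
    (hK K' ((le_max_left _ _).trans h))⟩

theorem det_pb (S H : J.Mx k) : (pb S H).det = ((‖S.det‖ ^ 2 : ℝ) : ℂ) * H.det := by
  rw [pb, Matrix.det_mul, Matrix.det_mul, Matrix.det_transpose, ← RingHom.mapMatrix_apply,
    ← RingHom.map_det, Complex.ofReal_pow, ← Complex.mul_conj']
  ring

theorem hess_const_add {u : Cm k → ℝ} {z : Cm k} (c : ℝ) (hu : ContDiffAt ℝ 2 u z) :
    cHess (fun w => c + u w) z = cHess u z := by
  rw [C2.cHess_add contDiffAt_const hu, C2.cHess_const, zero_add]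

theorem mad_comp {u : Cm k → ℝ} {Θ : Cm k → Cm k} {z : Cm k} (h : AnalyticAt ℂ Θ z)
    (hu : ContDiffAt ℝ 2 u (Θ z)) :
    mad (fun w => u (Θ w)) z = ENNReal.ofReal (‖(jm Θ z).det‖ ^ 2) * mad u (Θ z) := by
  rw [mad, J.hess_comp h hu, det_pb, Complex.re_ofReal_mul, ENNReal.ofReal_mul (sq_nonneg _), mad]

theorem mad_smul {u : Cm k → ℝ} {z : Cm k} {c : ℝ} (hc : 0 ≤ c) (hu : ContDiffAt ℝ 2 u z) :
    mad (fun w => c * u w) z = ENNReal.ofReal (c ^ k) * mad u z := by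
  rw [mad, C2.cHess_const_mul c hu, Matrix.det_smul, Fintype.card_fin, ← Complex.ofReal_pow,
    Complex.re_ofReal_mul, ENNReal.ofReal_mul (by positivity), mad]

theorem jm_diag {f : Fin k → ℂ → ℂ} {f' z : Cm k} (h : ∀ i, HasDerivAt (f i) (f' i) (z i)) :
    jm (fun w : Cm k => fun i => f i (w i)) z = Matrix.diagonal f' := by
  have h1 : HasFDerivAt (fun w : Cm k => fun i => f i (w i)) (ContinuousLinearMap.pi fun i =>
      f' i • ContinuousLinearMap.proj (R := ℂ) (φ := fun _ => ℂ) i) z := by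
    refine hasFDerivAt_pi.2 fun i => ?_
    exact ((h i).hasFDerivAt.comp z
      (ContinuousLinearMap.proj (R := ℂ) (φ := fun _ => ℂ) i).hasFDerivAt).congr_fderiv
      (ContinuousLinearMap.ext fun v => by simp [mul_comm])
  ext i j
  rw [jm, h1.fderiv, Matrix.diagonal_apply]
  simp [Pi.single_apply]

theorem hess_sub {u : Cm k → ℝ} {z y : Cm k} (hu : ContDiffAt ℝ 2 u (z - y)) :
    cHess (fun w => u (w - y)) z = cHess u (z - y) := by
  have h : jm (fun w : Cm k => w - y) z = 1 :=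
    jm_diag (f := fun i x => x - y i) fun i => (hasDerivAt_id _).sub_const _
  rw [J.hess_comp (s := fun w => w - y) (by fun_prop) hu, h, pb]
  simp

/-- the mass of a pull-back of the model function -/
theorem mass_pull {Θ : Cm k → Cm k} {u : Cm k → ℝ} {c : ℝ} {m : ℕ} {V : Set (Cm k)}
    (h : AnalyticOnNhd ℂ Θ univ) (hu : u = fun z => c + lg 1 0 (Θ z))
    (hm : ∀ᵐ w, {z | Θ z = w}.encard = m) (hV : MeasurableSet V) :
    ∫⁻ z in Θ ⁻¹' V, mad u z = m * ∫⁻ w in V, fsd w := by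
  rw [← area_deg isOpen_univ h hV (hm.mono fun w hw _ => by simpa using hw) meas_fsd, univ_inter]
  refine lintegral_congr fun z => ?_
  have h1 : ContDiffAt ℝ 2 (lg 1 0) (Θ z) := (lg_smooth one_pos 0).contDiffAt.of_le J.two_le
  rw [hu, mad, hess_const_add (u := fun z => lg 1 0 (Θ z)) c
    (h1.comp z (((h z trivial).contDiffAt).restrict_scalars ℝ)), ← mad, mad_comp (h z trivial) h1, mad_lg one_pos, sub_zero, fsd]

/-- the rescaling of the ball of radius `√ε` around `y` -/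
def scl (ε : ℝ) (y z : Cm k) : Cm k := ((√ε : ℝ) : ℂ)⁻¹ • (z - y)

theorem nsq_scl (hε : 0 < ε) (y z : Cm k) : nsq (scl ε y z) = nsq (z - y) / ε := by
  simp [nsq, scl, mul_pow, abs_of_nonneg (Real.sqrt_nonneg ε), Real.sq_sqrt hε.le, Finset.mul_sum,
    div_eq_inv_mul]

theorem lg_mass (hε : 0 < ε) (y : Cm k) {V : Set (Cm k)} (hV : MeasurableSet V) :
    ∫⁻ z in scl ε y ⁻¹' V, mad (lg ε y) z = ∫⁻ w in V, fsd w := by
  have h0 : ((√ε : ℝ) : ℂ) ≠ 0 := Complex.ofReal_ne_zero.2 (Real.sqrt_pos.2 hε).ne'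
  have h := mass_pull (Θ := scl ε y) (u := lg ε y) (c := Real.log ε) (m := 1)
    (fun z _ => by unfold scl; fun_prop) (by
      ext z
      rw [lg, lg, sub_zero, nsq_scl hε, ← Real.log_mul hε.ne' (by
        have := J.nsq_nonneg (z - y); positivity)]
      congr 1
      field_simp) (ae_of_all _ fun w => by
      have : {z | scl ε y z = w} = {((√ε : ℝ) : ℂ) • w + y} := by
        ext z
        rw [mem_ofPred_eq, scl, inv_smul_eq_iff₀ h0, sub_eq_iff_eq_add, mem_singleton_iff]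
      rw [this, encard_singleton, Nat.cast_one]) hV
  rwa [Nat.cast_one, one_mul] at h

theorem lg_total (hε : 0 < ε) (y : Cm k) : ∫⁻ z, mad (lg ε y) z = mFS k := by
  simpa [mFS] using lg_mass hε y MeasurableSet.univ

/-- the mass is concentrated on the ball of radius `√(K ε)` -/
theorem lg_tail (k : ℕ) {η : ℝ≥0∞} (hη : η ≠ 0) : ∃ K > (0 : ℝ), ∀ K' ≥ K, ∀ ε > (0 : ℝ),
    ∀ y : Cm k, ∫⁻ z in {z | K' * ε < nsq (z - y)}, mad (lg ε y) z ≤ η := by
  have hm : ∀ K : ℝ, MeasurableSet {w : Cm k | nsq w ≤ K} := fun K =>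
    measurableSet_le cont_nsq.measurable measurable_const
  obtain ⟨K, h0, hK⟩ := fs_tail hm (fun _ _ h w hw => le_trans hw h)
    (ae_of_all _ fun w => ⟨nsq w, le_refl (nsq w)⟩) hη
  refine ⟨K, h0, fun K' h ε hε y => le_of_eq_of_le ?_ (hK K' h)⟩
  rw [← lg_mass hε y (hm K').compl]
  congr 2
  ext z
  simp [nsq_scl hε, lt_div_iff₀ hε]

/-- the toric model -/
def tm (a : Fin k → ℕ) (lam : ℝ) (z : Cm k) : ℝ :=
  Real.log (Real.exp (-lam) + ∑ i, ‖z i‖ ^ (2 * a i))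

/-- the covering which defines the toric model -/
def tmΘ (a : Fin k → ℕ) (lam : ℝ) (z : Cm k) : Cm k := fun i => (Real.exp (lam / 2) : ℂ) * z i ^ a i

/-- the set which carries most of the mass -/
def tmGood (a : Fin k → ℕ) (lam K : ℝ) : Set (Cm k) :=
  {z | ∀ i, Real.exp (-lam - K) ≤ ‖z i‖ ^ (2 * a i) ∧ ‖z i‖ ^ (2 * a i) ≤ Real.exp (-lam + K)}

variable {a : Fin k → ℕ} {lam K : ℝ} {z : Cm k}

theorem tm_pos (a : Fin k → ℕ) (lam : ℝ) (z : Cm k) :
    0 < Real.exp (-lam) + ∑ i, ‖z i‖ ^ (2 * a i) := by positivity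

theorem tm_ge (a : Fin k → ℕ) (lam : ℝ) (z : Cm k) : -lam ≤ tm a lam z := by
  rw [tm, Real.le_log_iff_exp_le (tm_pos a lam z)]
  exact le_add_of_nonneg_right (by positivity)

theorem log_le_tm (a : Fin k → ℕ) (lam : ℝ) {i : Fin k} (h : z i ≠ 0) :
    2 * a i * Real.log ‖z i‖ ≤ tm a lam z := by
  have h1 : ‖z i‖ ^ (2 * a i) ≤ ∑ i, ‖z i‖ ^ (2 * a i) :=
    Finset.single_le_sum (f := fun i => ‖z i‖ ^ (2 * a i)) (fun _ _ => by positivity) (Finset.mem_univ i)
  have h2 := Real.log_le_log (by positivity) (h1.trans (le_add_of_nonneg_left (Real.exp_pos (-lam)).le))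
  rwa [Real.log_pow, Nat.cast_mul, Nat.cast_ofNat] at h2

theorem tm_le {c : ℝ} (h0 : -lam ≤ c) (h : ∀ i, ‖z i‖ ^ (2 * a i) ≤ Real.exp c) :
    tm a lam z ≤ c + Real.log (k + 1) := by
  rw [tm, Real.log_le_iff_le_exp (tm_pos a lam z), Real.exp_add, Real.exp_log (by positivity)]
  have h1 := Finset.sum_le_card_nsmul Finset.univ _ _ fun i _ => h i
  have h2 := Real.exp_le_exp.2 h0
  simp only [Finset.card_univ, Fintype.card_fin, nsmul_eq_mul] at h1
  linarith

theorem sq_tmΘ (a : Fin k → ℕ) (lam : ℝ) (z : Cm k) (i : Fin k) :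
    ‖tmΘ a lam z i‖ ^ 2 = Real.exp lam * ‖z i‖ ^ (2 * a i) := by
  rw [tmΘ, norm_mul, mul_pow, Complex.norm_real, Real.norm_eq_abs, sq_abs, sq, ← Real.exp_add,
    add_halves, norm_pow, ← pow_mul, mul_comm (a i)]

theorem an_tmΘ (a : Fin k → ℕ) (lam : ℝ) : AnalyticOnNhd ℂ (tmΘ a lam) univ :=
  fun _ _ => analyticAt_pi_iff.2 fun i => analyticAt_const.mul
    (((ContinuousLinearMap.proj (R := ℂ) (φ := fun _ => ℂ) i).analyticAt _).pow _)

theorem one_add_tmΘ (a : Fin k → ℕ) (lam : ℝ) (z : Cm k) : 1 + nsq (tmΘ a lam z) =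
    Real.exp lam * (Real.exp (-lam) + ∑ i, ‖z i‖ ^ (2 * a i)) := by
  simp only [nsq, sq_tmΘ, mul_add, Finset.mul_sum, ← Real.exp_add, add_neg_cancel, Real.exp_zero]

theorem tm_eq (a : Fin k → ℕ) (lam : ℝ) : tm a lam = fun z => -lam + lg 1 0 (tmΘ a lam z) := by
  ext z
  rw [lg, sub_zero, one_add_tmΘ, Real.log_mul (Real.exp_pos _).ne' (tm_pos a lam z).ne', Real.log_exp,
    tm, neg_add_cancel_left]

theorem lg_tmΘ (a : Fin k → ℕ) (lam : ℝ) : ContDiff ℝ ∞ fun z => lg 1 0 (tmΘ a lam z) :=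
  (lg_smooth one_pos 0).comp (contDiff_iff_contDiffAt.2 fun z =>
    ((an_tmΘ a lam z trivial).contDiffAt (n := ∞)).restrict_scalars ℝ)

theorem tm_smooth (a : Fin k → ℕ) (lam : ℝ) : ContDiff ℝ ∞ (tm a lam) :=
  tm_eq a lam ▸ contDiff_const.add (lg_tmΘ a lam)

theorem jm_tmΘ (a : Fin k → ℕ) (lam : ℝ) (z : Cm k) : jm (tmΘ a lam) z =
    Matrix.diagonal fun i => (Real.exp (lam / 2) : ℂ) * (a i * z i ^ (a i - 1)) :=
  jm_diag (f := fun i x => (Real.exp (lam / 2) : ℂ) * x ^ a i) fun i =>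
    (hasDerivAt_pow (a i) (z i)).const_mul _

theorem hess_tm (a : Fin k → ℕ) (lam : ℝ) (z : Cm k) :
    cHess (tm a lam) z = pb (jm (tmΘ a lam) z) (cHess (lg 1 0) (tmΘ a lam z)) := by
  rw [tm_eq, hess_const_add _ ((lg_tmΘ a lam).contDiffAt.of_le J.two_le),
    J.hess_comp (an_tmΘ a lam z trivial) ((lg_smooth one_pos 0).contDiffAt.of_le J.two_le)]

theorem tm_psd (a : Fin k → ℕ) (lam : ℝ) (z : Cm k) : (cHess (tm a lam) z).PosSemidef :=
  hess_tm a lam z ▸ J.pb_psd _ (lg_psd one_pos 0 _)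

theorem tm_psh (a : Fin k → ℕ) (lam : ℝ) (U : Set (Cm k)) : Psh (tm a lam) U :=
  psh_of_cHess fun z _ => ⟨(tm_smooth a lam).contDiffAt.of_le J.two_le, tm_psd a lam z⟩

/-- the determinant of the Hessian -/
theorem det_tm (a : Fin k → ℕ) (lam : ℝ) (z : Cm k) : (cHess (tm a lam) z).det =
    ((Real.exp (-lam) * (∏ i, (a i : ℝ) ^ 2 * ‖z i‖ ^ (2 * (a i - 1))) /
      (Real.exp (-lam) + ∑ i, ‖z i‖ ^ (2 * a i)) ^ (k + 1) : ℝ) : ℂ) := by
  rw [hess_tm, det_pb, det_lg one_pos, ← Complex.ofReal_mul, sub_zero, one_add_tmΘ, jm_tmΘ,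
    Matrix.det_diagonal, norm_prod, ← Finset.prod_pow]
  congr 1
  have h : ∀ i, ‖(Real.exp (lam / 2) : ℂ) * (a i * z i ^ (a i - 1))‖ ^ 2 =
      Real.exp lam * ((a i : ℝ) ^ 2 * ‖z i‖ ^ (2 * (a i - 1))) := fun i => by
    rw [norm_mul, mul_pow, Complex.norm_real, Real.norm_eq_abs, sq_abs, sq, ← Real.exp_add,
      add_halves, norm_mul, mul_pow, norm_pow, ← pow_mul, mul_comm (a i - 1), Complex.norm_natCast]
  have h0 := tm_pos a lam z
  simp only [h]
  rw [Finset.prod_mul_distrib, Finset.prod_const, Finset.card_univ, Fintype.card_fin, mul_pow]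
  generalize Real.exp (-lam) + ∑ i, ‖z i‖ ^ (2 * a i) = S at h0
  rw [Real.exp_neg]
  field_simp
  ring

/-- the determinant in the variables `e^λ |z i|^{2 a i}` -/
theorem det_tm_mul (ha : ∀ i, 1 ≤ a i) (lam : ℝ) (z : Cm k) :
    (cHess (tm a lam) z).det.re * ∏ i, ‖z i‖ ^ 2 = (∏ i, (a i : ℝ) ^ 2) *
      ((∏ i, ‖tmΘ a lam z i‖ ^ 2) / (1 + nsq (tmΘ a lam z)) ^ (k + 1)) := by
  have h0 := tm_pos a lam z
  have h : ∀ i, ‖z i‖ ^ (2 * a i) = ‖z i‖ ^ (2 * (a i - 1)) * ‖z i‖ ^ 2 := fun i => by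
    rw [← pow_add]
    congr 1
    have := ha i
    omega
  rw [det_tm, Complex.ofReal_re, one_add_tmΘ, mul_pow]
  generalize Real.exp (-lam) + ∑ i, ‖z i‖ ^ (2 * a i) = S at h0
  simp only [sq_tmΘ, h, Finset.prod_mul_distrib, Finset.prod_const, Finset.card_univ,
    Fintype.card_fin, Real.exp_neg]
  field_simp
  ring

/-- bound of the density -/
theorem det_tm_le (ha : ∀ i, 1 ≤ a i) (lam : ℝ) (z : Cm k) :
    (cHess (tm a lam) z).det.re * ∏ i, ‖z i‖ ^ 2 ≤ ∏ i, (a i : ℝ) ^ 2 := by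
  rw [det_tm_mul ha]
  have h0 := J.nsq_nonneg (tmΘ a lam z)
  refine mul_le_of_le_one_right (by positivity) (div_le_one_of_le₀ ?_ (by positivity))
  refine (Finset.prod_le_prod (g := fun _ => 1 + nsq (tmΘ a lam z)) (fun _ _ => sq_nonneg _)
    fun i _ => ?_).trans ?_
  · exact (Finset.single_le_sum (f := fun i => ‖tmΘ a lam z i‖ ^ 2) (fun _ _ => sq_nonneg _)
      (Finset.mem_univ i)).trans (le_add_of_nonneg_left zero_le_one)
  · rw [Finset.prod_const, Finset.card_univ, Fintype.card_fin]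
    exact pow_le_pow_right₀ (le_add_of_nonneg_right h0) k.le_succ

/-- lower bound of the density on the good set -/
theorem det_tm_ge (ha : ∀ i, 1 ≤ a i) (hz : z ∈ tmGood a lam K) :
    (∏ i, (a i : ℝ) ^ 2) * (Real.exp (-K) ^ k / (1 + k * Real.exp K) ^ (k + 1)) ≤
      (cHess (tm a lam) z).det.re * ∏ i, ‖z i‖ ^ 2 := by
  rw [det_tm_mul ha]
  have h0 := J.nsq_nonneg (tmΘ a lam z)
  have h1 : ∀ i, Real.exp (-K) ≤ ‖tmΘ a lam z i‖ ^ 2 ∧ ‖tmΘ a lam z i‖ ^ 2 ≤ Real.exp K := fun i => by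
    rw [sq_tmΘ, ← div_le_iff₀' (Real.exp_pos _), ← le_div_iff₀' (Real.exp_pos _), ← Real.exp_sub,
      ← Real.exp_sub, show -K - lam = -lam - K by ring, sub_eq_neg_add K]
    exact hz i
  have h2 : nsq (tmΘ a lam z) ≤ k * Real.exp K := by
    simpa [nsq] using Finset.sum_le_card_nsmul Finset.univ _ _ fun i _ => (h1 i).2
  have h3 : Real.exp (-K) ^ k ≤ ∏ i, ‖tmΘ a lam z i‖ ^ 2 := by
    simpa using Finset.prod_le_prod (s := Finset.univ) (fun _ _ => (Real.exp_pos (-K)).le)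
      fun i _ => (h1 i).1
  gcongr

theorem det_tm_le' (ha : ∀ i, 1 ≤ a i) (lam : ℝ) (hz : ∀ i, z i ≠ 0) :
    (cHess (tm a lam) z).det.re ≤ ∏ i, (a i : ℝ) ^ 2 / ‖z i‖ ^ 2 := by
  rw [Finset.prod_div_distrib, le_div_iff₀ (Finset.prod_pos fun i _ => by have := hz i; positivity)]
  exact det_tm_le ha lam z

theorem mem_tmGood (ha : ∀ i, 1 ≤ a i) : z ∈ tmGood a lam K ↔
    ∀ i, z i ≠ 0 ∧ |2 * a i * Real.log ‖z i‖ + lam| ≤ K := by
  refine forall_congr' fun i => ?_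
  by_cases h : z i = 0
  · have := ha i
    simp [h, zero_pow (show 2 * a i ≠ 0 by omega), (Real.exp_pos _).not_ge]
  · have h1 : 0 < ‖z i‖ ^ (2 * a i) := by positivity
    rw [← Real.le_log_iff_exp_le h1, ← Real.log_le_iff_le_exp h1, Real.log_pow, abs_le]
    push_cast
    exact ⟨fun h2 => ⟨h, by linarith [h2.1], by linarith [h2.2]⟩,
      fun h2 => ⟨by linarith [h2.2.1], by linarith [h2.2.2]⟩⟩

theorem closed_tmGood (a : Fin k → ℕ) (lam K : ℝ) : IsClosed (tmGood a lam K) := by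
  simp only [tmGood, ofPred_forall]
  refine isClosed_iInter fun i => IsClosed.and ?_ ?_ <;> exact isClosed_le (by fun_prop) (by fun_prop)

theorem card_tmΘ (ha : ∀ i, 1 ≤ a i) (lam : ℝ) :
    ∀ᵐ w, {z | tmΘ a lam z = w}.encard = (∏ i, a i : ℕ) := by
  have h0 : ∀ᵐ w : Cm k, ∀ i, w i ≠ 0 := ae_all_iff.2 fun i => Measure.ae_eval_ne _ i 0
  filter_upwards [h0] with w hw
  have he : (Real.exp (lam / 2) : ℂ) ≠ 0 := Complex.ofReal_ne_zero.2 (Real.exp_pos _).ne'
  have e : {z | tmΘ a lam z = w} = Set.pi univ fun i =>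
      (Polynomial.X ^ a i - Polynomial.C (w i / Real.exp (lam / 2))).rootSet ℂ := by
    ext z
    rw [mem_ofPred_eq, funext_iff, mem_univ_pi]
    refine forall_congr' fun i => ?_
    rw [Polynomial.mem_rootSet_of_ne (Polynomial.X_pow_sub_C_ne_zero (ha i) _), tmΘ]
    simp only [map_sub, map_pow, Polynomial.aeval_X, Polynomial.aeval_C, Algebra.algebraMap_self,
      RingHom.id_apply, sub_eq_zero, eq_div_iff he, mul_comm]
  rw [e, Set.encard_pi_eq_prod_encard, Nat.cast_prod]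
  refine Finset.prod_congr rfl fun i _ => ?_
  have h1 : (a i : ℂ) ≠ 0 := Nat.cast_ne_zero.2 (by have := ha i; omega)
  rw [← Set.coe_fintypeCard, Polynomial.card_rootSet_eq_natDegree
    (Polynomial.separable_X_pow_sub_C _ h1 (div_ne_zero (hw i) he)) (IsAlgClosed.splits _),
    Polynomial.natDegree_X_pow_sub_C]

theorem tm_mass (ha : ∀ i, 1 ≤ a i) (lam : ℝ) {V : Set (Cm k)} (hV : MeasurableSet V) :
    ∫⁻ z in tmΘ a lam ⁻¹' V, mad (tm a lam) z = (∏ i, a i : ℕ) * ∫⁻ w in V, fsd w :=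
  mass_pull (an_tmΘ a lam) (tm_eq a lam) (card_tmΘ ha lam) hV

/-- the total mass -/
theorem tm_total (ha : ∀ i, 1 ≤ a i) (lam : ℝ) :
    ∫⁻ z, mad (tm a lam) z = (∏ i, a i : ℕ) * mFS k := by
  simpa [mFS] using tm_mass ha lam MeasurableSet.univ

/-- concentration of the mass -/
theorem tm_tail (k : ℕ) {η : ℝ≥0∞} (hη : η ≠ 0) : ∃ K > (0 : ℝ), ∀ K' ≥ K, ∀ a : Fin k → ℕ,
    (∀ i, 1 ≤ a i) → ∀ lam : ℝ,
      ∫⁻ z in (tmGood a lam K')ᶜ, mad (tm a lam) z ≤ (∏ i, a i : ℕ) * η := by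
  have hm : ∀ K : ℝ, MeasurableSet (tmGood (fun _ : Fin k => 1) 0 K) := fun K =>
    (closed_tmGood _ _ _).measurableSet
  have h1 : ∀ i : Fin k, 1 ≤ (fun _ : Fin k => 1) i := fun _ => le_rfl
  obtain ⟨K, h0, hK⟩ := fs_tail hm
    (fun _ _ h w hw => (mem_tmGood h1).2 fun i =>
      ((mem_tmGood h1).1 hw i).imp_right fun h' => h'.trans h) (by
      have h0 : ∀ᵐ w : Cm k, ∀ i, w i ≠ 0 := ae_all_iff.2 fun i => Measure.ae_eval_ne _ i 0
      filter_upwards [h0] with w hw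
      exact ⟨_, (mem_tmGood h1).2 fun i => ⟨hw i, Finset.single_le_sum
        (f := fun i => |2 * ((1 : ℕ) : ℝ) * Real.log ‖w i‖ + 0|) (fun _ _ => abs_nonneg _)
        (Finset.mem_univ i)⟩⟩) hη
  refine ⟨K, h0, fun K' h a ha lam => le_of_eq_of_le ?_ (mul_le_mul_right (hK K' h) _)⟩
  rw [← tm_mass ha lam (hm K').compl, preimage_compl]
  congr 3
  ext z
  refine forall_congr' fun i => ?_
  have h2 := Real.exp_pos lam
  rw [mul_one, sq_tmΘ, ← div_le_iff₀' h2, ← le_div_iff₀' h2, ← Real.exp_sub, ← Real.exp_sub]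
  ring_nf

theorem compact_tmGood (ha : ∀ i, 1 ≤ a i) (lam K : ℝ) : IsCompact (tmGood a lam K) := by
  refine (isCompact_closedBall 0 (max 1 (Real.exp (-lam + K)))).of_isClosed_subset
    (closed_tmGood a lam K) fun z hz => ?_
  rw [mem_closedBall_zero_iff, pi_norm_le_iff_of_nonneg (by positivity)]
  intro i
  refine (le_total ‖z i‖ 1).elim le_max_of_le_left fun h => le_max_of_le_right ?_
  exact (le_self_pow₀ h (by have := ha i; omega)).trans (hz i).2

/-! ### real valued versions -/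

/-- the total mass of the model measure, as a real number -/
def mR (k : ℕ) : ℝ := (mFS k).toReal

theorem mR_pos (k : ℕ) : 0 < mR k := ENNReal.toReal_pos (mFS_ne_zero k) (mFS_ne_top k)

theorem real_mass {f : Cm k → ℝ} (hf : Continuous f) (h0 : ∀ z, 0 ≤ f z) {m : ℕ}
    (h : ∫⁻ z, ENNReal.ofReal (f z) = m * mFS k) : Integrable f ∧ ∫ z, f z = m * mR k ∧
    ∀ S, MeasurableSet S → ∀ η ≥ (0 : ℝ), ∫⁻ z in Sᶜ, ENNReal.ofReal (f z) ≤ m * ENNReal.ofReal η →
      m * (mR k - η) ≤ ∫ z in S, f z := by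
  have h1 : Integrable f := ⟨hf.aestronglyMeasurable, (hasFiniteIntegral_iff_ofReal
    (ae_of_all _ h0)).2 (h ▸ ENNReal.mul_lt_top (ENNReal.natCast_lt_top _) (mFS_ne_top k).lt_top)⟩
  have h2 : ∫ z, f z = m * mR k := by
    rw [integral_eq_lintegral_of_nonneg_ae (ae_of_all _ h0) hf.aestronglyMeasurable, h,
      ENNReal.toReal_mul, ENNReal.toReal_natCast, mR]
  refine ⟨h1, h2, fun S hS η hη h3 => ?_⟩
  have h4 : ∫ z in Sᶜ, f z ≤ m * η := by
    rw [integral_eq_lintegral_of_nonneg_ae (ae_of_all _ h0) hf.aestronglyMeasurable]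
    refine ENNReal.toReal_le_of_le_ofReal (by positivity) (h3.trans_eq ?_)
    rw [ENNReal.ofReal_mul m.cast_nonneg, ENNReal.ofReal_natCast]
  linarith [integral_add_compl hS h1]

theorem det_lg_nonneg (hε : 0 < ε) (y z : Cm k) : 0 ≤ (cHess (lg ε y) z).det.re := by
  have := lg_pos hε (z - y)
  rw [det_lg hε, Complex.ofReal_re]
  positivity

theorem cont_det_lg (hε : 0 < ε) (y : Cm k) : Continuous fun z => (cHess (lg ε y) z).det.re := by
  simp only [det_lg hε, Complex.ofReal_re]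
  exact continuous_const.div ((continuous_const.add (J.sm_nsq y).continuous).pow _)
    fun z => (pow_pos (lg_pos hε _) _).ne'

theorem det_tm_nonneg (a : Fin k → ℕ) (lam : ℝ) (z : Cm k) : 0 ≤ (cHess (tm a lam) z).det.re := by
  rw [det_tm, Complex.ofReal_re]
  positivity

theorem cont_det_tm (a : Fin k → ℕ) (lam : ℝ) :
    Continuous fun z => (cHess (tm a lam) z).det.re := by
  simp only [det_tm, Complex.ofReal_re]
  exact Continuous.div (by fun_prop) (by fun_prop) fun z => (pow_pos (tm_pos a lam z) _).ne'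

theorem lg_int (hε : 0 < ε) (y : Cm k) : Integrable (fun z => (cHess (lg ε y) z).det.re) ∧
    ∫ z, (cHess (lg ε y) z).det.re = mR k := by
  have h := real_mass (cont_det_lg hε y) (det_lg_nonneg hε y) (m := 1)
    ((lg_total hε y).trans (by simp))
  exact ⟨h.1, by simpa using h.2.1⟩

theorem lg_good (k : ℕ) {η : ℝ} (hη : 0 < η) : ∃ K > (0 : ℝ), ∀ K' ≥ K, ∀ ε > (0 : ℝ), ∀ y : Cm k,
    mR k - η ≤ ∫ z in {z | nsq (z - y) ≤ K' * ε}, (cHess (lg ε y) z).det.re := by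
  obtain ⟨K, h0, hK⟩ := lg_tail k (ENNReal.ofReal_pos.2 hη).ne'
  refine ⟨K, h0, fun K' h ε hε y => ?_⟩
  have h := (real_mass (cont_det_lg hε y) (det_lg_nonneg hε y) (m := 1)
    ((lg_total hε y).trans (by simp))).2.2 {z | nsq (z - y) ≤ K' * ε}
    (measurableSet_le (J.sm_nsq y).continuous.measurable measurable_const) η hη.le
    (by simpa [compl_ofPred, mad] using hK K' h ε hε y)
  simpa using h

theorem tm_int (ha : ∀ i, 1 ≤ a i) (lam : ℝ) : Integrable (fun z => (cHess (tm a lam) z).det.re) ∧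
    ∫ z, (cHess (tm a lam) z).det.re = (∏ i, (a i : ℝ)) * mR k := by
  have h := real_mass (cont_det_tm a lam) (det_tm_nonneg a lam) (tm_total ha lam)
  exact ⟨h.1, by simpa using h.2.1⟩

theorem tm_good (k : ℕ) {η : ℝ} (hη : 0 < η) : ∃ K > (0 : ℝ), ∀ K' ≥ K, ∀ a : Fin k → ℕ,
    (∀ i, 1 ≤ a i) → ∀ lam : ℝ,
      (∏ i, (a i : ℝ)) * (mR k - η) ≤ ∫ z in tmGood a lam K', (cHess (tm a lam) z).det.re := by
  obtain ⟨K, h0, hK⟩ := tm_tail k (ENNReal.ofReal_pos.2 hη).ne'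
  refine ⟨K, h0, fun K' h a ha lam => ?_⟩
  simpa using (real_mass (cont_det_tm a lam) (det_tm_nonneg a lam) (tm_total ha lam)).2.2 _
    (closed_tmGood a lam K').measurableSet η hη.le (hK K' h a ha lam)

end Vale.Agent.P284Y.Lib
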