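import Vale.Agent.P284Y.Lib.Spec
import Vale.Agent.P284Z.J.JB
import Mathlib.MeasureTheory.Function.Jacobian
import Mathlib.Analysis.Calculus.InverseFunctionTheorem.ContDiff
import Mathlib.Analysis.Calculus.Deriv.Polynomial
import Mathlib.RingTheory.Complex
import Mathlib.MeasureTheory.Measure.Lebesgue.Complex
import Mathlib.Analysis.Complex.Polynomial.Basic
import Mathlib.FieldTheory.Separable
import Mathlib.RingTheory.Norm.Transitivity
import Mathlib.Analysis.Complex.CauchyIntegral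

/-!
# P284Y, library: the area formula with multiplicities
-/

open scoped ContDiff Topology ENNReal
open Filter Set Function Metric MeasureTheory

noncomputable section

namespace Vale.Agent.P284Y.Lib

open Vale.Agent.P272.K Vale.Agent.P284Z

section real
variable {E : Type} [NormedAddCommGroup E] [NormedSpace ℝ E] [FiniteDimensional ℝ E]
  [MeasurableSpace E] [BorelSpace E] (μ : Measure E) [μ.IsAddHaarMeasure] {Θ : E → E}

/-- the sum over a fibre of an injective piece -/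
theorem piece_eq {E : Type} {Θ : E → E} {S : Set E} (hi : InjOn Θ S) (f : E → ℝ≥0∞) (w : E) :
    extend (S.domRestrict Θ) (fun z : S => f z) 0 w = ∑' z : {z | z ∈ S ∧ Θ z = w}, f z := by
  by_cases h : ∃ z : S, S.domRestrict Θ z = w
  · obtain ⟨z, rfl⟩ := h
    rw [(injOn_iff_injective.1 hi).extend_apply]
    have : {y | y ∈ S ∧ Θ y = S.domRestrict Θ z} = {(z : E)} := by
      ext y
      exact ⟨fun hy => hi hy.1 z.2 hy.2, fun hy => by rw [mem_singleton_iff.1 hy]; exact ⟨z.2, rfl⟩⟩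
    rw [this, tsum_singleton (z : E) f]
  · rw [extend_apply' _ _ _ h]
    have : {y | y ∈ S ∧ Θ y = w} = ∅ :=
      eq_empty_of_forall_notMem fun y hy => h ⟨⟨y, hy.1⟩, hy.2⟩
    rw [this]
    simp

/-- the area formula on an injective piece -/
theorem area_piece {S : Set E} (hS : MeasurableSet S) (hd : ∀ z ∈ S, DifferentiableAt ℝ Θ z)
    (hi : InjOn Θ S) {f : E → ℝ≥0∞} (hf : Measurable f) :
    (Measurable fun w => ∑' z : {z | z ∈ S ∧ Θ z = w}, f z) ∧
    ∫⁻ z in S, ENNReal.ofReal |(fderiv ℝ Θ z).det| * f z ∂μ =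
      ∫⁻ w, ∑' z : {z | z ∈ S ∧ Θ z = w}, f z ∂μ := by
  have hd' : ∀ z ∈ S, HasFDerivWithinAt Θ (fderiv ℝ Θ z) S z :=
    fun z hz => (hd z hz).hasFDerivAt.hasFDerivWithinAt
  have he := measurableEmbedding_of_fderivWithin hS hd' hi
  have hm := he.measurable_extend (g := fun z : S => f z) (g' := 0)
    (hf.comp measurable_subtype_coe) measurable_const
  have h1 : (fun w => ∑' z : {z | z ∈ S ∧ Θ z = w}, f z) =
      extend (S.domRestrict Θ) (fun z : S => f z) 0 := funext fun w => (piece_eq hi f w).symm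
  rw [h1]
  refine ⟨hm, ?_⟩
  have h2 : ∫⁻ w, extend (S.domRestrict Θ) (fun z : S => f z) 0 w ∂μ =
      ∫⁻ w in Θ '' S, extend (S.domRestrict Θ) (fun z : S => f z) 0 w ∂μ := by
    refine (setLIntegral_eq_of_support_subset fun w hw => ?_).symm
    by_contra hc
    refine hw (extend_apply' _ _ _ ?_)
    rintro ⟨z, hz⟩
    exact hc ⟨z, z.2, hz⟩
  rw [h2, lintegral_image_eq_lintegral_abs_det_fderiv_mul μ hS hd' hi]
  refine setLIntegral_congr_fun hS fun z hz => ?_
  have := (injOn_iff_injective.1 hi).extend_apply (fun z : S => f z) 0 ⟨z, hz⟩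
  exact congrArg _ this.symm

/-- the regular points are covered by countably many injective pieces -/
theorem exists_pieces {U : Set E} (hU : IsOpen U) (h : ∀ z ∈ U, ContDiffAt ℝ 1 Θ z) :
    ∃ S : ℕ → Set E, (∀ i, MeasurableSet (S i)) ∧ Pairwise (Disjoint on S) ∧
      (∀ i, InjOn Θ (S i)) ∧ ⋃ i, S i = {z ∈ U | (fderiv ℝ Θ z).det ≠ 0} := by
  have : CompleteSpace E := FiniteDimensional.complete ℝ E
  set R := {z ∈ U | (fderiv ℝ Θ z).det ≠ 0} with hR
  have h1 : ∀ z ∈ R, ∃ V, IsOpen V ∧ z ∈ V ∧ V ⊆ R ∧ InjOn Θ V := by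
    intro z hz
    have c1 := h z hz.1
    have c2 : HasFDerivAt Θ ((fderiv ℝ Θ z).toContinuousLinearEquivOfDetNeZero hz.2 : E →L[ℝ] E) z := by
      rw [ContinuousLinearMap.coe_toContinuousLinearEquivOfDetNeZero]
      exact (c1.differentiableAt one_ne_zero).hasFDerivAt
    have c3 : ContinuousAt (fun y => (fderiv ℝ Θ y).det) z :=
      ContinuousLinearMap.continuous_det.continuousAt.comp (c1.continuousAt_fderiv one_ne_zero)
    have c4 : R ∈ 𝓝 z := inter_mem (hU.mem_nhds hz.1) (c3.eventually_ne hz.2)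
    obtain ⟨V, hV, hVo, hzV⟩ := _root_.mem_nhds_iff.1
      (inter_mem c4 ((c1.toOpenPartialHomeomorph Θ c2 one_ne_zero).open_source.mem_nhds
        (c1.mem_toOpenPartialHomeomorph_source c2 one_ne_zero)))
    exact ⟨V, hVo, hzV, fun y hy => (hV hy).1,
      (c1.toOpenPartialHomeomorph Θ c2 one_ne_zero).injOn.mono fun y hy => (hV hy).2⟩
  choose! V hVo hzV hVR hVi using h1
  obtain ⟨T, hTR, hT, hcov⟩ := TopologicalSpace.countable_cover_nhdsWithin (s := R) (f := V)
    fun z hz => mem_nhdsWithin_of_mem_nhds ((hVo z hz).mem_nhds (hzV z hz))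
  rcases T.eq_empty_or_nonempty with rfl | hne
  · refine ⟨fun _ => ∅, fun _ => .empty, fun _ _ _ => disjoint_bot_left, fun _ => injOn_empty _, ?_⟩
    simp only [mem_empty_iff_false, iUnion_of_empty, iUnion_empty, subset_empty_iff] at hcov
    rw [hcov, iUnion_empty]
  obtain ⟨t, rfl⟩ := hT.exists_eq_range hne
  have ht : ∀ i, t i ∈ R := fun i => hTR ⟨i, rfl⟩
  refine ⟨disjointed fun i => V (t i), MeasurableSet.disjointed fun i => (hVo _ (ht i)).measurableSet,
    disjoint_disjointed _, fun i => (hVi _ (ht i)).mono (disjointed_subset _ i), ?_⟩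
  rw [iUnion_disjointed]
  refine Subset.antisymm (iUnion_subset fun i => hVR _ (ht i)) ?_
  rwa [biUnion_range] at hcov

/-- **the area formula with multiplicities** -/
theorem area_real {U : Set E} (hU : IsOpen U) (h : ∀ z ∈ U, ContDiffAt ℝ 1 Θ z)
    {f : E → ℝ≥0∞} (hf : Measurable f) :
    (AEMeasurable (fun w => ∑' z : {z | z ∈ U ∧ Θ z = w}, f z) μ) ∧
    ∫⁻ z in U, ENNReal.ofReal |(fderiv ℝ Θ z).det| * f z ∂μ =
      ∫⁻ w, ∑' z : {z | z ∈ U ∧ Θ z = w}, f z ∂μ := by
  obtain ⟨S, hm, hd, hi, hu⟩ := exists_pieces hU h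
  have hS : ∀ i, S i ⊆ {z ∈ U | (fderiv ℝ Θ z).det ≠ 0} := fun i => hu ▸ subset_iUnion S i
  have hp := fun i => area_piece μ (hm i)
    (fun z hz => (h z (hS i hz).1).differentiableAt one_ne_zero) (hi i) hf
  have h0 : μ (Θ '' {z ∈ U | (fderiv ℝ Θ z).det = 0}) = 0 :=
    addHaar_image_eq_zero_of_det_fderivWithin_eq_zero μ (f' := fderiv ℝ Θ)
      (fun z hz => ((h z hz.1).differentiableAt one_ne_zero).hasFDerivAt.hasFDerivWithinAt)
      fun z hz => hz.2
  have h1 : (fun w => ∑' z : {z | z ∈ U ∧ Θ z = w}, f z) =ᵐ[μ]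
      fun w => ∑' i, ∑' z : {z | z ∈ S i ∧ Θ z = w}, f z := by
    filter_upwards [compl_mem_ae_iff.2 h0] with w hw
    have e : {z | z ∈ U ∧ Θ z = w} = ⋃ i, {z | z ∈ S i ∧ Θ z = w} := by
      ext z
      simp only [mem_ofPred_eq, mem_iUnion]
      constructor
      · rintro ⟨hz, rfl⟩
        have : z ∈ ⋃ i, S i := hu ▸ ⟨hz, fun h' => hw ⟨z, ⟨hz, h'⟩, rfl⟩⟩
        obtain ⟨i, hi⟩ := mem_iUnion.1 this
        exact ⟨i, hi, rfl⟩
      · rintro ⟨i, hz, rfl⟩
        exact ⟨(hS i hz).1, rfl⟩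
    rw [← ENNReal.tsum_biUnion (f := f) (t := fun i => {z | z ∈ S i ∧ Θ z = w})
      fun i _ j _ hij => (hd hij).mono (fun z hz => hz.1) fun z hz => hz.1]
    exact congrArg (fun T : Set E => ∑' z : T, f z) e
  refine ⟨(Measurable.tsum fun i => (hp i).1).aemeasurable.congr h1.symm, ?_⟩
  rw [lintegral_congr_ae h1, lintegral_tsum fun i => (hp i).1.aemeasurable]
  simp only [← fun i => (hp i).2]
  rw [← lintegral_iUnion hm hd, hu, ← lintegral_indicator hU.measurableSet,
    ← lintegral_indicator (hu ▸ MeasurableSet.iUnion hm)]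
  refine lintegral_congr fun z => ?_
  by_cases h2 : (fderiv ℝ Θ z).det = 0
  · simp [indicator, h2]
  · by_cases h3 : z ∈ U <;> simp [indicator, h2, h3]

/-- the area formula for a function of the image point -/
theorem area_real_card {U V : Set E} (hU : IsOpen U) (h : ∀ z ∈ U, ContDiffAt ℝ 1 Θ z)
    (hV : MeasurableSet V) {g : E → ℝ≥0∞} (hg : Measurable g) :
    ∫⁻ z in U ∩ Θ ⁻¹' V, ENNReal.ofReal |(fderiv ℝ Θ z).det| * g (Θ z) ∂μ =
      ∫⁻ w in V, ({z ∈ U | Θ z = w}.encard : ℝ≥0∞) * g w ∂μ := by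
  classical
  have hc : ContinuousOn Θ U := fun z hz => (h z hz).continuousAt.continuousWithinAt
  have hΘ : Measurable (U.piecewise Θ 0) :=
    hc.measurable_piecewise continuousOn_const hU.measurableSet
  have hf : Measurable fun z => V.indicator g (U.piecewise Θ 0 z) := (hg.indicator hV).comp hΘ
  have h1 := (area_real μ hU h hf).2
  have hUV : MeasurableSet (U ∩ Θ ⁻¹' V) := by
    have : U ∩ Θ ⁻¹' V = U ∩ U.piecewise Θ 0 ⁻¹' V := by
      ext z
      exact and_congr_right fun hz => by rw [mem_preimage, mem_preimage, piecewise_eq_of_mem _ _ _ hz]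
    exact this ▸ hU.measurableSet.inter (hΘ hV)
  rw [← lintegral_indicator hUV, ← lintegral_indicator hV]
  rw [← lintegral_indicator hU.measurableSet] at h1
  convert h1 using 3 with z w
  · by_cases hz : z ∈ U <;> by_cases hz' : Θ z ∈ V <;> simp [indicator, hz, hz']
  · have e : ∀ z : {z | z ∈ U ∧ Θ z = w}, V.indicator g (U.piecewise Θ 0 z) = V.indicator g w :=
      fun z => by rw [piecewise_eq_of_mem _ _ _ z.2.1, z.2.2]
    simp only [e, ENNReal.tsum_set_const]
    by_cases hw : w ∈ V <;> simp [indicator, hw]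

end real

/-- the area formula for a polynomial of one variable -/
theorem area_poly (p : Polynomial ℂ) {g : ℂ → ℝ≥0∞} (hg : Measurable g) (hp : 1 ≤ p.natDegree) :
    ∫⁻ w, ENNReal.ofReal (‖p.derivative.eval w‖ ^ 2) * g (p.eval w) = p.natDegree * ∫⁻ w, g w := by
  classical
  have h1 := area_real_card (volume : Measure ℂ) (Θ := fun w => p.eval w) isOpen_univ
    (fun z _ => ((p.differentiable.contDiff (n := 1)).restrict_scalars ℝ).contDiffAt) MeasurableSet.univ hg
  have h2 : ∀ w, |(fderiv ℝ (fun w => p.eval w) w).det| = ‖p.derivative.eval w‖ ^ 2 := by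
    intro w
    rw [((p.hasDerivAt w).hasFDerivAt.restrictScalars ℝ).fderiv]
    simp [ContinuousLinearMap.det, LinearMap.det_restrictScalars, Algebra.norm_complex_eq,
      Complex.normSq_eq_norm_sq]
  simp only [h2, preimage_univ, inter_self, Measure.restrict_univ, mem_univ, true_and] at h1
  rw [h1, ← lintegral_const_mul _ hg]
  have hd : p.derivative ≠ 0 := fun h => by
    have := Polynomial.derivative_eq_zero.1 h
    omega
  have h3 : volume ((fun w => p.eval w) '' (p.derivative.rootSet ℂ)) = 0 :=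
    ((p.derivative.rootSet_finite ℂ).image _).measure_zero _
  refine lintegral_congr_ae ?_
  filter_upwards [compl_mem_ae_iff.2 h3] with w hw
  congr 1
  have hq : (p - Polynomial.C w).natDegree = p.natDegree := Polynomial.natDegree_sub_C
  have hs : (p - Polynomial.C w).Separable := by
    rw [Polynomial.separable_def, Polynomial.isCoprime_iff_aeval_ne_zero_of_isAlgClosed ℂ ℂ]
    intro z
    by_contra hc
    push Not at hc
    refine hw ⟨z, Polynomial.mem_rootSet.2 ⟨hd, by simpa using hc.2⟩, ?_⟩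
    simpa [sub_eq_zero] using hc.1
  have e : {z | p.eval z = w} = (p - Polynomial.C w).rootSet ℂ := by
    ext z
    simp [Polynomial.mem_rootSet, hs.ne_zero, sub_eq_zero]
  have hc := Polynomial.card_rootSet_eq_natDegree (K := ℂ) hs (IsAlgClosed.splits _)
  rw [e, ← hq, ← hc, ← Set.coe_fintypeCard]
  rfl

section hol
variable {n : ℕ} {U V : Set (Cm n)} {Θ : Cm n → Cm n}

theorem abs_det_real {z : Cm n} (h : AnalyticAt ℂ Θ z) :
    |(fderiv ℝ Θ z).det| = ‖(jm Θ z).det‖ ^ 2 := by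
  rw [J.det_real h.differentiableAt, abs_sq]

theorem c1_of_an (h : AnalyticOnNhd ℂ Θ U) : ∀ z ∈ U, ContDiffAt ℝ 1 Θ z :=
  fun z hz => ((h z hz).contDiffAt (n := 1)).restrict_scalars ℝ

/-- the area formula for a holomorphic map -/
theorem area_gen (hU : IsOpen U) (h : AnalyticOnNhd ℂ Θ U) {f : Cm n → ℝ≥0∞} (hf : Measurable f) :
    ∫⁻ z in U, ENNReal.ofReal (‖(jm Θ z).det‖ ^ 2) * f z =
      ∫⁻ w, ∑' z : {z // z ∈ U ∧ Θ z = w}, f z := by
  refine Eq.trans ?_ (area_real volume hU (c1_of_an h) hf).2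
  exact setLIntegral_congr_fun hU.measurableSet fun z hz => by simp only [abs_det_real (h z hz)]

/-- the area formula with the number of preimages -/
theorem area_card (hU : IsOpen U) (h : AnalyticOnNhd ℂ Θ U) (hV : MeasurableSet V)
    {g : Cm n → ℝ≥0∞} (hg : Measurable g) :
    ∫⁻ z in U ∩ Θ ⁻¹' V, ENNReal.ofReal (‖(jm Θ z).det‖ ^ 2) * g (Θ z) =
      ∫⁻ w in V, ({z ∈ U | Θ z = w}.encard : ℝ≥0∞) * g w := by
  classical
  refine Eq.trans ?_ (area_real_card volume hU (c1_of_an h) hV hg)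
  have hUV : MeasurableSet (U ∩ Θ ⁻¹' V) := by
    have : U ∩ Θ ⁻¹' V = U ∩ U.piecewise Θ 0 ⁻¹' V := by
      ext z
      exact and_congr_right fun hz => by rw [mem_preimage, mem_preimage, piecewise_eq_of_mem _ _ _ hz]
    exact this ▸ hU.measurableSet.inter
      (h.continuousOn.measurable_piecewise continuousOn_const hU.measurableSet hV)
  exact setLIntegral_congr_fun hUV fun z hz => by simp only [abs_det_real (h z hz.1)]

/-- exactly `k` preimages -/
theorem area_deg {k : ℕ} (hU : IsOpen U) (h : AnalyticOnNhd ℂ Θ U) (hV : MeasurableSet V)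
    (hk : ∀ᵐ w, w ∈ V → {z ∈ U | Θ z = w}.encard = k) {g : Cm n → ℝ≥0∞} (hg : Measurable g) :
    ∫⁻ z in U ∩ Θ ⁻¹' V, ENNReal.ofReal (‖(jm Θ z).det‖ ^ 2) * g (Θ z) = k * ∫⁻ w in V, g w := by
  rw [area_card hU h hV hg, ← lintegral_const_mul _ hg]
  refine setLIntegral_congr_fun_ae hV (hk.mono fun w hw hwV => ?_)
  simp only [hw hwV, ENat.toENNReal_coe]

/-- at most `k` preimages -/
theorem area_le {k : ℕ} (hU : IsOpen U) (h : AnalyticOnNhd ℂ Θ U) (hV : MeasurableSet V)
    (hk : ∀ᵐ w, w ∈ V → {z ∈ U | Θ z = w}.encard ≤ k) {g : Cm n → ℝ≥0∞} (hg : Measurable g) :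
    ∫⁻ z in U ∩ Θ ⁻¹' V, ENNReal.ofReal (‖(jm Θ z).det‖ ^ 2) * g (Θ z) ≤ k * ∫⁻ w in V, g w := by
  rw [area_card hU h hV hg, ← lintegral_const_mul _ hg]
  refine lintegral_mono_ae ((ae_restrict_iff' hV).2 (hk.mono fun w hw hwV => ?_))
  exact mul_le_mul_left (by exact_mod_cast hw hwV) _

/-- at least `k` preimages -/
theorem area_ge {k : ℕ} (hU : IsOpen U) (h : AnalyticOnNhd ℂ Θ U) (hV : MeasurableSet V)
    (hk : ∀ᵐ w, w ∈ V → (k : ℕ∞) ≤ {z ∈ U | Θ z = w}.encard) {g : Cm n → ℝ≥0∞} (hg : Measurable g) :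
    k * ∫⁻ w in V, g w ≤ ∫⁻ z in U ∩ Θ ⁻¹' V, ENNReal.ofReal (‖(jm Θ z).det‖ ^ 2) * g (Θ z) := by
  rw [area_card hU h hV hg, ← lintegral_const_mul _ hg]
  refine lintegral_mono_ae ((ae_restrict_iff' hV).2 (hk.mono fun w hw hwV => ?_))
  exact mul_le_mul_left (by exact_mod_cast hw hwV) _

end hol

/-- **AREA** -/
theorem area : AreaSt where
  gen _ _ _ hU h _ hf := area_gen hU h hf
  deg _ _ _ _ _ hU h hV hk _ hg := area_deg hU h hV hk hg
  poly p _ hg hp := area_poly p hg hp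

end Vale.Agent.P284Y.Lib
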