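import Vale.Agent.P284Y.Lib.Spec

/-!
# P284Y, library: further properties of the attenuation

The pointwise statements take the hypothesis `hz : ∀ h, ‖h‖ ≤ b → z + L h ∈ U` at the point `z`.
-/

set_option linter.all false

open scoped Topology
open Filter Set Function Metric Real

noncomputable section

namespace Vale.Agent.P284Y.Lib

open Vale.Agent.P284Z

variable {W V : Type} [NormedAddCommGroup W] [NormedSpace ℂ W] [FiniteDimensional ℂ W]
  [NormedAddCommGroup V] [NormedSpace ℂ V] [FiniteDimensional ℂ V] {P Q : W → ℝ} {L : V →L[ℂ] W}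
  {c a b r s R t m : ℝ} {U O : Set W} {z : W}

/-! ### the supremum on balls -/

theorem sb_bdd (hP : LPsh P U) (hz : ∀ h : V, ‖h‖ ≤ b → z + L h ∈ U) (hr : r ≤ b) :
    BddAbove (range fun h : closedBall (0 : V) r => P (z + L h)) := by
  haveI : ProperSpace V := FiniteDimensional.proper ℂ V
  obtain ⟨M, -, hM⟩ := usc_bdd hP.usc
    ((isCompact_closedBall (0 : V) r).image (f := fun h => z + L h) (by fun_prop)) (by
      rintro _ ⟨h, hh, rfl⟩
      exact hz h ((mem_closedBall_zero_iff.1 hh).trans hr))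
  refine ⟨M, ?_⟩
  rintro _ ⟨h, rfl⟩
  exact hM _ ⟨h, h.2, rfl⟩

theorem le_sb (hP : LPsh P U) (hz : ∀ h : V, ‖h‖ ≤ b → z + L h ∈ U) (hr : r ≤ b) {h : V}
    (hh : ‖h‖ ≤ r) : P (z + L h) ≤ sb P L r z :=
  le_ciSup (sb_bdd hP hz hr) ⟨h, mem_closedBall_zero_iff.2 hh⟩

theorem sb_le (hr : 0 ≤ r) (h : ∀ h : V, ‖h‖ ≤ r → P (z + L h) ≤ m) : sb P L r z ≤ m :=
  haveI : Nonempty (closedBall (0 : V) r) := ⟨⟨0, mem_closedBall_self hr⟩⟩
  ciSup_le fun x => h x (mem_closedBall_zero_iff.1 x.2)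

theorem sb_nonneg (hP : LPsh P U) (hz : ∀ h : V, ‖h‖ ≤ b → z + L h ∈ U) (hr : r ≤ b) :
    0 ≤ sb P L r z :=
  Real.iSup_nonneg fun h => hP.1 _ (hz h ((mem_closedBall_zero_iff.1 h.2).trans hr))

theorem self_le_sb (hP : LPsh P U) (hz : ∀ h : V, ‖h‖ ≤ b → z + L h ∈ U) (h0 : 0 ≤ r)
    (hr : r ≤ b) : P z ≤ sb P L r z := by
  simpa using le_sb hP hz hr (h := 0) (by simpa using h0)

theorem sb_mono (hP : LPsh P U) (hz : ∀ h : V, ‖h‖ ≤ b → z + L h ∈ U) (h0 : 0 ≤ r) (hrs : r ≤ s)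
    (hs : s ≤ b) : sb P L r z ≤ sb P L s z :=
  sb_le h0 fun _ hh => le_sb hP hz hs (hh.trans hrs)

theorem sb_mono_fun (hQ : LPsh Q U) (hz : ∀ h : V, ‖h‖ ≤ b → z + L h ∈ U) (h0 : 0 ≤ r)
    (hr : r ≤ b) (h : ∀ y ∈ U, P y ≤ Q y) : sb P L r z ≤ sb Q L r z :=
  sb_le h0 fun x hx => (h _ (hz x (hx.trans hr))).trans (le_sb hQ hz hr hx)

theorem sb_const_mul (k : ℝ) (hk : 0 ≤ k) (P : W → ℝ) (L : V →L[ℂ] W) (r : ℝ) (z : W) :
    sb (fun y => k * P y) L r z = k * sb P L r z := (Real.mul_iSup_of_nonneg hk _).symm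

theorem sb_rpow (hP : LPsh P U) (hz : ∀ h : V, ‖h‖ ≤ b → z + L h ∈ U) (h0 : 0 ≤ r) (hr : r ≤ b)
    (hm : 0 < m) : sb (fun y => P y ^ m) L r z = sb P L r z ^ m := by
  have h1 := sb_nonneg (hP.rpow hm.le) hz hr
  refine le_antisymm (sb_le h0 fun h hh => rpow_le_rpow (hP.1 _ (hz h (hh.trans hr)))
    (le_sb hP hz hr hh) hm.le) ?_
  rw [← le_rpow_inv_iff_of_pos (sb_nonneg hP hz hr) h1 hm]
  refine sb_le h0 fun h hh => ?_
  rw [le_rpow_inv_iff_of_pos (hP.1 _ (hz h (hh.trans hr))) h1 hm]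
  exact le_sb (hP.rpow hm.le) hz hr hh

/-- three circles with bounds `A`, `B` -/
theorem sb_three1 (hP : LPsh P U) (hz : ∀ h : V, ‖h‖ ≤ b → z + L h ∈ U) (hr : 0 < r) (hR : r ≤ R)
    (hRb : R ≤ b) {A B : ℝ} (hA : 0 < A) (hAB : A ≤ B) (h1 : sb P L r z ≤ A) (h2 : sb P L R z ≤ B)
    (ht : t ∈ Icc (0 : ℝ) 1) (hs0 : 0 ≤ s) (hs : s ≤ r ^ (1 - t) * R ^ t) :
    sb P L s z ≤ A ^ (1 - t) * B ^ t :=
  sb_le hs0 fun h hh => (hP.affine z L).three (z := 0)
    (fun x hx => hz x ((mem_closedBall_zero_iff.1 hx).trans hRb)) hr hR hA hAB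
    (fun x hx => (le_sb hP hz (hR.trans hRb) (mem_closedBall_zero_iff.1 hx)).trans h1)
    (fun x hx => (le_sb hP hz hRb (mem_closedBall_zero_iff.1 hx)).trans h2) ht
    (mem_closedBall_zero_iff.2 (hh.trans hs))

/-- three circles -/
theorem sb_three0 (hP : LPsh P U) (hz : ∀ h : V, ‖h‖ ≤ b → z + L h ∈ U) (hr : 0 < r) (hR : r ≤ R)
    (hRb : R ≤ b) (ht : t ∈ Icc (0 : ℝ) 1) (hs0 : 0 ≤ s) (hs : s ≤ r ^ (1 - t) * R ^ t) :
    sb P L s z ≤ sb P L r z ^ (1 - t) * sb P L R z ^ t := by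
  have h1 : Continuous fun ε : ℝ => (sb P L r z + ε) ^ (1 - t) * (sb P L R z + ε) ^ t :=
    ((continuous_rpow_const (sub_nonneg.2 ht.2)).comp (by fun_prop)).mul
      ((continuous_rpow_const ht.1).comp (by fun_prop))
  have h2 := (h1.tendsto 0).mono_left (nhdsWithin_le_nhds (s := Ioi 0))
  rw [add_zero, add_zero] at h2
  refine ge_of_tendsto h2 ?_
  filter_upwards [self_mem_nhdsWithin] with ε hε
  have h3 : 0 < ε := hε
  have h4 := sb_nonneg hP hz (hR.trans hRb)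
  have h5 := sb_mono hP hz hr.le hR hRb
  exact sb_three1 hP hz hr hR hRb (by linarith) (by linarith) (by linarith) (by linarith) ht hs0 hs

theorem exists_geo (hr : 0 < r) (hrs : r ≤ s) (hsR : s < R) :
    ∃ t ∈ Ico (0 : ℝ) 1, s = r ^ (1 - t) * R ^ t ∧ (R / s) ^ t = (s / r) ^ (1 - t) := by
  have hs := hr.trans_le hrs
  have hR := hs.trans hsR
  have h1 : log r ≤ log s := log_le_log hr hrs
  have h2 : log s < log R := log_lt_log hs hsR
  have h3 : 0 < log R - log r := by linarith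
  refine ⟨(log s - log r) / (log R - log r), ⟨div_nonneg (by linarith) h3.le,
    (div_lt_one h3).2 (by linarith)⟩, ?_, ?_⟩
  · rw [rpow_def_of_pos hr, rpow_def_of_pos hR, ← exp_add]
    conv_lhs => rw [← exp_log hs]
    congr 1
    field_simp
    ring
  · rw [rpow_def_of_pos (div_pos hR hs), rpow_def_of_pos (div_pos hs hr), log_div hR.ne' hs.ne',
      log_div hs.ne' hr.ne']
    congr 1
    field_simp
    ring

/-- slow growth between `s` and `R` gives slow growth between `r` and `s` -/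
theorem sb_three (hP : LPsh P U) (hz : ∀ h : V, ‖h‖ ≤ b → z + L h ∈ U) (hr : 0 < r) (hrs : r ≤ s)
    (hsR : s < R) (hRb : R ≤ b) (h : sb P L R z ≤ sb P L s z * (R / s) ^ c) :
    sb P L s z ≤ sb P L r z * (s / r) ^ c := by
  have hs := hr.trans_le hrs
  have hR := hs.trans hsR
  obtain ⟨t, ht, h1, h2⟩ := exists_geo hr hrs hsR
  have hA := sb_nonneg hP hz (hrs.trans (hsR.le.trans hRb))
  have hq : 0 ≤ (s / r) ^ c := by positivity
  rcases (sb_nonneg hP hz (hsR.le.trans hRb)).eq_or_lt with h0 | h0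
  · rw [← h0]
    positivity
  have h3 := sb_three0 hP hz hr (hrs.trans hsR.le) hRb ⟨ht.1, ht.2.le⟩ hs.le h1.le
  have h4 := rpow_le_rpow (sb_nonneg hP hz hRb) h ht.1
  rw [mul_rpow h0.le (by positivity), ← rpow_mul (by positivity), mul_comm c,
    rpow_mul (by positivity), h2, ← rpow_mul (by positivity), mul_comm _ c,
    rpow_mul (by positivity)] at h4
  have h5 : sb P L s z ^ (1 - t) * sb P L s z ^ t ≤
      (sb P L r z * (s / r) ^ c) ^ (1 - t) * sb P L s z ^ t := by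
    rw [← rpow_add h0, sub_add_cancel, rpow_one, mul_rpow hA hq]
    refine h3.trans ((mul_le_mul_of_nonneg_left h4 (rpow_nonneg hA _)).trans_eq ?_)
    ring
  exact (rpow_le_rpow_iff h0.le (mul_nonneg hA hq) (sub_pos.2 ht.2)).1
    (le_of_mul_le_mul_right h5 (rpow_pos_of_pos h0 t))

theorem exists_geo_lt {A B κ : ℝ} (hA : 0 < A) (hB : 0 < B) (h : A < κ) :
    ∃ t ∈ Ioo (0 : ℝ) 1, A ^ (1 - t) * B ^ t < κ := by
  have h1 : Continuous fun t : ℝ => A * (B / A) ^ t :=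
    continuous_const.mul (continuous_const_rpow (div_pos hB hA).ne')
  have h2 := (h1.tendsto 0).mono_left (nhdsWithin_le_nhds (s := Ioi 0))
  rw [rpow_zero, mul_one] at h2
  obtain ⟨t, h3, h4⟩ := ((h2.eventually (gt_mem_nhds h)).and (Ioo_mem_nhdsGT one_pos)).exists
  exact ⟨t, h4, by rwa [geo_eq hA hB.le]⟩

/-- the supremum is continuous from the right in the radius -/
theorem sb_right (hP : LPsh P U) (hz : ∀ h : V, ‖h‖ ≤ b → z + L h ∈ U) (hs : 0 < s) (hsb : s < b)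
    {ε : ℝ} (hε : 0 < ε) : ∃ s' ∈ Ioo s b, sb P L s' z ≤ sb P L s z + ε := by
  have h1 := sb_nonneg hP hz hsb.le
  have h2 := sb_mono hP hz hs.le hsb.le le_rfl
  obtain ⟨t, ht, h3⟩ := exists_geo_lt (A := sb P L s z + ε / 2) (B := sb P L b z + ε / 2)
    (κ := sb P L s z + ε) (by linarith) (by linarith) (by linarith)
  have h4 := (one_lt_div hs).2 hsb
  have h5 : s ^ (1 - t) * b ^ t ∈ Ioo s b := by
    rw [geo_eq hs (hs.trans hsb).le]
    refine ⟨lt_mul_of_one_lt_right hs (one_lt_rpow h4 ht.1), ?_⟩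
    exact (mul_lt_mul_of_pos_left (rpow_lt_self_of_one_lt h4 ht.2) hs).trans_eq
      (mul_div_cancel₀ _ hs.ne')
  exact ⟨_, h5, (sb_three1 hP hz hs hsb.le le_rfl (by linarith) (by linarith) (by linarith)
    (by linarith) ⟨ht.1.le, ht.2.le⟩ (hs.trans h5.1).le le_rfl).trans h3.le⟩

/-! ### the attenuation -/

theorem term_nonneg (hP : LPsh P U) (hz : ∀ h : V, ‖h‖ ≤ b → z + L h ∈ U) (h0 : 0 ≤ r)
    (hr : r ≤ b) : 0 ≤ sb P L r z * (b / r) ^ c :=
  mul_nonneg (sb_nonneg hP hz hr) (rpow_nonneg (div_nonneg (h0.trans hr) h0) _)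

theorem att_le (hP : LPsh P U) (hz : ∀ h : V, ‖h‖ ≤ b → z + L h ∈ U) (ha : 0 ≤ a)
    (hr : r ∈ Ioo a b) : att P L c a b z ≤ sb P L r z * (b / r) ^ c :=
  ciInf_le (f := fun r : Ioo a b => sb P L r z * (b / r) ^ c) ⟨0, by
    rintro _ ⟨x, rfl⟩
    exact term_nonneg hP hz (ha.trans x.2.1.le) x.2.2.le⟩ ⟨r, hr⟩

theorem le_att (hab : a < b) (h : ∀ r ∈ Ioo a b, m ≤ sb P L r z * (b / r) ^ c) :
    m ≤ att P L c a b z :=
  haveI : Nonempty (Ioo a b) := (nonempty_Ioo.2 hab).to_subtype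
  le_ciInf fun r => h r r.2

theorem att_nonneg (hP : LPsh P U) (hz : ∀ h : V, ‖h‖ ≤ b → z + L h ∈ U) (ha : 0 ≤ a) :
    0 ≤ att P L c a b z :=
  Real.iInf_nonneg fun x => term_nonneg hP hz (ha.trans x.2.1.le) x.2.2.le

theorem sb_le_att (hP : LPsh P U) (hz : ∀ h : V, ‖h‖ ≤ b → z + L h ∈ U) (hc : 0 ≤ c) (ha : 0 ≤ a)
    (hab : a < b) : sb P L a z ≤ att P L c a b z :=
  le_att hab fun r hr => (sb_mono hP hz ha hr.1.le hr.2.le).trans (le_mul_of_one_le_right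
    (sb_nonneg hP hz hr.2.le) (one_le_rpow ((one_le_div (ha.trans_lt hr.1)).2 hr.2.le) hc))

theorem att_le_sb (hP : LPsh P U) (hz : ∀ h : V, ‖h‖ ≤ b → z + L h ∈ U) (ha : 0 ≤ a)
    (hab : a < b) : att P L c a b z ≤ sb P L b z := by
  have hb := ha.trans_lt hab
  have h1 : ContinuousAt (fun r : ℝ => sb P L b z * (b / r) ^ c) b :=
    continuousAt_const.mul ((continuousAt_const.div continuousAt_id hb.ne').rpow_const
      (Or.inl (div_pos hb hb).ne'))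
  have h2 := h1.tendsto.mono_left (nhdsWithin_le_nhds (s := Iio b))
  rw [div_self hb.ne', one_rpow, mul_one] at h2
  refine ge_of_tendsto h2 ?_
  filter_upwards [Ioo_mem_nhdsLT hab] with r hr
  exact (att_le hP hz ha hr).trans (mul_le_mul_of_nonneg_right
    (sb_mono hP hz (ha.trans hr.1.le) hr.2.le le_rfl)
    (rpow_nonneg (div_nonneg hb.le (ha.trans hr.1.le)) _))

theorem att_le_Ioc (hP : LPsh P U) (hz : ∀ h : V, ‖h‖ ≤ b → z + L h ∈ U) (ha : 0 ≤ a)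
    (hr : r ∈ Ioc a b) : att P L c a b z ≤ sb P L r z * (b / r) ^ c := by
  rcases hr.2.eq_or_lt with h | h
  · subst h
    rw [div_self (ha.trans_lt hr.1).ne', one_rpow, mul_one]
    exact att_le_sb hP hz ha hr.1
  · exact att_le hP hz ha ⟨hr.1, h⟩

/-- the bound at the small radius -/
theorem att_le_left (hP : LPsh P U) (hz : ∀ h : V, ‖h‖ ≤ b → z + L h ∈ U) (hc : 0 ≤ c)
    (ha : 0 < a) (hab : a < b) : att P L c a b z ≤ sb P L a z * (b / a) ^ c := by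
  have hb := ha.trans hab
  have hq : 0 < (b / a) ^ c := by positivity
  refine le_of_forall_pos_le_add fun ε hε => ?_
  obtain ⟨s, hs, h1⟩ := sb_right hP hz ha hab (div_pos hε hq)
  refine (att_le hP hz ha.le hs).trans ((mul_le_mul h1 (rpow_le_rpow
    (div_pos hb (ha.trans hs.1)).le (div_le_div_of_nonneg_left hb.le ha hs.1.le) hc)
    (rpow_nonneg (div_pos hb (ha.trans hs.1)).le _)
    ((sb_nonneg hP hz hs.2.le).trans h1)).trans_eq ?_)
  rw [add_mul, div_mul_cancel₀ _ hq.ne']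

theorem att_le_Icc (hP : LPsh P U) (hz : ∀ h : V, ‖h‖ ≤ b → z + L h ∈ U) (hc : 0 ≤ c)
    (ha : 0 < a) (hab : a < b) (hr : r ∈ Icc a b) :
    att P L c a b z ≤ sb P L r z * (b / r) ^ c := by
  rcases hr.1.eq_or_lt with h | h
  · exact h ▸ att_le_left hP hz hc ha hab
  · exact att_le_Ioc hP hz ha.le ⟨h, hr.2⟩

theorem att_mono (hP : LPsh P U) (hQ : LPsh Q U) (hz : ∀ h : V, ‖h‖ ≤ b → z + L h ∈ U)
    (ha : 0 ≤ a) (hab : a < b) (h : ∀ y ∈ U, P y ≤ Q y) : att P L c a b z ≤ att Q L c a b z :=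
  le_att hab fun r hr => (att_le hP hz ha hr).trans (mul_le_mul_of_nonneg_right
    (sb_mono_fun hQ hz (ha.trans hr.1.le) hr.2.le h)
    (rpow_nonneg (div_nonneg (ha.trans hab.le) (ha.trans hr.1.le)) _))

theorem att_const_mul (k : ℝ) (hk : 0 ≤ k) (P : W → ℝ) (L : V →L[ℂ] W) (c a b : ℝ) (z : W) :
    att (fun y => k * P y) L c a b z = k * att P L c a b z := by
  simp only [att, sb_const_mul k hk, mul_assoc]
  exact (Real.mul_iInf_of_nonneg hk _).symm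

theorem att_rpow (hP : LPsh P U) (hz : ∀ h : V, ‖h‖ ≤ b → z + L h ∈ U) (ha : 0 ≤ a)
    (hab : a < b) (hm : 0 < m) :
    att (fun y => P y ^ m) L (m * c) a b z = att P L c a b z ^ m := by
  have h1 : ∀ r ∈ Ioo a b, sb (fun y => P y ^ m) L r z * (b / r) ^ (m * c) =
      (sb P L r z * (b / r) ^ c) ^ m := fun r hr => by
    have h2 := div_nonneg (ha.trans hab.le) (ha.trans hr.1.le)
    rw [sb_rpow hP hz (ha.trans hr.1.le) hr.2.le hm, mul_comm m, rpow_mul h2,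
      mul_rpow (sb_nonneg hP hz hr.2.le) (rpow_nonneg h2 _)]
  have h2 : 0 ≤ att (fun y => P y ^ m) L (m * c) a b z := att_nonneg (hP.rpow hm.le) hz ha
  refine le_antisymm ?_ (le_att hab fun r hr => ?_)
  · rw [← rpow_inv_le_iff_of_pos h2 (att_nonneg hP hz ha) hm]
    refine le_att hab fun r hr => ?_
    rw [rpow_inv_le_iff_of_pos h2 (term_nonneg hP hz (ha.trans hr.1.le) hr.2.le) hm, ← h1 r hr]
    exact att_le (hP.rpow hm.le) hz ha hr
  · rw [h1 r hr]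
    exact rpow_le_rpow (att_nonneg hP hz ha) (att_le hP hz ha hr) hm.le

theorem att_anti (hP : LPsh P U) (hz : ∀ h : V, ‖h‖ ≤ b → z + L h ∈ U) (ha : 0 ≤ a) {a₂ : ℝ}
    (h1 : a ≤ a₂) (h2 : a₂ < b) : att P L c a b z ≤ att P L c a₂ b z :=
  le_att h2 fun _ hr => att_le hP hz ha ⟨h1.trans_lt hr.1, hr.2⟩

/-! ### all directions -/

theorem ball_iff {y : W} : (∀ h : W, ‖h‖ ≤ b → y + ContinuousLinearMap.id ℂ W h ∈ U) ↔
    closedBall y b ⊆ U := by
  refine ⟨fun h x hx => ?_, fun h x hx => h ?_⟩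
  · simpa using h (x - y) (mem_closedBall_iff_norm.1 hx)
  · simpa using hx

theorem le_sb_id (hP : LPsh P U) {y x : W}
    (hy : ∀ h : W, ‖h‖ ≤ b → y + ContinuousLinearMap.id ℂ W h ∈ U) (hr : r ≤ b)
    (hx : ‖x - y‖ ≤ r) : P x ≤ sb P (ContinuousLinearMap.id ℂ W) r y := by
  simpa using le_sb hP hy hr hx

theorem sb_id_le {y : W} (hr : 0 ≤ r) (h : ∀ x, ‖x - y‖ ≤ r → P x ≤ m) :
    sb P (ContinuousLinearMap.id ℂ W) r y ≤ m :=
  sb_le hr fun x hx => h _ (by simpa using hx)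

theorem att_lsc_id (hU : IsOpen U) (hO : IsOpen O) (hP : LPsh P U) (hc : 0 ≤ c) (ha : 0 < a)
    (hab : a < b) (hm : ∀ z ∈ O, ∀ h : W, ‖h‖ ≤ b → z + ContinuousLinearMap.id ℂ W h ∈ U) :
    LowerSemicontinuousOn (att P (ContinuousLinearMap.id ℂ W) c a b) O := by
  haveI : ProperSpace W := FiniteDimensional.proper ℂ W
  intro z₀ hz₀ t ht
  have hb := ha.trans hab
  rcases lt_or_ge t 0 with h0 | h0
  · filter_upwards [self_mem_nhdsWithin] with z hz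
    exact h0.trans_le (att_nonneg hP (hm z hz) ha.le)
  obtain ⟨δ, hδ, hδU⟩ := (isCompact_closedBall z₀ b).exists_cthickening_subset_open hU
    (ball_iff.1 (hm z₀ hz₀))
  rw [cthickening_closedBall hδ.le hb.le] at hδU
  obtain ⟨M, hM0, hM⟩ := usc_bdd hP.usc (isCompact_closedBall z₀ (δ + b)) hδU
  obtain ⟨t', ht1, ht2⟩ := exists_between ht
  have hq : 0 < (b / a) ^ c := by positivity
  obtain ⟨τ, hτ, hlt⟩ := exists_geo_lt (h0.trans_lt ht1) (mul_pos hM0 hq) ht2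
  have hη : 1 < ((b + δ / 2) / b) ^ τ := one_lt_rpow ((one_lt_div hb).2 (by linarith)) hτ.1
  have hd : 0 < min (δ / 2) (a * (((b + δ / 2) / b) ^ τ - 1)) :=
    lt_min (by linarith) (mul_pos ha (by linarith))
  filter_upwards [mem_nhdsWithin_of_mem_nhds (closedBall_mem_nhds z₀ hd)] with z hz
  rw [mem_closedBall_iff_norm, le_min_iff] at hz
  have hsub : closedBall z (b + δ / 2) ⊆ closedBall z₀ (δ + b) :=
    closedBall_subset_closedBall' (by rw [dist_eq_norm]; linarith [hz.1])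
  have hzU := ball_iff.2 (hsub.trans hδU)
  refine ht1.trans_le (le_att hab fun r hr => ?_)
  have hr0 := ha.trans hr.1
  have hrb : r ≤ b + δ / 2 := by linarith [hr.2]
  have hn := norm_nonneg (z - z₀)
  have h1 : r + ‖z - z₀‖ ≤ r ^ (1 - τ) * (b + δ / 2) ^ τ := by
    rw [geo_eq hr0 (by linarith)]
    have h2 : ((b + δ / 2) / b) ^ τ ≤ ((b + δ / 2) / r) ^ τ :=
      rpow_le_rpow (by positivity) (div_le_div_of_nonneg_left (by linarith) hr0 hr.2.le) hτ.1.le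
    nlinarith [hz.2, hr.1]
  have h2 : sb P (ContinuousLinearMap.id ℂ W) r z₀ ≤
      sb P (ContinuousLinearMap.id ℂ W) (r + ‖z - z₀‖) z := by
    refine sb_id_le hr0.le fun x hx => le_sb_id hP hzU (by linarith [hz.1, hr.2]) ?_
    have h3 := norm_sub_le_norm_sub_add_norm_sub x z₀ z
    rw [norm_sub_rev z₀ z] at h3
    linarith
  have h3 := sb_three0 hP hzU hr0 hrb le_rfl ⟨hτ.1.le, hτ.2.le⟩ (by linarith) h1
  have h4 : sb P (ContinuousLinearMap.id ℂ W) (b + δ / 2) z ≤ M :=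
    sb_id_le (by linarith) fun x hx => hM x (hsub (mem_closedBall_iff_norm.2 hx))
  have hS := sb_nonneg hP hzU hrb
  have hS' := sb_nonneg hP hzU (le_refl _)
  have hp : 0 < (b / r) ^ c := by positivity
  have hpq : (b / r) ^ c ≤ (b / a) ^ c :=
    rpow_le_rpow (by positivity) (div_le_div_of_nonneg_left hb.le ha hr.1.le) hc
  by_contra hcon
  have h5 := rpow_le_rpow (mul_nonneg hS hp.le) (not_le.1 hcon).le (sub_nonneg.2 hτ.2.le)
  have h6 := rpow_le_rpow (mul_nonneg hS' hp.le) (mul_le_mul h4 hpq hp.le hM0.le) hτ.1.le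
  have h7 := mul_le_mul h5 h6 (by positivity) (rpow_nonneg (h0.trans ht1.le) _)
  have h8 := (att_le hP (hm z₀ hz₀) ha.le hr (c := c)).trans
    (mul_le_mul_of_nonneg_right (h2.trans h3) hp.le)
  rw [mul_rpow hS hp.le, mul_rpow hS' hp.le, mul_mul_mul_comm, ← rpow_add hp, sub_add_cancel,
    rpow_one] at h7
  linarith

/-- the attenuation in all directions is continuous -/
theorem att_cont_id (hA : AttSt) (hU : IsOpen U) (hO : IsOpen O) (hP : LPsh P U) (hc : 0 ≤ c)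
    (ha : 0 < a) (hab : a < b)
    (hm : ∀ z ∈ O, ∀ h : W, ‖h‖ ≤ b → z + ContinuousLinearMap.id ℂ W h ∈ U) :
    ContinuousOn (att P (ContinuousLinearMap.id ℂ W) c a b) O :=
  continuousOn_iff_lower_upperSemicontinuousOn.2 ⟨att_lsc_id hU hO hP hc ha hab hm,
    (hA W W P _ c a b U O hU hO hP hc ha.le hab hm).2.1.usc⟩

/-- comparison in two charts -/
theorem att_two {P₂ : W → ℝ} {U₂ : Set W} {y y₂ : W} {τ : W → W} {K M : ℝ} (hP : LPsh P U)
    (hP₂ : LPsh P₂ U₂) (hy : ∀ h : W, ‖h‖ ≤ b → y + ContinuousLinearMap.id ℂ W h ∈ U)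
    (hy₂ : ∀ h : W, ‖h‖ ≤ b → y₂ + ContinuousLinearMap.id ℂ W h ∈ U₂) (hc : 0 ≤ c) (ha : 0 < a)
    (hK : 1 ≤ K) (hM : 0 ≤ M) (hKa : K * a < b)
    (hτ : ∀ z, ‖z - y‖ ≤ b / K → ‖τ z - y₂‖ ≤ K * ‖z - y‖ ∧ P z ≤ M * P₂ (τ z))
    (hend : ∀ r ∈ Ioc a (K * a), sb P₂ (ContinuousLinearMap.id ℂ W) (K * a) y₂ ≤
      sb P₂ (ContinuousLinearMap.id ℂ W) r y₂ * (K * a / r) ^ c) :
    att P (ContinuousLinearMap.id ℂ W) c a b y ≤
      M * K ^ c * att P₂ (ContinuousLinearMap.id ℂ W) c a b y₂ := by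
  have hK0 : 0 < K := by linarith
  have hab : a < b := (le_mul_of_one_le_left ha.le hK).trans_lt hKa
  have hb := ha.trans hab
  have key : ∀ r ∈ Ico (K * a) b, att P (ContinuousLinearMap.id ℂ W) c a b y ≤
      M * K ^ c * (sb P₂ (ContinuousLinearMap.id ℂ W) r y₂ * (b / r) ^ c) := by
    intro r hr
    have hr0 : 0 < r := (mul_pos hK0 ha).trans_le hr.1
    have h1 : r / K ≤ b / K := div_le_div_of_nonneg_right hr.2.le hK0.le
    have h2 : sb P (ContinuousLinearMap.id ℂ W) (r / K) y ≤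
        M * sb P₂ (ContinuousLinearMap.id ℂ W) r y₂ := by
      refine sb_id_le (by positivity) fun x hx => (hτ x (hx.trans h1)).2.trans
        (mul_le_mul_of_nonneg_left (le_sb_id hP₂ hy₂ hr.2.le ((hτ x (hx.trans h1)).1.trans ?_)) hM)
      rwa [← le_div_iff₀' hK0]
    refine (att_le_Icc hP hy hc ha hab (r := r / K) ⟨(le_div_iff₀' hK0).2 hr.1,
      h1.trans (div_le_self hb.le hK)⟩).trans
      ((mul_le_mul_of_nonneg_right h2 (by positivity)).trans_eq ?_)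
    rw [div_div_eq_mul_div, mul_div_right_comm, mul_rpow (by positivity) hK0.le]
    ring
  rw [← att_const_mul _ (by positivity)]
  refine le_att hab fun r hr => ?_
  rw [sb_const_mul _ (by positivity), mul_assoc]
  rcases le_or_gt r (K * a) with h | h
  · refine (key _ ⟨le_rfl, hKa⟩).trans (mul_le_mul_of_nonneg_left ?_ (by positivity))
    refine (mul_le_mul_of_nonneg_right (hend r ⟨hr.1, h⟩) (by positivity)).trans_eq ?_
    have hr0 := ha.trans hr.1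
    rw [mul_assoc, ← mul_rpow (by positivity) (by positivity)]
    congr 2
    field_simp
  · exact key r ⟨h.le, hr.2⟩

/-! ### the additive form -/

/-- the attenuation of a plurisubharmonic function -/
def kl (v : W → ℝ) (L : V →L[ℂ] W) (c a b : ℝ) (z : W) : ℝ :=
  Real.log (att (fun y => Real.exp (v y)) L c a b z)

variable {v v' : W → ℝ}

theorem att_exp_pos (hv : Psh v U) (hb : LB v U) (hz : ∀ h : V, ‖h‖ ≤ b → z + L h ∈ U)
    (hc : 0 ≤ c) (ha : 0 ≤ a) (hab : a < b) : 0 < att (fun y => exp (v y)) L c a b z :=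
  (exp_pos _).trans_le ((self_le_sb (hv.lpsh_exp hb) hz ha hab.le).trans
    (sb_le_att (hv.lpsh_exp hb) hz hc ha hab))

theorem exp_kl (hv : Psh v U) (hb : LB v U) (hz : ∀ h : V, ‖h‖ ≤ b → z + L h ∈ U)
    (hc : 0 ≤ c) (ha : 0 ≤ a) (hab : a < b) :
    exp (kl v L c a b z) = att (fun y => exp (v y)) L c a b z :=
  exp_log (att_exp_pos hv hb hz hc ha hab)

theorem le_kl (hv : Psh v U) (hb : LB v U) (hz : ∀ h : V, ‖h‖ ≤ b → z + L h ∈ U)
    (hc : 0 ≤ c) (ha : 0 ≤ a) (hab : a < b) {h : V} (hh : ‖h‖ ≤ a) (hm : m ≤ v (z + L h)) :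
    m ≤ kl v L c a b z := by
  rw [← exp_le_exp, exp_kl hv hb hz hc ha hab]
  exact (exp_le_exp.2 hm).trans ((le_sb (hv.lpsh_exp hb) hz hab.le hh).trans
    (sb_le_att (hv.lpsh_exp hb) hz hc ha hab))

theorem self_le_kl (hv : Psh v U) (hb : LB v U) (hz : ∀ h : V, ‖h‖ ≤ b → z + L h ∈ U)
    (hc : 0 ≤ c) (ha : 0 ≤ a) (hab : a < b) : v z ≤ kl v L c a b z :=
  le_kl hv hb hz hc ha hab (h := 0) (by simpa using ha) (by simp)

theorem kl_le_add (hv : Psh v U) (hb : LB v U) (hz : ∀ h : V, ‖h‖ ≤ b → z + L h ∈ U)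
    (hc : 0 ≤ c) (ha : 0 ≤ a) (hr : r ∈ Ioc a b) (hm : ∀ h : V, ‖h‖ ≤ r → v (z + L h) ≤ m) :
    kl v L c a b z ≤ m + c * log (b / r) := by
  have hr0 := ha.trans_lt hr.1
  have hq := div_pos (hr0.trans_le hr.2) hr0
  rw [← exp_le_exp, exp_kl hv hb hz hc ha (hr.1.trans_le hr.2), exp_add, mul_comm c,
    ← rpow_def_of_pos hq]
  exact (att_le_Ioc (hv.lpsh_exp hb) hz ha hr).trans (mul_le_mul_of_nonneg_right
    (sb_le hr0.le fun h hh => exp_le_exp.2 (hm h hh)) (rpow_nonneg hq.le _))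

/-- the same with the small radius allowed -/
theorem kl_le_add' (hv : Psh v U) (hb : LB v U) (hz : ∀ h : V, ‖h‖ ≤ b → z + L h ∈ U)
    (hc : 0 ≤ c) (ha : 0 < a) (hab : a < b) (hr : r ∈ Icc a b)
    (hm : ∀ h : V, ‖h‖ ≤ r → v (z + L h) ≤ m) : kl v L c a b z ≤ m + c * log (b / r) := by
  have hr0 := ha.trans_le hr.1
  have hq := div_pos (hr0.trans_le hr.2) hr0
  rw [← exp_le_exp, exp_kl hv hb hz hc ha.le hab, exp_add, mul_comm c, ← rpow_def_of_pos hq]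
  exact (att_le_Icc (hv.lpsh_exp hb) hz hc ha hab hr).trans (mul_le_mul_of_nonneg_right
    (sb_le hr0.le fun h hh => exp_le_exp.2 (hm h hh)) (rpow_nonneg hq.le _))

theorem kl_le (hv : Psh v U) (hb : LB v U) (hz : ∀ h : V, ‖h‖ ≤ b → z + L h ∈ U)
    (hc : 0 ≤ c) (ha : 0 ≤ a) (hab : a < b) (hm : ∀ h : V, ‖h‖ ≤ b → v (z + L h) ≤ m) :
    kl v L c a b z ≤ m := by
  have h := kl_le_add hv hb hz hc ha ⟨hab, le_rfl⟩ hm
  rwa [div_self (ha.trans_lt hab).ne', log_one, mul_zero, add_zero] at h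

theorem kl_lb (hv : Psh v U) (hb : LB v U) (hc : 0 ≤ c) (ha : 0 ≤ a) (hab : a < b)
    (hm : ∀ z ∈ O, ∀ h : V, ‖h‖ ≤ b → z + L h ∈ U) : LB (kl v L c a b) O :=
  (hb.mono fun z hz => by simpa using hm z hz 0 (by simpa using ha.trans hab.le)).ge
    fun z hz => self_le_kl hv hb (hm z hz) hc ha hab

theorem kl_psh (hA : AttSt) (hU : IsOpen U) (hO : IsOpen O) (hv : Psh v U) (hb : LB v U)
    (hc : 0 ≤ c) (ha : 0 ≤ a) (hab : a < b) (hm : ∀ z ∈ O, ∀ h : V, ‖h‖ ≤ b → z + L h ∈ U) :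
    Psh (kl v L c a b) O :=
  (hA W V _ L c a b U O hU hO (hv.lpsh_exp hb) hc ha hab hm).2.1.psh_log
    (fun z hz => att_exp_pos hv hb (hm z hz) hc ha hab) (kl_lb hv hb hc ha hab hm)

theorem kl_mono (hv : Psh v U) (hb : LB v U) (hv' : Psh v' U) (hb' : LB v' U)
    (hz : ∀ h : V, ‖h‖ ≤ b → z + L h ∈ U) (hc : 0 ≤ c) (ha : 0 ≤ a) (hab : a < b)
    (h : ∀ y ∈ U, v y ≤ v' y) : kl v L c a b z ≤ kl v' L c a b z :=
  log_le_log (att_exp_pos hv hb hz hc ha hab) (att_mono (hv.lpsh_exp hb) (hv'.lpsh_exp hb') hz ha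
    hab fun y hy => exp_le_exp.2 (h y hy))

theorem kl_anti (hv : Psh v U) (hb : LB v U) (hz : ∀ h : V, ‖h‖ ≤ b → z + L h ∈ U) (hc : 0 ≤ c)
    (ha : 0 ≤ a) {a₂ : ℝ} (h1 : a ≤ a₂) (h2 : a₂ < b) : kl v L c a b z ≤ kl v L c a₂ b z :=
  log_le_log (att_exp_pos hv hb hz hc ha (h1.trans_lt h2)) (att_anti (hv.lpsh_exp hb) hz ha h1 h2)

theorem kl_const_mul (hv : Psh v U) (hb : LB v U) (hz : ∀ h : V, ‖h‖ ≤ b → z + L h ∈ U)
    (hc : 0 ≤ c) (ha : 0 ≤ a) (hab : a < b) (hm : 0 < m) :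
    kl (fun y => m * v y) L (m * c) a b z = m * kl v L c a b z := by
  have h1 : (fun y => exp (m * v y)) = fun y => exp (v y) ^ m := by
    funext y
    rw [mul_comm, exp_mul]
  rw [kl, h1, att_rpow (hv.lpsh_exp hb) hz ha hab hm, log_rpow (att_exp_pos hv hb hz hc ha hab), kl]

theorem kl_add_const (hv : Psh v U) (hb : LB v U) (hz : ∀ h : V, ‖h‖ ≤ b → z + L h ∈ U)
    (hc : 0 ≤ c) (ha : 0 ≤ a) (hab : a < b) (k : ℝ) :
    kl (fun y => v y + k) L c a b z = kl v L c a b z + k := by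
  have h1 : (fun y => exp (v y + k)) = fun y => exp k * exp (v y) := by
    funext y
    rw [exp_add, mul_comm]
  rw [kl, h1, att_const_mul _ (exp_pos k).le,
    log_mul (exp_pos k).ne' (att_exp_pos hv hb hz hc ha hab).ne', log_exp, kl, add_comm]

theorem kl_cont (hA : AttSt) (hU : IsOpen U) (hO : IsOpen O) (hv : Psh v U) (hb : LB v U)
    (hc : 0 ≤ c) (ha : 0 < a) (hab : a < b) (hm : ∀ z ∈ O, ∀ h : V, ‖h‖ ≤ b → z + L h ∈ U)
    (hvc : ContinuousOn v U) : ContinuousOn (kl v L c a b) O :=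
  ((hA W V _ L c a b U O hU hO (hv.lpsh_exp hb) hc ha.le hab hm).2.2.2.2.2 hvc.rexp ha).log
    fun z hz => (att_exp_pos hv hb (hm z hz) hc ha.le hab).ne'

theorem kl_cont_id (hA : AttSt) (hU : IsOpen U) (hO : IsOpen O) (hv : Psh v U) (hb : LB v U)
    (hc : 0 ≤ c) (ha : 0 < a) (hab : a < b)
    (hm : ∀ z ∈ O, ∀ h : W, ‖h‖ ≤ b → z + ContinuousLinearMap.id ℂ W h ∈ U) :
    ContinuousOn (kl v (ContinuousLinearMap.id ℂ W) c a b) O :=
  (att_cont_id hA hU hO (hv.lpsh_exp hb) hc ha hab hm).log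
    fun z hz => (att_exp_pos hv hb (hm z hz) hc ha.le hab).ne'

theorem kl_two {v₂ : W → ℝ} {U₂ : Set W} {y y₂ : W} {τ : W → W} {K : ℝ} (hv : Psh v U)
    (hb : LB v U) (hv₂ : Psh v₂ U₂) (hb₂ : LB v₂ U₂)
    (hy : ∀ h : W, ‖h‖ ≤ b → y + ContinuousLinearMap.id ℂ W h ∈ U)
    (hy₂ : ∀ h : W, ‖h‖ ≤ b → y₂ + ContinuousLinearMap.id ℂ W h ∈ U₂) (hc : 0 ≤ c) (ha : 0 < a)
    (hK : 1 ≤ K) (hKa : K * a < b)
    (hτ : ∀ z, ‖z - y‖ ≤ b / K → ‖τ z - y₂‖ ≤ K * ‖z - y‖ ∧ v z ≤ v₂ (τ z) + m)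
    (hend : ∀ r ∈ Ioc a (K * a),
      sb (fun x => exp (v₂ x)) (ContinuousLinearMap.id ℂ W) (K * a) y₂ ≤
        sb (fun x => exp (v₂ x)) (ContinuousLinearMap.id ℂ W) r y₂ * (K * a / r) ^ c) :
    kl v (ContinuousLinearMap.id ℂ W) c a b y ≤
      kl v₂ (ContinuousLinearMap.id ℂ W) c a b y₂ + m + c * log K := by
  have hab : a < b := (le_mul_of_one_le_left ha.le hK).trans_lt hKa
  have h := att_two (M := exp m) (hv.lpsh_exp hb) (hv₂.lpsh_exp hb₂) hy hy₂ hc ha hK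
    (exp_pos m).le hKa (fun z hz => ⟨(hτ z hz).1, by
      rw [← exp_add, add_comm]
      exact exp_le_exp.2 (hτ z hz).2⟩) hend
  rw [← exp_le_exp, exp_add, exp_add, exp_kl hv hb hy hc ha.le hab,
    exp_kl hv₂ hb₂ hy₂ hc ha.le hab, mul_comm c, ← rpow_def_of_pos (by linarith)]
  exact h.trans_eq (by ring)

end Vale.Agent.P284Y.Lib
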