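import Vale.Agent.P284Y.Lib.Conv

/-!
# P284Y, library: convolution of the logarithm, pointwise form
-/

set_option linter.unusedVariables false

open scoped Topology ContDiff ENNReal ComplexOrder
open Filter Set Metric MeasureTheory Real

noncomputable section

namespace Vale.Agent.P284Y.Lib

open Vale.Agent.P272.K Vale.Agent.P284Z

section gen
variable {W : Type} [NormedAddCommGroup W] [NormedSpace ℂ W] [FiniteDimensional ℂ W]
  [MeasurableSpace W] [BorelSpace W] {μ : Measure W} [μ.IsAddHaarMeasure]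
  {r : ℝ} {u P : W → ℝ} {U : Set W} {z : W}

theorem ker_one_eq (w : W) : ker μ 1 w = ker₁ μ w := by simp [ker]

theorem ker_smul (hr : 0 < r) (w : W) :
    ker μ r (r • w) = (r ^ Module.finrank ℝ W)⁻¹ * ker μ 1 w := by
  rw [ker, ker_one_eq, smul_smul, inv_mul_cancel₀ hr.ne', one_smul]

/-- the convolution written with the kernel of radius one -/
theorem cv_eq (hr : 0 < r) (u : W → ℝ) (z : W) :
    cv μ r u z = ∫ w, ker μ 1 w * u (z + r • w) ∂μ := by
  have : ProperSpace W := Z.proper
  have h := Measure.integral_comp_smul_of_nonneg μ (fun w => ker μ r w * u (z + w)) r (hR := hr.le)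
  simp only [ker_smul hr, mul_assoc, integral_const_mul, smul_eq_mul] at h
  exact (mul_left_cancel₀ (by positivity) h).symm

theorem cv_int' (hr : 0 < r) (hu : IntegrableOn u (closedBall z r) μ) :
    Integrable (fun w => ker μ 1 w * u (z + r • w)) μ := by
  have : ProperSpace W := Z.proper
  have h := ((cv_int hr hu).comp_smul hr.ne').const_mul (r ^ Module.finrank ℝ W)
  refine h.congr (Eventually.of_forall fun w => ?_)
  simp only [ker_smul hr]
  field_simp

theorem ae_smul_add {p : W → Prop} (hr : 0 < r) (h : ∀ᵐ y ∂μ, p y) (z : W) :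
    ∀ᵐ w ∂μ, p (z + r • w) := by
  have : ProperSpace W := Z.proper
  have h1 := ae_add h z
  rw [ae_iff] at h1 ⊢
  have := Measure.addHaar_preimage_smul μ hr.ne' {a | ¬p (z + a)}
  rw [h1, mul_zero] at this
  exact this

/-- a larger ball on which `log P` is locally integrable -/
theorem exists_good (hU : IsOpen U) (hP : LPsh P U) (hr : 0 < r) (hB : closedBall z r ⊆ U)
    (h0 : ∃ w ∈ closedBall z r, 0 < P w) : ∃ R > r, ball z R ⊆ U ∧
      Lc μ (fun y => log (P y)) (ball z R) ∧ ∀ᵐ y ∂μ, y ∈ ball z R → 0 < P y := by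
  obtain ⟨R, h1, h2⟩ := exists_big hU hr.le hB
  obtain ⟨w, w1, w2⟩ := h0
  have h3 := ball_subset_closedBall.trans h2
  have w3 := closedBall_subset_ball h1 w1
  exact ⟨R, h1, h3, lc_log (hP.mono h3) isOpen_ball (convex_ball z R).isPreconnected ⟨w, w3, w2⟩,
    (hP.mono h3).ae_pos isOpen_ball (convex_ball z R).isPreconnected w3 w2⟩

theorem cv_log_levi (hU : IsOpen U) (hP : LPsh P U) (hr : 0 < r) (hB : closedBall z r ⊆ U)
    (h0 : ∃ w ∈ closedBall z r, 0 < P w) : ContDiffAt ℝ ∞ (cv μ r fun y => log (P y)) z ∧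
      ∃ N ∈ 𝓝 z, Psh (cv μ r fun y => log (P y)) N := by
  obtain ⟨R, h1, h2, h3, h4⟩ := exists_good (μ := μ) hU hP hr hB h0
  exact ⟨cv_smooth hr isOpen_ball h3 (closedBall_subset_ball h1), ball z (R - r),
    ball_mem_nhds z (sub_pos.2 h1), cv_log_psh hr isOpen_ball (hP.mono h2) h3 h4 fun y hy =>
      closedBall_subset_ball' (by linarith [mem_ball.1 hy])⟩

theorem ker_zero' (hr : 0 < r) {w : W} (hw : r ≤ ‖w‖) : ker μ r w = 0 := by
  have h1 : Tendsto (fun t : ℝ => ker μ r (t • w)) (𝓝[>] 1) (𝓝 (ker μ r ((1 : ℝ) • w))) :=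
    (((ker_sm r).continuous.comp (continuous_id.smul continuous_const)).tendsto 1).mono_left
      nhdsWithin_le_nhds
  rw [one_smul] at h1
  refine tendsto_nhds_unique h1 (tendsto_const_nhds.congr' (eventually_mem_nhdsWithin.mono
    fun t (ht : 1 < t) => (ker_zero hr ?_).symm))
  rw [norm_smul, Real.norm_of_nonneg (by linarith)]
  nlinarith

variable {x : W} {R M c : ℝ}

theorem harnack₁ (hr : 0 < r) (hx : dist z x + r ≤ R) (hu : IntegrableOn u (closedBall x R) μ)
    (hM : ∀ y ∈ ball x R, u y ≤ M)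
    (hc : ∫ y in ball x R, (M - u y) ∂μ ≤ c * μ.real (ball x R)) :
    M - cvC μ * (R / r) ^ Module.finrank ℝ W * c ≤ cv μ r u z := by
  have : ProperSpace W := Z.proper
  have hR : 0 < R := by linarith [dist_nonneg (x := z) (y := x)]
  have sub : closedBall z r ⊆ closedBall x R := closedBall_subset_closedBall' (by linarith)
  have hi : IntegrableOn (fun y => M - u y) (closedBall x R) μ := (int_const M x R).sub hu
  set K := (ker_bdd μ).choose / r ^ Module.finrank ℝ W with hK
  have K0 : 0 ≤ K := div_nonneg (ker_bdd μ).choose_spec.1.le (by positivity)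
  have h1 : cv μ r (fun y => M - u y) z ≤ K * ∫ y in ball x R, (M - u y) ∂μ := by
    rw [← integral_indicator measurableSet_ball, ← integral_add_left_eq_self _ z,
      ← integral_const_mul]
    refine integral_mono (cv_int hr (hi.mono_set sub)) ((((integrable_indicator_iff
      measurableSet_ball).2 (hi.mono_set ball_subset_closedBall)).comp_add_left z).const_mul K)
      fun w => ?_
    rcases le_or_gt r ‖w‖ with h | h
    · simp only [ker_zero' hr h, zero_mul]
      exact mul_nonneg K0 (indicator_apply_nonneg fun h' => sub_nonneg.2 (hM _ h'))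
    · have m : z + w ∈ ball x R := ball_subset_ball' (x := z) (ε₁ := r) (by linarith)
        (by simpa using h)
      simp only [indicator_of_mem m]
      exact mul_le_mul_of_nonneg_right ((ker_bdd μ).choose_spec.2 r hr w) (sub_nonneg.2 (hM _ m))
  rw [cv_sub hr (int_const M z r) (hu.mono_set sub), cv_const hr] at h1
  have h2 : μ.real (ball x R) = R ^ Module.finrank ℝ W * μ.real (ball 0 1) := by
    rw [measureReal_def, Measure.addHaar_ball_of_pos μ x hR, ENNReal.toReal_mul,
      ENNReal.toReal_ofReal (by positivity), measureReal_def]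
  have h3 : K * (c * μ.real (ball x R)) = cvC μ * (R / r) ^ Module.finrank ℝ W * c := by
    rw [h2, hK, cvC, div_pow]
    ring
  linarith [mul_le_mul_of_nonneg_left hc K0]

theorem harnack' (hr : 0 < r) (hx : dist z x + r ≤ R) (h : Psh u U) (hb : LB u U)
    (hB : closedBall x R ⊆ U) (hM : ∀ y ∈ ball x R, u y ≤ M) :
    M - cvC μ * (R / r) ^ Module.finrank ℝ W * (M - u x) ≤ cv μ r u z := by
  have : ProperSpace W := Z.proper
  have hi := (lc_psh (μ := μ) h hb).ball hB
  refine harnack₁ hr hx hi hM ?_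
  have hc : IntegrableOn (fun _ => M) (ball x R) μ := integrableOn_const measure_ball_lt_top.ne
  rw [integral_sub hc (hi.mono_set ball_subset_closedBall), setIntegral_const, smul_eq_mul]
  linarith [h.le_ball μ hb hB]

theorem harnack_log' (hr : 0 < r) (hx : dist z x + r ≤ R) (hU : IsOpen U) (hP : LPsh P U)
    (hB : closedBall x R ⊆ U) (hM : ∀ y ∈ ball x R, P y ≤ M) (h0 : 0 < P x) :
    log M - cvC μ * (R / r) ^ Module.finrank ℝ W * (log M - log (P x)) ≤
      cv μ r (fun y => log (P y)) z := by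
  have hR : 0 < R := by linarith [dist_nonneg (x := z) (y := x)]
  have sub : closedBall z r ⊆ closedBall x R := closedBall_subset_closedBall' (by linarith)
  obtain ⟨R', h1, h2, h3, h4⟩ := exists_good (μ := μ) hU hP hR hB ⟨x, mem_closedBall_self hR.le, h0⟩
  have sub' := sub.trans (closedBall_subset_ball h1)
  have M0 := h0.trans_le (hM x (mem_ball_self hR))
  refine ge_of_tendsto (tendsto_cv_lg hr hP (sub.trans hB) (h3.ball sub')
    (h4.mono fun y hy hy' => hy (sub' hy'))) ?_
  filter_upwards [ev_lg h0, eventually_ge_atTop (-log M)] with T h1 h2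
  have := harnack' (μ := μ) (M := log M) hr hx (hP.2 T) (lb_lg T P U) hB fun y hy =>
    Z.lg_le_iff.2 ⟨(hM y hy).trans_eq (exp_log M0).symm, by linarith⟩
  rwa [h1] at this

end gen

/-- all the properties at a point, on `ℂ^N` -/
theorem cv_all (N : ℕ) : ∃ (k : Cm N → ℝ) (K : ℝ), 1 ≤ K ∧ (∫ w, k w = 1) ∧ Integrable k ∧
    (∀ w, 0 ≤ k w) ∧ (∀ w, k w ≠ 0 → ‖w‖ ≤ 1) ∧
    ∀ (P : Cm N → ℝ) (U : Set (Cm N)) (z : Cm N) (r : ℝ), IsOpen U → LPsh P U → 0 < r →
      closedBall z r ⊆ U → (∃ w ∈ closedBall z r, 0 < P w) →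
      ContDiffAt ℝ ∞ (fun y => ∫ w, k w * log (P (y + r • w))) z ∧
      (cHess (fun y => ∫ w, k w * log (P (y + r • w))) z).PosSemidef ∧
      Integrable (fun w => k w * log (P (z + r • w))) ∧
      (∀ᵐ w, k w ≠ 0 → 0 < P (z + r • w)) ∧
      (0 < P z → log (P z) ≤ ∫ w, k w * log (P (z + r • w))) ∧
      (∀ M, (∀ w ∈ closedBall z r, P w ≤ M) → ∫ w, k w * log (P (z + r • w)) ≤ log M) ∧
      ∀ w₁ ∈ closedBall z r, ∀ d ≥ (0 : ℝ), closedBall z (3 * r) ⊆ U → 0 < P w₁ →
        (∀ w ∈ closedBall z (3 * r), P w ≤ exp d * P w₁) →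
        log (P w₁) - K * d ≤ ∫ w, k w * log (P (z + r • w)) := by
  have hs : ∀ w : Cm N, ker volume 1 w ≠ 0 → ‖w‖ ≤ 1 := fun w hw =>
    not_lt.1 fun h => hw (ker_zero one_pos h)
  refine ⟨ker volume 1, 1 + cvC (volume : Measure (Cm N)) * 2 ^ Module.finrank ℝ (Cm N),
    le_add_of_nonneg_right (mul_nonneg cvC_pos.le (by positivity)), ker_one one_pos, ker_int one_pos,
    ker_nonneg one_pos, hs, fun P U z r hU hP hr hB h0 => ?_⟩
  obtain ⟨R, h1, h2, h3, h4⟩ := exists_good (μ := volume) hU hP hr hB h0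
  obtain ⟨a1, N', a2, a3⟩ := cv_log_levi (μ := volume) hU hP hr hB h0
  have e : (fun y => ∫ w, ker volume 1 w * log (P (y + r • w))) =
      cv volume r fun y => log (P y) := funext fun y => (cv_eq hr (fun y => log (P y)) y).symm
  have e' := congrFun e z
  have hi := h3.ball (closedBall_subset_ball h1)
  have h5 := h4.mono fun y hy hy' => hy (closedBall_subset_ball h1 hy')
  rw [e, e']
  refine ⟨a1, a3.cHess_psd a2 (a1.of_le (by norm_cast)), cv_int' hr hi,
    (ae_smul_add hr h5 z).mono fun w hw h => hw ?_, log_le_cv hr hU hP hB hi h5,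
    fun M => cv_log_le hr hi h5, fun w₁ hw d hd hB' hp hM => ?_⟩
  · rw [mem_closedBall, dist_self_add_left, norm_smul, Real.norm_of_nonneg hr.le]
    exact mul_le_of_le_one_right hr.le (hs w h)
  · have sub : closedBall w₁ (2 * r) ⊆ closedBall z (3 * r) :=
      closedBall_subset_closedBall' (by linarith [mem_closedBall.1 hw])
    have := harnack_log' (μ := volume) (z := z) (R := 2 * r) (M := exp d * P w₁) hr
      (by rw [dist_comm]; linarith [mem_closedBall.1 hw]) hU hP (sub.trans hB')
      (fun y hy => hM y (sub (ball_subset_closedBall hy))) hp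
    rw [log_mul (exp_pos d).ne' hp.ne', log_exp, mul_div_cancel_right₀ _ hr.ne'] at this
    nlinarith

end Vale.Agent.P284Y.Lib
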