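import Vale.Agent.P284Y.Lib.Dg
import Mathlib.Analysis.LocallyConvex.Separation

/-!
# P284Y: the minimum principle of Kiselman in several variables
-/

open scoped Topology
open Filter Set Metric Real

noncomputable section

namespace Vale.Agent.P284Y.Lib

open Vale.Agent.P272.K Vale.Agent.P284Z

variable {k : ℕ} {I : Set (Fin k → ℝ)}

/-- real vectors as complex vectors -/
def ofV (x : Fin k → ℝ) : Cm k := fun i => (x i : ℂ)

@[simp] theorem reV_ofV (x : Fin k → ℝ) : reV (ofV x) = x := funext fun _ => Complex.ofReal_re _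

@[fun_prop] theorem continuous_reV : Continuous (reV : Cm k → Fin k → ℝ) :=
  continuous_pi fun i => Complex.continuous_re.comp (continuous_apply i)

@[fun_prop] theorem continuous_ofV : Continuous (ofV : (Fin k → ℝ) → Cm k) :=
  continuous_pi fun i => Complex.continuous_ofReal.comp (continuous_apply i)

theorem reV_line (x v : Fin k → ℝ) (t : ℂ) : reV (ofV x + t • ofV v) = x + t.re • v :=
  funext fun i => by simp [reV, ofV]

theorem cvx : CvxSt := by
  intro k C u hC hC' h hb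
  refine ⟨hC', fun x hx y hy a b ha hb' hab => ?_⟩
  have hc : Continuous fun t : ℝ => x + t • (y - x) := by fun_prop
  have hI : Convex ℝ {t : ℝ | x + t • (y - x) ∈ C} := by
    have := hC'.affine_preimage (AffineMap.lineMap (k := ℝ) x y)
    simpa only [preimage, AffineMap.lineMap_apply_module', add_comm] using this
  have p1 : Psh (fun t : ℂ => u (x + t.re • (y - x))) {t | t.re ∈ {t | x + t • (y - x) ∈ C}} := by
    have := h.affine (ofV x) (ContinuousLinearMap.toSpanSingleton ℂ (ofV (y - x)))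
    simp only [ContinuousLinearMap.toSpanSingleton_apply, reV_line, mem_preimage] at this
    exact this
  have p2 : LB (fun t : ℂ => u (x + t.re • (y - x))) {t | t.re ∈ {t | x + t • (y - x) ∈ C}} :=
    hb.comp (g := fun t : ℂ => x + t.re • (y - x)) (by fun_prop) fun t ht => ht
  have := (cvx₁ (f := fun t => u (x + t • (y - x))) (hC.preimage hc) hI.ordConnected p1 p2).2
    (x := 0) (by simpa using hx) (y := 1) (by simpa using hy) ha hb' hab
  obtain rfl : a = 1 - b := by linarith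
  have e : (1 - b) • x + b • y = x + b • (y - x) := by module
  simpa [e] using this

theorem reV_mem_of_sphere {g : ℂ → Cm k} (hg : Differentiable ℂ g) (hI : IsOpen I)
    (hI' : Convex ℝ I) (h : ∀ ζ ∈ sphere (0 : ℂ) 1, reV (g ζ) ∈ I) {ζ : ℂ} (hζ : ‖ζ‖ ≤ 1) :
    reV (g ζ) ∈ I := by
  by_contra hn
  obtain ⟨f, hf⟩ := geometric_hahn_banach_open_point hI' hI hn
  have e : ∀ η, (∑ i, g η i * (f (Pi.single i 1) : ℝ)).re = f (reV (g η)) := fun η => by
    have := LinearMap.pi_apply_eq_sum_univ f.toLinearMap (reV (g η))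
    rw [ContinuousLinearMap.coe_coe] at this
    rw [this, Complex.re_sum]
    refine Finset.sum_congr rfl fun i _ => ?_
    rw [Complex.re_mul_ofReal, smul_eq_mul]
    congr 2
    funext j
    simp [Pi.single_apply, eq_comm]
  have hc : Continuous fun η => f (reV (g η)) := by
    have := hg.continuous
    fun_prop
  obtain ⟨b, hb, hb'⟩ := (isCompact_sphere (0 : ℂ) 1).exists_isMaxOn ⟨1, by simp⟩ hc.continuousOn
  have h1 := re_le_of_sphere (g := fun η => ∑ i, g η i * (f (Pi.single i 1) : ℝ)) (by fun_prop)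
    (b := f (reV (g b))) (fun η hη => (e η).trans_le (hb' hη)) hζ
  rw [e] at h1
  exact (hf _ (h b hb)).not_ge h1

variable {W : Type} [NormedAddCommGroup W] [NormedSpace ℂ W] [FiniteDimensional ℂ W]
  {u : W → (Fin k → ℝ) → ℝ} {U : Set W}

omit [FiniteDimensional ℂ W] in
theorem selectK (hU : IsOpen U) (hI : IsOpen I) (hI' : Convex ℝ I) (hne : I.Nonempty)
    (h : Psh (fun q : W × Cm k => u q.1 (reV q.2)) (U ×ˢ (reV ⁻¹' I)))
    (hb : LB (fun q : W × Cm k => u q.1 (reV q.2)) (U ×ˢ (reV ⁻¹' I)))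
    {γ : ℂ → W} (hγ : Continuous γ) (hm : ∀ ζ ∈ sphere (0 : ℂ) 1, γ ζ ∈ U) {δ : ℝ} (hδ : 0 < δ) :
    ∃ g : ℂ → Cm k, Differentiable ℂ g ∧ ∀ ζ ∈ sphere (0 : ℂ) 1, reV (g ζ) ∈ I ∧
      ∃ η ∈ sphere (0 : ℂ) 1, dist η ζ < 2 * δ ∧
        u (γ ζ) (reV (g ζ)) < sInf (u (γ η) '' I) + δ := by
  have hO : IsOpen (U ×ˢ (reV ⁻¹' I)) := hU.prod (hI.preimage continuous_reV)
  have husc : ∀ ζ ∈ sphere (0 : ℂ) 1, ∀ s ∈ I, ∀ r, u (γ ζ) s < r →
      ∀ᶠ q : ℂ × (Fin k → ℝ) in 𝓝 (ζ, s), u (γ q.1) q.2 < r := by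
    intro ζ hζ s hs r hr
    have hq : ((γ ζ, ofV s) : W × Cm k) ∈ U ×ˢ (reV ⁻¹' I) := ⟨hm ζ hζ, by simpa using hs⟩
    have h1 := h.1 _ hq r (by simpa using hr)
    rw [nhdsWithin_eq_nhds.2 (hO.mem_nhds hq)] at h1
    have h2 : Continuous fun q : ℂ × (Fin k → ℝ) => ((γ q.1, ofV q.2) : W × Cm k) := by fun_prop
    simpa only [reV_ofV] using (h2.tendsto (ζ, s)).eventually h1
  set S := sphere (0 : ℂ) 1 with hS
  set t : S → Set (Fin k → ℝ) := fun ζ => {s ∈ I | ∃ η ∈ S, dist η ζ < δ ∧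
    u (γ ζ) s < sInf (u (γ η) '' I) + δ} with ht
  have hconv : ∀ ζ, Convex ℝ (t ζ) := by
    intro ζ x hx y hy a b ha hb' hab
    refine ⟨hI' hx.1 hy.1 ha hb' hab, ?_⟩
    obtain ⟨η, hη, d1, e1⟩ := hx.2
    obtain ⟨η', hη', d2, e2⟩ := hy.2
    have hsub : reV ⁻¹' I ⊆ {x : Cm k | ((γ ζ, 0) : W × Cm k) +
        ContinuousLinearMap.inr ℂ W (Cm k) x ∈ U ×ˢ (reV ⁻¹' I)} := fun x hx => by
      simpa using ⟨hm ζ ζ.2, hx⟩
    have p1 : Psh (fun x : Cm k => u (γ ζ) (reV x)) (reV ⁻¹' I) := by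
      simpa using (h.affine (γ ζ, 0) (ContinuousLinearMap.inr ℂ W (Cm k))).mono hsub
    have p2 : LB (u (γ ζ)) I := by
      simpa only [reV_ofV] using hb.comp (g := fun x => ((γ ζ, ofV x) : W × Cm k)) (by fun_prop)
        fun x hx => (⟨hm ζ ζ.2, by simpa using hx⟩ : _ ∈ U ×ˢ (reV ⁻¹' I))
    have p3 := (cvx k I _ hI hI' p1 p2).le_on_segment' hx.1 hy.1 ha hb' hab
    rcases le_total (sInf (u (γ η) '' I)) (sInf (u (γ η') '' I)) with hle | hle
    · exact ⟨η', hη', d2, p3.trans_lt (max_lt (by linarith) e2)⟩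
    · exact ⟨η, hη, d1, p3.trans_lt (max_lt e1 (by linarith))⟩
  have hloc : ∀ x : S, ∃ c, ∀ᶠ y in 𝓝 x, c ∈ t y := by
    intro x
    obtain ⟨_, ⟨c, hc, rfl⟩, hc'⟩ := exists_lt_of_csInf_lt (hne.image (u (γ x)))
      (lt_add_of_pos_right _ hδ)
    refine ⟨c, ?_⟩
    have h2 : Continuous fun y : S => ((y : ℂ), c) := by fun_prop
    filter_upwards [(h2.tendsto x).eventually (husc x x.2 c hc _ hc'), ball_mem_nhds x hδ]
      with y hy hy'
    exact ⟨hc, x, x.2, by rw [dist_comm]; exact hy', hy⟩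
  obtain ⟨σ, hσ⟩ := exists_continuous_forall_mem_convex_of_local_const hconv hloc
  have hmar : ∃ ε > 0, ∀ y : S, ∀ s, ‖s - σ y‖ < ε → s ∈ I ∧ ∃ η ∈ S, dist η y < 2 * δ ∧
      u (γ y) s < sInf (u (γ η) '' I) + δ := by
    have h1 : ∀ x ∈ (univ : Set S), ∀ᶠ q : (Fin k → ℝ) × S in 𝓝 (0, x), q.1 + σ q.2 ∈ I ∧
        ∃ η ∈ S, dist η q.2 < 2 * δ ∧ u (γ q.2) (q.1 + σ q.2) < sInf (u (γ η) '' I) + δ := by
      intro x _
      obtain ⟨hx, η, hη, d1, e1⟩ := hσ x
      have h2 : Continuous fun q : (Fin k → ℝ) × S => ((q.2 : ℂ), q.1 + σ q.2) := by fun_prop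
      have h3 : Tendsto (fun q : (Fin k → ℝ) × S => ((q.2 : ℂ), q.1 + σ q.2)) (𝓝 (0, x))
          (𝓝 (x, σ x)) := by simpa using h2.tendsto (0, x)
      have h4 : ∀ᶠ q : ℂ × (Fin k → ℝ) in 𝓝 ((x : ℂ), σ x), q.2 ∈ I ∧ dist η q.1 < 2 * δ :=
        (continuous_snd.continuousAt.eventually (hI.mem_nhds hx)).and
          (ContinuousAt.eventually_lt (f := fun q : ℂ × (Fin k → ℝ) => dist η q.1) (by fun_prop)
            continuousAt_const (by change dist η (x : ℂ) < 2 * δ; linarith))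
      filter_upwards [h3.eventually (husc x x.2 _ hx _ e1), h3.eventually h4] with q hq hq'
      exact ⟨hq'.1, η, hη, hq'.2, hq⟩
    obtain ⟨ε, hε, h5⟩ := Metric.eventually_nhds_iff.1
      (isCompact_univ.eventually_forall_of_forall_eventually
        (P := fun (a : Fin k → ℝ) (y : S) => a + σ y ∈ I ∧ ∃ η ∈ S, dist η y < 2 * δ ∧
          u (γ y) (a + σ y) < sInf (u (γ η) '' I) + δ) h1)
    refine ⟨ε, hε, fun y s hs => ?_⟩
    have h6 := h5 (y := s - σ y) (by rwa [dist_zero_right]) y (mem_univ y)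
    simpa only [sub_add_cancel] using h6
  obtain ⟨ε, hε, hmar⟩ := hmar
  classical
  choose g hg hg' using fun i : Fin k => exists_entire_re
    (σ := fun z => if hz : z ∈ S then σ ⟨z, hz⟩ i else 0) (by
      rw [continuousOn_iff_continuous_domRestrict]
      refine ((continuous_apply i).comp σ.continuous).congr fun y => ?_
      simp only [domRestrict_apply, dif_pos y.2, Function.comp_apply]) hε
  refine ⟨fun ζ i => g i ζ, differentiable_pi.2 hg, fun ζ hζ => hmar ⟨ζ, hζ⟩ _ ?_⟩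
  refine (pi_norm_lt_iff hε).2 fun i => ?_
  have := hg' i ζ hζ
  rw [dif_pos hζ] at this
  exact this

/-- **Kiselman's minimum principle** in several variables -/
theorem kiselmanK (hU : IsOpen U) (hI : IsOpen I) (hI' : Convex ℝ I) (hne : I.Nonempty)
    (h : Psh (fun q : W × Cm k => u q.1 (reV q.2)) (U ×ˢ (reV ⁻¹' I)))
    (hb : ∀ z ∈ U, ∃ c, ∀ᶠ z' in 𝓝[U] z, ∀ s ∈ I, c ≤ u z' s) :
    Psh (fun z => sInf (u z '' I)) U ∧ LB (fun z => sInf (u z '' I)) U := by
  have hO : IsOpen (U ×ˢ (reV ⁻¹' I)) := hU.prod (hI.preimage continuous_reV)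
  have hbd : ∀ z ∈ U, BddBelow (u z '' I) := fun z hz => by
    obtain ⟨c, hc⟩ := hb z hz
    exact ⟨c, by rintro _ ⟨s, hs, rfl⟩; exact hc.self_of_nhdsWithin hz s hs⟩
  have hlb : LB (fun z => sInf (u z '' I)) U := fun z hz => (hb z hz).imp fun c hc =>
    hc.mono fun z' hz' => le_csInf (hne.image _) (by rintro _ ⟨s, hs, rfl⟩; exact hz' s hs)
  have hb2 : LB (fun q : W × Cm k => u q.1 (reV q.2)) (U ×ˢ (reV ⁻¹' I)) := fun q hq =>
    (hb q.1 hq.1).imp fun c hc => by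
      have h1 : Tendsto (fun p : W × Cm k => p.1) (𝓝[U ×ˢ (reV ⁻¹' I)] q) (𝓝[U] q.1) :=
        continuous_fst.continuousWithinAt.tendsto_nhdsWithin fun p hp => hp.1
      filter_upwards [h1.eventually hc, eventually_mem_nhdsWithin] with p hp hp'
      exact hp _ hp'.2
  have husc : UpperSemicontinuousOn (fun z => sInf (u z '' I)) U := by
    intro z hz r hr
    obtain ⟨_, ⟨s, hs, rfl⟩, hs'⟩ := exists_lt_of_csInf_lt (hne.image (u z)) hr
    have h1 : UpperSemicontinuousOn (fun z' => u z' s) U := by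
      have : UpperSemicontinuousOn ((fun q : W × Cm k => u q.1 (reV q.2)) ∘
          fun z' : W => ((z', ofV s) : W × Cm k)) U :=
        h.1.comp (by fun_prop) fun z' hz' => ⟨hz', by simpa using hs⟩
      simpa only [Function.comp_def, reV_ofV] using this
    filter_upwards [h1 z hz r hs', eventually_mem_nhdsWithin] with z' h2 h3
    exact (csInf_le (hbd z' h3) ⟨s, hs, rfl⟩).trans_lt h2
  refine ⟨⟨husc, fun z w hw => le_of_forall_pos_le_add fun ε hε => ?_⟩, hlb⟩
  have hm : ∀ ζ ∈ sphere (0 : ℂ) 1, z + ζ • w ∈ U := fun ζ hζ =>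
    hw ζ (mem_sphere_zero_iff_norm.1 hζ).le
  have hγ : Continuous fun ζ : ℂ => z + ζ • w := by fun_prop
  choose g hg hg' using fun j : ℕ =>
    selectK hU hI hI' hne h hb2 hγ hm (Nat.one_div_pos_of_nat (n := j))
  have hv : UpperSemicontinuousOn (fun ζ : ℂ => sInf (u (z + ζ • w) '' I)) (sphere 0 1) :=
    husc.comp hγ.continuousOn hm
  obtain ⟨M, -, hM⟩ := usc_bdd hv (isCompact_sphere 0 1) subset_rfl
  have hF : ∀ j, Psh (fun ζ : ℂ => u (z + ζ • w) (reV (g j ζ)))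
        {ζ | ((z + ζ • w, g j ζ) : W × Cm k) ∈ U ×ˢ (reV ⁻¹' I)} ∧
      LB (fun ζ : ℂ => u (z + ζ • w) (reV (g j ζ)))
        {ζ | ((z + ζ • w, g j ζ) : W × Cm k) ∈ U ×ˢ (reV ⁻¹' I)} := fun j => by
    have hd : Differentiable ℂ fun ζ : ℂ => ((z + ζ • w, g j ζ) : W × Cm k) := by
      have := hg j
      fun_prop
    exact ⟨h.comp hb2 hO (hO.preimage hd.continuous) hd.differentiableOn fun _ hζ => hζ,
      hb2.comp hd.continuous.continuousOn fun _ hζ => hζ⟩
  have hD : ∀ j (ζ : ℂ), ‖ζ‖ ≤ 1 → (0 : ℂ) + ζ • (1 : ℂ) ∈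
      {ζ | ((z + ζ • w, g j ζ) : W × Cm k) ∈ U ×ˢ (reV ⁻¹' I)} := fun j ζ hζ => by
    rw [zero_add, smul_eq_mul, mul_one]
    exact ⟨hw ζ hζ, reV_mem_of_sphere (hg j) hI hI' (fun η hη => (hg' j η hη).1) hζ⟩
  have hfat := fatou_circle (𝓕 := atTop) (v := fun j (ζ : ℂ) => u (z + ζ • w) (reV (g j ζ)))
    (f := fun ζ : ℂ => sInf (u (z + ζ • w) '' I)) (c := 0) (R := 1) (M := M + 1)
    (line_int₁ husc hlb hw) (Eventually.of_forall fun j => ⟨?_, fun ζ hζ => ?_⟩)
    (fun ζ hζ r hr => ?_) hε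
  · obtain ⟨j, hj⟩ := hfat.exists
    have h1 := (hF j).1.2 0 1 (hD j)
    simp only [zero_add, smul_eq_mul, mul_one, zero_smul, add_zero] at h1
    have h2 : reV (g j 0) ∈ I :=
      reV_mem_of_sphere (hg j) hI hI' (fun η hη => (hg' j η hη).1) (by simp)
    exact (csInf_le (hbd z (disc_mem hw)) ⟨_, h2, rfl⟩).trans (h1.trans hj)
  · simpa only [zero_add, smul_eq_mul, mul_one] using line_int₁ (hF j).1.1 (hF j).2 (hD j)
  · rw [abs_one] at hζ
    obtain ⟨η, hη, -, e⟩ := (hg' j ζ hζ).2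
    have h1 : (1 : ℝ) / (j + 1) ≤ 1 := Nat.one_div_le_one_div (Nat.zero_le j) |>.trans (by simp)
    linarith [hM η hη]
  · rw [abs_one] at hζ
    obtain ⟨r', h1, h2⟩ := exists_between hr
    obtain ⟨ρ, hρ, h3⟩ := Metric.eventually_nhds_iff.1 (eventually_nhdsWithin_iff.1 (hv ζ hζ r' h1))
    have h4 := tendsto_one_div_add_atTop_nhds_zero_nat (𝕜 := ℝ)
    filter_upwards [h4.eventually (gt_mem_nhds (half_pos hρ)),
      h4.eventually (gt_mem_nhds (sub_pos.2 h2))] with j h5 h6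
    obtain ⟨η, hη, d, e⟩ := (hg' j ζ hζ).2
    have h7 := h3 (y := η) (by linarith) hη
    linarith

theorem kiselmanK_lpsh {P : W → (Fin k → ℝ) → ℝ} (hU : IsOpen U) (hI : IsOpen I)
    (hI' : Convex ℝ I) (hne : I.Nonempty)
    (h : LPsh (fun q : W × Cm k => P q.1 (reV q.2)) (U ×ˢ (reV ⁻¹' I))) :
    LPsh (fun z => sInf (P z '' I)) U := by
  have h0 : ∀ z ∈ U, ∀ s ∈ I, 0 ≤ P z s := fun z hz s hs => by
    simpa only [reV_ofV] using h.1 (z, ofV s) ⟨hz, by simpa using hs⟩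
  refine ⟨fun z hz => le_csInf (hne.image _) (by rintro _ ⟨s, hs, rfl⟩; exact h0 z hz s hs),
    fun T => ?_⟩
  refine (kiselmanK (u := fun z s => lg T (P z s)) hU hI hI' hne (h.2 T)
    fun z _ => ⟨-T, Eventually.of_forall fun _ _ _ => le_lg _ _⟩).1.congr fun z hz => ?_
  have hm : Monotone (lg T) := fun a b hab =>
    log_le_log (lt_max_of_lt_right (exp_pos _)) (max_le_max hab le_rfl)
  have h1 := hm.map_csInf_of_continuousAt (continuous_lg T).continuousAt (hne.image (P z))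
    ⟨0, by rintro _ ⟨s, hs, rfl⟩; exact h0 z hz s hs⟩
  rw [image_image] at h1
  exact h1

theorem kis : KisSt where
  psh W _ _ _ k U C u hU hC hC' hne h hb := by
    simpa only [sInf_image'] using (kiselmanK hU hC hC' hne h fun z hz =>
      (hb z hz).imp fun c hc => mem_nhdsWithin_of_mem_nhds hc).1
  lpsh W _ _ _ k U C P hU hC hC' hne h := by
    simpa only [sInf_image'] using kiselmanK_lpsh hU hC hC' hne h
  psh₁ W _ _ _ U C u hU hC hC' hne h hb := by
    simpa only [sInf_image'] using (kiselman hU hC hC'.ordConnected hne h fun z hz =>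
      (hb z hz).imp fun c hc => mem_nhdsWithin_of_mem_nhds hc).1
  lpsh₁ W _ _ _ U C P hU hC hC' hne h := by
    simpa only [sInf_image'] using kiselman_lpsh hU hC hC'.ordConnected hne h
  rad W _ _ _ U a b P hU ha hab h := by
    have hI : IsOpen (exp ⁻¹' Ioo a b) := isOpen_Ioo.preimage continuous_exp
    have hs : exp '' (exp ⁻¹' Ioo a b) = Ioo a b := image_preimage_eq_of_subset fun r hr =>
      ⟨log r, exp_log (ha.trans_lt hr.1)⟩
    have h1 : LPsh (fun q : W × ℂ => P q.1 (exp q.2.re)) (U ×ˢ {t | t.re ∈ exp ⁻¹' Ioo a b}) := by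
      have := h.comp (g := fun q : W × ℂ => ((q.1, Complex.exp q.2) : W × ℂ))
        (O := U ×ˢ {t : ℂ | t.re ∈ exp ⁻¹' Ioo a b}) (hU.prod
          ((isOpen_lt continuous_const continuous_norm).inter
            (isOpen_lt continuous_norm continuous_const)))
        (hU.prod (hI.preimage Complex.continuous_re)) (by fun_prop)
        fun q hq => ⟨hq.1, (Complex.norm_exp q.2).symm ▸ hq.2.1, (Complex.norm_exp q.2).symm ▸ hq.2.2⟩
      simpa only [Complex.norm_exp] using this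
    have h2 := kiselman_lpsh (P := fun z s => P z (exp s)) hU hI
      (ordConnected_Ioo.preimage_mono exp_monotone)
      (by rw [← image_nonempty (f := exp), hs]; exact nonempty_Ioo.2 hab) h1
    refine h2.congr fun z _ => ?_
    beta_reduce
    rw [← image_image (P z) exp, hs, sInf_image']

end Vale.Agent.P284Y.Lib
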