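import Vale.Agent.P284Y.Lib.TwSpec
import Vale.Agent.P284Z.G.UI

/-!
# P284Y, library: flow boxes from several relations
-/

open scoped Topology
open Filter Set Metric

noncomputable section

namespace Vale.Agent.P284Y.Lib

open Vale.Agent.P272.K Vale.Agent.P284Z.G

theorem AnRel.mono {n : ℕ} {R : Cm n → Cm n → Prop} {U V U' V' : Set (Cm n)} (h : AnRel R U V)
    (hU : U' ⊆ U) (hV : V' ⊆ V) : AnRel R U' V' :=
  h.imp fun _ hS => ⟨fun f hf => (hS.1 f hf).mono (prod_mono hU hV),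
    fun x hx y hy => hS.2 x (hU hx) y (hV hy)⟩

/-- finitely many equations are enough near a given point -/
theorem AnRel.fin {n : ℕ} {R : Cm n → Cm n → Prop} {U V : Set (Cm n)} (h : AnRel R U V)
    (hU : IsOpen U) (hV : IsOpen V) {x y : Cm n} (hx : x ∈ U) (hy : y ∈ V) :
    ∃ (m : ℕ) (G : Fin m → Cm n × Cm n → ℂ), (∀ s, AnalyticOnNhd ℂ (G s) (U ×ˢ V)) ∧
      (∀ x ∈ U, ∀ y ∈ V, R x y → ∀ s, G s (x, y) = 0) ∧
      ∀ᶠ q in 𝓝 (x, y), (∀ s, G s q = 0) → R q.1 q.2 := by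
  obtain ⟨S, hS, hS'⟩ := h
  have hm := (hU.prod hV).mem_nhds (show (x, y) ∈ U ×ˢ V from ⟨hx, hy⟩)
  obtain ⟨T, hT⟩ := sn _ S (fun i => i.1) _ (x, y) hm fun i => hS _ i.2
  refine ⟨T.card, fun s => (T.equivFin.symm s).1.1, fun s => hS _ (T.equivFin.symm s).1.2,
    fun x hx y hy h s => (hS' x hx y hy).1 h _ (T.equivFin.symm s).1.2, ?_⟩
  filter_upwards [hT, hm] with q h1 h2 h3
  refine (hS' _ h2.1 _ h2.2).2 fun f hf => h1 (fun i hi => ?_) ⟨f, hf⟩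
  obtain ⟨s, hs⟩ := T.equivFin.symm.surjective ⟨i, hi⟩
  have := h3 s
  rwa [hs] at this

/-- uniform isolation off a thin set -/
theorem AnRel.ui {n e : ℕ} {R : Cm n → Cm n → Prop} {U : Set (Cm n)} (h : AnRel R U U)
    (hU : IsOpen U) (hc : IsPreconnected U) {x₁ : Cm n} (hx₁ : x₁ ∈ U) {ι : Cm e →L[ℂ] Cm n}
    (hι : Iso R x₁ ι) : ∃ h : Cm n → ℂ, AnalyticOnNhd ℂ h U ∧ (∃ x ∈ U, h x ≠ 0) ∧
      ∀ x ∈ U, h x ≠ 0 → ∀ᶠ y : Cm n × Cm e in 𝓝 (x, 0), R y.1 (y.1 + ι y.2) → y.2 = 0 := by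
  obtain ⟨m, G, hG, hR, hR'⟩ := h.fin hU hU hx₁ hx₁
  have hμ : ∀ y : Cm n × Cm e, AnalyticAt ℂ (fun y : Cm n × Cm e => (y.1, y.1 + ι y.2)) y :=
    fun y => analyticAt_fst.prod (analyticAt_fst.add ((ι.analyticAt _).comp analyticAt_snd))
  obtain ⟨h, hh, hh0, hI⟩ := P284Z.G.ui (Cm n) e m U (fun s y => G s (y.1, y.1 + ι y.2)) x₁ hU hc
    hx₁ (fun s x hx => (hG s (x, x) ⟨hx, hx⟩).comp_of_eq (hμ _) (by simp)) (by
      have t1 : Tendsto (fun t : Cm e => (x₁, x₁ + ι t)) (𝓝 0) (𝓝 (x₁, x₁)) := by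
        have : Continuous fun t : Cm e => (x₁, x₁ + ι t) := by fun_prop
        simpa using this.tendsto 0
      filter_upwards [hι, t1.eventually hR'] with t ht ht' h0
      exact ht (ht' h0))
  refine ⟨h, hh, hh0, fun x hx h0 => ?_⟩
  filter_upwards [hI x hx h0, (hμ (x, 0)).continuousAt.eventually
    ((hU.prod hU).mem_nhds (by simp [hx]))] with y h1 h2 h3
  exact h1 (hR _ h2.1 _ h2.2 h3)

/-- isolation at a given point from uniform isolation -/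
theorem iso_of_ui {n e : ℕ} {R : Cm n → Cm n → Prop} {x : Cm n} {ι : Cm e →L[ℂ] Cm n}
    (h : ∀ᶠ y : Cm n × Cm e in 𝓝 (x, 0), R y.1 (y.1 + ι y.2) → y.2 = 0) : Iso R x ι :=
  ((continuous_const.prodMk continuous_id).tendsto (0 : Cm e)).eventually h

/-- the flow box from the graph -/
theorem box2_of {n d e : ℕ} {R₀ R₂ : Cm n → Cm n → Prop} {x₀ : Cm n} {V : Set (Cm n)}
    (A : (Cm d × Cm e) ≃L[ℂ] Cm n) {r₀ : ℝ} (hr₀ : 0 < r₀)
    (h02 : ∀ x ∈ V, ∀ y ∈ V, R₀ x y → R₂ x y)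
    (hV : ∀ w ∈ ball (0 : Cm d × Cm e) r₀, x₀ + A w ∈ V)
    (hu : ∀ t t' : Cm e, ‖t‖ < r₀ → ‖t'‖ < r₀ → R₂ (x₀ + A (0, t)) (x₀ + A (0, t')) → t = t')
    {τ : Cm d × Cm e → Cm e} (hτ : AnalyticAt ℂ τ 0) (hτ0 : τ 0 = 0)
    (hW : ∀ᶠ w : Cm d × Cm e in 𝓝 0, R₀ (x₀ + A (0, w.2)) (x₀ + A (w.1, τ w))) :
    Box2 R₀ R₂ d e x₀ V := by
  have hs : ∀ᶠ w : Cm d × Cm e in 𝓝 0, ‖τ w‖ < r₀ :=
    hτ.continuousAt.norm.eventually_lt continuousAt_const (by simpa [hτ0] using hr₀)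
  have t1 : Tendsto (fun t : Cm e => ((0, t) : Cm d × Cm e)) (𝓝 0) (𝓝 0) :=
    (continuous_const.prodMk continuous_id).tendsto 0
  have h0 : ∀ t : Cm e, ‖t‖ < r₀ → ‖τ (0, t)‖ < r₀ → R₀ (x₀ + A (0, t)) (x₀ + A (0, τ (0, t))) →
      τ (0, t) = t := fun t h1 h2 h3 =>
    (hu _ _ h1 h2 (h02 _ (hV _ (by simpa [hr₀] using h1)) _ (hV _ (by simpa [hr₀] using h2)) h3)).symm
  have h1 : (fun t : Cm e => τ (0, t)) =ᶠ[𝓝 0] id := by
    filter_upwards [t1.eventually hs, t1.eventually hW, ball_mem_nhds (0 : Cm e) hr₀]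
      with t h1 h2 h3
    exact h0 t (mem_ball_zero_iff.1 h3) h1 h2
  have h2 : ∀ t, fderiv ℂ τ 0 (0, t) = t := by
    intro t
    have e1 : HasFDerivAt (fun t : Cm e => τ (0, t)) (fderiv ℂ τ 0 ∘L .inr ℂ (Cm d) (Cm e)) 0 :=
      HasFDerivAt.comp (f := fun t : Cm e => ((0, t) : Cm d × Cm e)) 0
        hτ.differentiableAt.hasFDerivAt (hasFDerivAt_prodMk_right 0 0)
    exact DFunLike.congr_fun (e1.unique ((hasFDerivAt_id 0).congr_of_eventuallyEq h1)) t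
  set Φ : Cm d × Cm e → Cm n := fun w => x₀ + A (w.1, τ w) with hΦ
  have hΦa : AnalyticAt ℂ Φ 0 :=
    analyticAt_const.add ((A.analyticAt _).comp (analyticAt_fst.prod hτ))
  have hΦ0 : Φ 0 = x₀ := by simp [hΦ, hτ0, Prod.mk_zero_zero]
  set L : (Cm d × Cm e) →L[ℂ] Cm n :=
    (A : _ →L[ℂ] _) ∘L ((ContinuousLinearMap.fst ℂ _ _).prod (fderiv ℂ τ 0)) with hL
  have hΦd : HasFDerivAt Φ L 0 :=
    (A.hasFDerivAt.comp 0 (hasFDerivAt_fst.prodMk hτ.differentiableAt.hasFDerivAt)).const_add x₀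
  have hLi : Function.Injective L := by
    rw [injective_iff_map_eq_zero]
    rintro ⟨a, t⟩ h0
    have h3 : (a, fderiv ℂ τ 0 (a, t)) = 0 := A.map_eq_zero_iff.1 h0
    obtain ⟨rfl, h4⟩ := Prod.mk_eq_zero.1 h3
    rw [h2] at h4
    rw [h4]
    rfl
  set L' : (Cm d × Cm e) ≃L[ℂ] Cm n := (L.toLinearMap.linearEquivOfInjective hLi
    A.toLinearEquiv.finrank_eq).toContinuousLinearEquiv
  have hL' : fderiv ℂ Φ 0 = L' := by
    rw [hΦd.fderiv]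
    rfl
  have hst : HasStrictFDerivAt Φ (L' : _ →L[ℂ] _) 0 := hL' ▸ hΦa.hasStrictFDerivAt
  set Φ₀ := hst.toOpenPartialHomeomorph Φ
  have hm : (0 : Cm d × Cm e) ∈ Φ₀.source := hst.mem_toOpenPartialHomeomorph_source
  have hsa : AnalyticAt ℂ Φ₀.symm (Φ 0) := Φ₀.analyticAt_symm' hm hΦa hL'
  obtain ⟨r, hr, hb⟩ := Metric.eventually_nhds_iff_ball.1 ((hΦa.continuousAt.eventually
    hsa.eventually_analyticAt).and (hΦa.eventually_analyticAt.and (hW.and (hs.and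
      ((Φ₀.open_source.eventually_mem hm).and (ball_mem_nhds (0 : Cm d × Cm e) hr₀))))))
  have hsrc : ∀ x ∈ (Φ₀.restrOpen _ (isOpen_ball (x := 0) (ε := r))).symm.source,
      Φ₀.symm x ∈ ball (0 : Cm d × Cm e) r ∧ Φ (Φ₀.symm x) = x := fun x hx =>
    ⟨hx.2, Φ₀.right_inv hx.1⟩
  have hn : ∀ w ∈ ball (0 : Cm d × Cm e) r, ‖w.2‖ < r₀ ∧ Φ w ∈ V := by
    intro w hw
    obtain ⟨-, -, -, e1, -, e2⟩ := hb w hw
    have e3 := mem_ball_zero_iff.1 e2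
    refine ⟨(norm_snd_le w).trans_lt e3, hV _ ?_⟩
    simpa [e1] using (norm_fst_le w).trans_lt e3
  have hm0 : ∀ t ∈ ball (0 : Cm e) r, ((0, t) : Cm d × Cm e) ∈ ball 0 r := fun t ht => by
    simpa [hr] using ht
  have hsl : ∀ t ∈ ball (0 : Cm e) r, Φ (0, t) = x₀ + A (0, t) := fun t ht => by
    obtain ⟨-, -, e1, e2, -⟩ := hb _ (hm0 t ht)
    simp only [hΦ, h0 t (hn _ (hm0 t ht)).1 e2 e1]
  refine ⟨(Φ₀.restrOpen _ (isOpen_ball (x := 0) (ε := r))).symm, r,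
    (A : (Cm d × Cm e) →L[ℂ] Cm n) ∘L .inr ℂ (Cm d) (Cm e), hr, ?_, ?_, ?_, fun x hx => ?_,
    fun x hx => ?_, fun w hw => (hb w hw).2.1, fun t t' h => ?_, fun t ht => hsl t ht, fun w hw => ?_,
    fun t ht t' ht' h => ?_⟩
  · exact inter_eq_right.2 fun w hw => (hb w hw).2.2.2.2.1
  · rw [← hΦ0]
    exact (Φ₀.restrOpen _ isOpen_ball).map_source ⟨hm, mem_ball_self hr⟩
  · rw [← hΦ0]
    exact Φ₀.left_inv hm
  · rw [← (hsrc x hx).2]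
    exact (hn _ (hsrc x hx).1).2
  · have := (hb _ (hsrc x hx).1).1
    rwa [(hsrc x hx).2] at this
  · exact congrArg Prod.snd (A.injective h)
  · change R₀ (Φ (0, w.2)) (Φ w)
    rw [hsl _ (mem_ball_zero_iff.2 ((norm_snd_le w).trans_lt (mem_ball_zero_iff.1 hw)))]
    exact (hb w hw).2.2.1
  · change R₂ (Φ (0, t)) (Φ (0, t')) at h
    rw [hsl t ht, hsl t' ht'] at h
    exact hu _ _ (hn _ (hm0 t ht)).1 (hn _ (hm0 t' ht')).1 h

theorem loc3 : Loc3St := by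
  classical
  rintro n d e U R₀ R₂ hd hU hc hR₀ hR₂ hrefl hrefl₂ ⟨x₁, hx₁, ι, hι⟩ hmax
  obtain ⟨d', A, hd', hA⟩ := exists_frame (hι.inj (hrefl₂ _ hx₁))
  obtain rfl : d = d' := by omega
  obtain ⟨h, hh, hh0, hI⟩ := hR₂.ui hU hc hx₁ hι
  refine ⟨h, hh, hh0, fun x₀ hx₀ h0 V hV htr => ?_⟩
  obtain ⟨m, G, hG, hR, hR'⟩ := hR₀.fin hU hU hx₀ hx₀
  obtain ⟨ρ, hρ, hb⟩ := Metric.eventually_nhds_iff_ball.1 (hI x₀ hx₀ h0)
  have hcA : ContinuousAt (fun w : Cm d × Cm e => x₀ + A w) 0 := by fun_prop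
  obtain ⟨r₀, hr₀, hb₀⟩ := Metric.eventually_nhds_iff_ball.1 ((hcA.eventually
    (p := fun x => x ∈ ball x₀ ρ ∧ x ∈ U ∧ x ∈ V) (by
      simp only [map_zero, add_zero]
      exact inter_mem (ball_mem_nhds _ hρ) (inter_mem (hU.mem_nhds hx₀) hV))).and
    (ball_mem_nhds (0 : Cm d × Cm e) (half_pos hρ)))
  have hm : ∀ w ∈ ball (0 : Cm d × Cm e) r₀, ∀ t : Cm e, ‖t‖ < ρ →
      (x₀ + A w, t) ∈ ball ((x₀, 0) : Cm n × Cm e) ρ := fun w hw t ht => by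
    rw [mem_ball, Prod.dist_eq, max_lt_iff]
    exact ⟨(hb₀ w hw).1.1, by simpa using ht⟩
  have hUV : ∀ w ∈ ball (0 : Cm d × Cm e) r₀, x₀ + A w ∈ U ∧ x₀ + A w ∈ V := fun w hw =>
    (hb₀ w hw).1.2
  have h02 : ∀ x ∈ U ∩ V, ∀ y ∈ U ∩ V, R₀ x y → R₂ x y := fun x hx y hy h =>
    htr x hx.2 x hx.2 y hy.2 (hrefl x hx.1) h
  have hu : ∀ a t t', (a, t) ∈ ball (0 : Cm d × Cm e) r₀ → (a, t') ∈ ball (0 : Cm d × Cm e) r₀ →
      R₂ (x₀ + A (a, t)) (x₀ + A (a, t')) → t = t' := by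
    intro a t t' ht ht' hr
    have e1 : ‖t' - t‖ < ρ := by
      have f1 := (norm_snd_le (a, t)).trans_lt (mem_ball_zero_iff.1 (hb₀ _ ht).2)
      have f2 := (norm_snd_le (a, t')).trans_lt (mem_ball_zero_iff.1 (hb₀ _ ht').2)
      linarith [norm_sub_le t' t]
    have e4 : x₀ + A (a, t) + ι (t' - t) = x₀ + A (a, t') := by
      rw [← hA, add_assoc, ← map_add]
      simp
    exact (sub_eq_zero.1 (hb _ (hm _ ht _ e1) (by rwa [← e4] at hr))).symm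
  have hs : ∀ y ∈ ball (0 : (Cm d × Cm e) × Cm e) r₀, ((0, y.1.2) : Cm d × Cm e) ∈ ball 0 r₀ ∧
      (y.1.1, y.2) ∈ ball (0 : Cm d × Cm e) r₀ := by
    intro y hy
    simp only [mem_ball_zero_iff, Prod.norm_def, max_lt_iff] at hy ⊢
    exact ⟨⟨by simpa using hr₀, hy.1.2⟩, hy.1.1, hy.2⟩
  have hκ : AnalyticAt ℂ (fun y : (Cm d × Cm e) × Cm e =>
      (x₀ + A (0, y.1.2), x₀ + A (y.1.1, y.2))) 0 :=
    (analyticAt_const.add ((A.analyticAt _).comp (analyticAt_const.prod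
      (analyticAt_snd.comp analyticAt_fst)))).prod (analyticAt_const.add ((A.analyticAt _).comp
        ((analyticAt_fst.comp analyticAt_fst).prod analyticAt_snd)))
  obtain ⟨τ, hτ, hτ0, hW⟩ := gr (Cm d × Cm e) e m
    (fun s y => G s (x₀ + A (0, y.1.2), x₀ + A (y.1.1, y.2)))
    {y | y ∈ ball 0 r₀ ∧ R₀ (x₀ + A (0, y.1.2)) (x₀ + A (y.1.1, y.2))} 0
    (fun s => (hG s (x₀, x₀) ⟨hx₀, hx₀⟩).comp_of_eq hκ (by simp [Prod.mk_zero_zero]))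
    (by
      filter_upwards [ball_mem_nhds _ hr₀, hκ.continuousAt.eventually
        (p := fun q => (∀ s, G s q = 0) → R₀ q.1 q.2) (by simpa [Prod.mk_zero_zero] using hR')]
        with y hy hy'
      exact ⟨fun h => hR _ (hUV _ (hs y hy).1).1 _ (hUV _ (hs y hy).2).1 h.2, fun h => ⟨hy, hy' h⟩⟩)
    ⟨mem_ball_self hr₀, hrefl _ (hUV _ (mem_ball_self hr₀)).1⟩
    (fun w t t' h1 h2 => hu w.1 t t' (hs _ h1.1).2 (hs _ h2.1).2
      (htr _ (hUV _ (hs _ h1.1).1).2 _ (hUV _ (hs _ h1.1).2).2 _ (hUV _ (hs _ h2.1).2).2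
        h1.2 h2.2))
    (fun N hN hNW => by
      obtain ⟨r₁, hr₁, hb₁⟩ := Metric.eventually_nhds_iff_ball.1 (hNW.and
        ((continuousAt_fst.eventually hN.eventually_analyticAt).and (ball_mem_nhds _ hr₀)))
      filter_upwards [ball_mem_nhds _ hr₁] with w hw
      obtain ⟨a, t⟩ := w
      have hw' : ‖a‖ < r₁ ∧ ‖t‖ < r₁ := by simpa [Prod.norm_def] using hw
      have hk : ((0, t), t) ∈ ball (0 : (Cm d × Cm e) × Cm e) r₁ := by
        simp [Prod.norm_def, hw'.2]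
      have hD : Convex ℝ {s : ℂ | ‖s • a‖ < r₁} := by
        simpa only [preimage, mem_ball_zero_iff] using
          (convex_ball (0 : Cm d) r₁).is_linear_preimage (f := fun s : ℂ => s • a)
            ⟨fun x y => add_smul x y a, fun c x => smul_assoc c x a⟩
      have han : AnalyticOnNhd ℂ (fun s : ℂ => N (s • a, t)) {s : ℂ | ‖s • a‖ < r₁} := fun s hs =>
        (hb₁ ((s • a, t), 0) (by simpa [Prod.norm_def, hr₁, hw'.2] using hs)).2.1.comp_of_eq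
          ((analyticAt_id.smul analyticAt_const).prod analyticAt_const) rfl
      set ι' : Cm (e + 1) →L[ℂ] Cm n := (A : _ →L[ℂ] _) ∘L
        (((ContinuousLinearMap.proj 0 : Cm (e + 1) →L[ℂ] ℂ).smulRight a).prod
          (ContinuousLinearMap.pi fun i : Fin e => ContinuousLinearMap.proj i.succ)) with hι'
      have e1 : ∀ u, x₀ + A (0, t) + ι' u = x₀ + A (u 0 • a, t + Fin.tail u) := by
        intro u
        have : ι' u = A (u 0 • a, Fin.tail u) := rfl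
        rw [this, add_assoc, ← map_add]
        simp
      have e2 : ¬ Iso R₀ (x₀ + A (0, t)) ι' := hmax _ (hUV _ (hs _ (hb₁ _ hk).2.2).1).1 ι'
      have e3 : ∀ᶠ u : Cm (e + 1) in 𝓝 0, ((u 0 • a, t), t + Fin.tail u) ∈
          ball (0 : (Cm d × Cm e) × Cm e) r₁ := by
        have : Continuous fun u : Cm (e + 1) => ((u 0 • a, t), t + Fin.tail u) :=
          (((continuous_apply 0).smul continuous_const).prodMk continuous_const).prodMk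
            (continuous_const.add (continuous_pi fun i => continuous_apply _))
        refine this.continuousAt.eventually (isOpen_ball.mem_nhds ?_)
        have e4 : Fin.tail (0 : Cm (e + 1)) = 0 := rfl
        simpa [e4] using hk
      have e5 : ∃ᶠ u : Cm (e + 1) in 𝓝 0, N (u 0 • a, t) = 0 ∧ u 0 ∈ ({0}ᶜ : Set ℂ) := by
        refine ((not_eventually.1 e2).and_eventually e3).mono fun u ⟨h1, h2⟩ => ?_
        rw [Classical.not_imp, e1] at h1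
        obtain ⟨f1, -, f2⟩ := hb₁ _ h2
        refine ⟨f1 ⟨f2, h1.1⟩, fun (h3 : u 0 = 0) => h1.2 ?_⟩
        have f3 := hs _ f2
        simp only [h3, zero_smul] at f3 h1
        have f4 := left_eq_add.1 (hu 0 _ _ f3.1 f3.2 (h02 _ (hUV _ f3.1) _ (hUV _ f3.2) h1.1))
        funext i
        exact Fin.cases h3 (fun i => congrFun f4 i) i
      have e6 : ∃ᶠ s in 𝓝[≠] (0 : ℂ), N (s • a, t) = 0 :=
        frequently_nhdsWithin_iff.2 (((continuous_apply 0).tendsto (0 : Cm (e + 1))).frequently e5)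
      simpa using han.eqOn_zero_of_preconnected_of_frequently_eq_zero hD.isPreconnected
        (z₀ := 0) (by simpa using hr₁) e6 (x := 1) (by simpa using hw'.1))
  obtain ⟨Ψ, r, ι₀, b1, b2, b3, b4, b5, b6⟩ := box2_of (V := U ∩ V) A hr₀ h02 hUV
    (fun t t' h1 h2 => hu 0 t t' (by simp [h1]) (by simp [h2])) hτ hτ0 (hW.mono fun w hw => hw.2)
  exact ⟨Ψ, r, ι₀, b1, b2, b3, b4, b5.trans inter_subset_right, b6⟩

theorem loc2 : Loc2St := by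
  rintro n e m₀ m₂ U G₀ G₂ R₀ R₁ R₂ hU hc hG₀ hG₂ hR₀ hR₂ hrefl hrefl₂ ⟨x₁, hx₁, ι, hι⟩ hmax
  obtain ⟨d, -, hd, -⟩ := exists_frame (hι.inj (hrefl₂ _ hx₁))
  obtain ⟨h, hh, hh0, hb⟩ := loc3 n d e U R₀ R₂ hd hU hc
    ⟨range G₀, forall_mem_range.2 hG₀, fun x hx y hy => by rw [forall_mem_range, hR₀ x hx y hy]⟩
    ⟨range G₂, forall_mem_range.2 hG₂, fun x hx y hy => by rw [forall_mem_range, hR₂ x hx y hy]⟩
    hrefl hrefl₂ ⟨x₁, hx₁, ι, hι⟩ hmax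
  refine ⟨d, h, hd, hh, hh0, fun x₀ hx₀ h0 V hV h1 h2 h3 => ?_⟩
  obtain ⟨Ψ, r, ι₀, b1, b2, b3, b4, b5, b6, b7, b8, b9, b10, b11⟩ := hb x₀ hx₀ h0 V hV
    fun p hp x hx y hy e1 e2 => h3 x hx y hy (h1 p hp x hx y hy e1 e2)
  refine ⟨Ψ, r, ι₀, b1, b2, b3, b4, b5, b6, b7, b8, b9, b10, fun x hx y hy => ?_⟩
  have key : ∀ x ∈ Ψ.source, (Ψ x).2 ∈ ball (0 : Cm e) r ∧ Ψ.symm (0, (Ψ x).2) ∈ V ∧
      R₀ (Ψ.symm (0, (Ψ x).2)) x := fun x hx => by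
    have e1 : Ψ x ∈ ball (0 : Cm d × Cm e) r := b2 ▸ Ψ.map_source hx
    have e2 := (norm_snd_le (Ψ x)).trans_lt (mem_ball_zero_iff.1 e1)
    have e3 := b10 _ e1
    rw [Ψ.left_inv hx] at e3
    exact ⟨mem_ball_zero_iff.2 e2, b5 (Ψ.map_target (b2 ▸ by simpa [b1] using e2)), e3⟩
  obtain ⟨x1, x2, x3⟩ := key x hx
  obtain ⟨y1, y2, y3⟩ := key y hy
  exact ⟨fun h => b11 _ x1 _ y1 (h2 _ x2 _ (b5 hx) _ (b5 hy) _ y2 x3 h y3),
    fun h => h1 _ x2 _ (b5 hx) _ (b5 hy) x3 (h ▸ y3)⟩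

end Vale.Agent.P284Y.Lib
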