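import Vale.Agent.P284Z.G.Loc

/-!
# P284Y, library: flow boxes from three relations (statement)
-/

open scoped Topology
open Filter Set Metric

namespace Vale.Agent.P284Y.Lib

open Vale.Agent.P272.K Vale.Agent.P284Z.G

/-- A flow box centred at `x₀`, inside `V`, with an affine slice: the points of a plaque are `R₀`-related
to the point of the slice, and `R₁` is the relation of being on the same plaque. -/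
def Box₂ {n : ℕ} (R₀ R₁ : Cm n → Cm n → Prop) (d q : ℕ) (x₀ : Cm n) (V : Set (Cm n)) : Prop :=
  ∃ (Ψ : OpenPartialHomeomorph (Cm n) (Cm d × Cm q)) (r : ℝ) (ι : Cm q →L[ℂ] Cm n), 0 < r ∧
    Ψ.target = ball 0 r ∧ x₀ ∈ Ψ.source ∧ Ψ x₀ = 0 ∧ Ψ.source ⊆ V ∧ AnalyticOnNhd ℂ Ψ Ψ.source ∧
    AnalyticOnNhd ℂ Ψ.symm (ball 0 r) ∧ Function.Injective ι ∧
    (∀ t ∈ ball (0 : Cm q) r, Ψ.symm (0, t) = x₀ + ι t) ∧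
    (∀ u ∈ ball (0 : Cm d × Cm q) r, R₀ (Ψ.symm (0, u.2)) (Ψ.symm u)) ∧
    ∀ x ∈ Ψ.source, ∀ y ∈ Ψ.source, R₁ x y ↔ (Ψ x).2 = (Ψ y).2

/-- **LOC2** -/
def Loc2St : Prop :=
  ∀ (n e m₀ m₂ : ℕ) (U : Set (Cm n)) (G₀ : Fin m₀ → Cm n × Cm n → ℂ) (G₂ : Fin m₂ → Cm n × Cm n → ℂ)
    (R₀ R₁ R₂ : Cm n → Cm n → Prop), IsOpen U → IsPreconnected U →
    (∀ s, AnalyticOnNhd ℂ (G₀ s) (U ×ˢ U)) → (∀ s, AnalyticOnNhd ℂ (G₂ s) (U ×ˢ U)) →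
    (∀ x ∈ U, ∀ y ∈ U, R₀ x y ↔ ∀ s, G₀ s (x, y) = 0) →
    (∀ x ∈ U, ∀ y ∈ U, R₂ x y ↔ ∀ s, G₂ s (x, y) = 0) →
    (∀ x ∈ U, R₀ x x) → (∀ x ∈ U, R₂ x x) →
    (∃ x ∈ U, ∃ ι : Cm e →L[ℂ] Cm n, Iso R₂ x ι) →
    (∀ x ∈ U, ∀ ι : Cm (e + 1) →L[ℂ] Cm n, ¬ Iso R₀ x ι) →
    ∃ (d : ℕ) (h : Cm n → ℂ), d + e = n ∧ AnalyticOnNhd ℂ h U ∧ (∃ x ∈ U, h x ≠ 0) ∧
      ∀ x₀ ∈ U, h x₀ ≠ 0 → ∀ V ∈ 𝓝 x₀,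
        (∀ p ∈ V, ∀ x ∈ V, ∀ y ∈ V, R₀ p x → R₀ p y → R₁ x y) →
        (∀ p ∈ V, ∀ x ∈ V, ∀ y ∈ V, ∀ p' ∈ V, R₀ p x → R₁ x y → R₀ p' y → R₂ p p') →
        (∀ x ∈ V, ∀ y ∈ V, R₁ x y → R₂ x y) → Box₂ R₀ R₁ d e x₀ V

end Vale.Agent.P284Y.Lib
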