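import Vale.Agent.P284Z.F0.Psh
import Vale.Agent.P284Z.J.Spec

/-!
# P284Y, library: statements

Minimum principle of Kiselman, attenuation, gluing lemma of Demailly, regularisation of Richberg, area
formula with multiplicities.
-/

open scoped ContDiff Topology ComplexOrder ENNReal
open Filter Set Function Metric MeasureTheory

noncomputable section

namespace Vale.Agent.P284Y.Lib

open Vale.Agent.P272.K Vale.Agent.P284Z

/-- the real part of a vector -/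
def reV {k : ℕ} (ζ : Cm k) : Fin k → ℝ := fun i => (ζ i).re

/-- **CVX**: a plurisubharmonic function of the real part is convex. -/
def CvxSt : Prop :=
  ∀ (k : ℕ) (C : Set (Fin k → ℝ)) (u : (Fin k → ℝ) → ℝ), IsOpen C → Convex ℝ C →
    Psh (fun ζ : Cm k => u (reV ζ)) (reV ⁻¹' C) → LB u C → ConvexOn ℝ C u

/-- **KIS**: the minimum principle. -/
structure KisSt : Prop where
  psh : ∀ (W : Type) [NormedAddCommGroup W] [NormedSpace ℂ W] [FiniteDimensional ℂ W] (k : ℕ)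
    (U : Set W) (C : Set (Fin k → ℝ)) (u : W → (Fin k → ℝ) → ℝ), IsOpen U → IsOpen C → Convex ℝ C →
    C.Nonempty → Psh (fun q : W × Cm k => u q.1 (reV q.2)) (U ×ˢ (reV ⁻¹' C)) →
    (∀ z ∈ U, ∃ c, ∀ᶠ z' in 𝓝 z, ∀ t ∈ C, c ≤ u z' t) → Psh (fun z => ⨅ t : C, u z t) U
  lpsh : ∀ (W : Type) [NormedAddCommGroup W] [NormedSpace ℂ W] [FiniteDimensional ℂ W] (k : ℕ)
    (U : Set W) (C : Set (Fin k → ℝ)) (P : W → (Fin k → ℝ) → ℝ), IsOpen U → IsOpen C → Convex ℝ C →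
    C.Nonempty → LPsh (fun q : W × Cm k => P q.1 (reV q.2)) (U ×ˢ (reV ⁻¹' C)) →
    LPsh (fun z => ⨅ t : C, P z t) U
  /-- one variable, strips and half planes -/
  psh₁ : ∀ (W : Type) [NormedAddCommGroup W] [NormedSpace ℂ W] [FiniteDimensional ℂ W]
    (U : Set W) (C : Set ℝ) (u : W → ℝ → ℝ), IsOpen U → IsOpen C → Convex ℝ C →
    C.Nonempty → Psh (fun q : W × ℂ => u q.1 q.2.re) (U ×ˢ (Complex.re ⁻¹' C)) →
    (∀ z ∈ U, ∃ c, ∀ᶠ z' in 𝓝 z, ∀ t ∈ C, c ≤ u z' t) → Psh (fun z => ⨅ t : C, u z t) U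
  lpsh₁ : ∀ (W : Type) [NormedAddCommGroup W] [NormedSpace ℂ W] [FiniteDimensional ℂ W]
    (U : Set W) (C : Set ℝ) (P : W → ℝ → ℝ), IsOpen U → IsOpen C → Convex ℝ C →
    C.Nonempty → LPsh (fun q : W × ℂ => P q.1 q.2.re) (U ×ˢ (Complex.re ⁻¹' C)) →
    LPsh (fun z => ⨅ t : C, P z t) U
  /-- one variable, annuli -/
  rad : ∀ (W : Type) [NormedAddCommGroup W] [NormedSpace ℂ W] [FiniteDimensional ℂ W]
    (U : Set W) (a b : ℝ) (P : W → ℝ → ℝ), IsOpen U → 0 ≤ a → a < b →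
    LPsh (fun q : W × ℂ => P q.1 ‖q.2‖) (U ×ˢ {τ | a < ‖τ‖ ∧ ‖τ‖ < b}) →
    LPsh (fun z => ⨅ r : Ioo a b, P z r) U

section att
variable {W V : Type} [NormedAddCommGroup W] [NormedSpace ℂ W] [NormedAddCommGroup V]
  [NormedSpace ℂ V]

/-- the supremum of `P` on the ball of radius `r` in the directions `L` -/
def sb (P : W → ℝ) (L : V →L[ℂ] W) (r : ℝ) (z : W) : ℝ := ⨆ h : closedBall (0 : V) r, P (z + L h)

/-- the attenuation of `P` in the directions `L`, between the radii `a` and `b` -/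
def att (P : W → ℝ) (L : V →L[ℂ] W) (c a b : ℝ) (z : W) : ℝ :=
  ⨅ r : Ioo a b, sb P L r z * (b / r) ^ c

end att

/-- **ATT**: attenuation of the singularities. -/
def AttSt : Prop :=
  ∀ (W V : Type) [NormedAddCommGroup W] [NormedSpace ℂ W] [FiniteDimensional ℂ W]
    [NormedAddCommGroup V] [NormedSpace ℂ V] [FiniteDimensional ℂ V] (P : W → ℝ) (L : V →L[ℂ] W)
    (c a b : ℝ) (U O : Set W), IsOpen U → IsOpen O → LPsh P U → 0 ≤ c → 0 ≤ a → a < b →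
    (∀ z ∈ O, ∀ h : V, ‖h‖ ≤ b → z + L h ∈ U) →
    LPsh (fun q : W × ℂ => sb P L ‖q.2‖ q.1) (O ×ˢ ball 0 b) ∧ LPsh (att P L c a b) O ∧
    (∀ r ∈ Icc 0 b, LPsh (sb P L r) O) ∧
    (∀ z ∈ O, ∀ r ∈ Icc 0 b, (∀ h : V, ‖h‖ ≤ r → P (z + L h) ≤ sb P L r z) ∧
      ∃ h : V, ‖h‖ ≤ r ∧ sb P L r z = P (z + L h)) ∧
    (∀ z ∈ O, sb P L a z ≤ att P L c a b z ∧ att P L c a b z ≤ sb P L b z ∧
      ∀ r ∈ Ioc a b, att P L c a b z ≤ sb P L r z * (b / r) ^ c) ∧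
    (ContinuousOn P U → 0 < a → ContinuousOn (att P L c a b) O)

/-- the square of the gradient of `θ` on the complex line of `w` -/
def gr2 {W : Type} [NormedAddCommGroup W] [NormedSpace ℂ W] (θ : W → ℝ) (z w : W) : ℝ :=
  fderiv ℝ θ z w ^ 2 + fderiv ℝ θ z (Complex.I • w) ^ 2

/-- **DG**: the gluing lemma, at a point. -/
def DgSt : Prop :=
  ∀ (W : Type) [NormedAddCommGroup W] [NormedSpace ℂ W] (ι : Type) (s : Finset ι)
    (θ u : ι → W → ℝ) (z : W), (∀ i ∈ s, ContDiffAt ℝ ∞ (θ i) z) →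
    (∀ i ∈ s, ContDiffAt ℝ ∞ (u i) z ∨ θ i =ᶠ[𝓝 z] 0) → (∃ i ∈ s, θ i z ≠ 0) →
    ContDiffAt ℝ ∞ (fun y => Real.log (∑ i ∈ s, θ i y ^ 2 * Real.exp (u i y))) z ∧
    ∀ w, ∑ i ∈ s, Real.exp (u i z) *
        (θ i z ^ 2 * levi (u i) z w + 2 * θ i z * levi (θ i) z w - 2 * gr2 (θ i) z w) ≤
      (∑ i ∈ s, θ i z ^ 2 * Real.exp (u i z)) *
        levi (fun y => Real.log (∑ i ∈ s, θ i y ^ 2 * Real.exp (u i y))) z w

section cov
variable {n : ℕ} {Γ E : Type} [Group Γ] [TopologicalSpace E] [MulAction Γ E] (C : Cov n Γ E)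

/-- `f` is `A ω`-plurisubharmonic on `Ω` -/
def QP (A : ℝ) (f : E → ℝ) (Ω : Set E) : Prop :=
  ∀ γ a, Psh (fun z => A * C.ρ a z + f (C.pt γ a z)) {z ∈ C.B 4 a | C.pt γ a z ∈ Ω}

/-- `f` is `A (ω + ω)`-plurisubharmonic -/
def QP₂ (A : ℝ) (f : E → E → ℝ) : Prop :=
  ∀ γ a γ' b, Psh (fun q : Cm n × Cm n => A * C.ρ a q.1 + A * C.ρ b q.2 +
    f (C.pt γ a q.1) (C.pt γ' b q.2)) (C.B 4 a ×ˢ C.B 4 b)

/-- `f` is smooth -/
def Sm₂ (f : E → E → ℝ) : Prop :=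
  ∀ γ a γ' b, ∀ q ∈ C.B 4 a ×ˢ C.B 4 b,
    ContDiffAt ℝ ∞ (fun q : Cm n × Cm n => f (C.pt γ a q.1) (C.pt γ' b q.2)) q

end cov

/-- **GL**: gluing of smooth local functions `u γ a`, which differ from each other by at most `δ`: the
loss of positivity is `K δ`. -/
def GlSt : Prop :=
  ∀ (n : ℕ) (Γ E : Type) [Group Γ] [Countable Γ] [TopologicalSpace E] [T2Space E] [MulAction Γ E]
    (C : Cov n Γ E), ∃ K > (0 : ℝ), ∀ (A δ : ℝ) (Ω : Set E) (u : Γ → C.I → Cm n → ℝ), 0 < δ →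
    IsOpen Ω →
    (∀ γ a, ∀ z ∈ C.B 2 a, C.pt γ a z ∈ Ω → ContDiffAt ℝ ∞ (u γ a) z ∧
      (cHess (fun w => A * C.ρ a w + u γ a w) z).PosSemidef) →
    (∀ γ a γ' b, ∀ z ∈ C.B 2 a, ∀ z' ∈ C.B 2 b, C.pt γ a z = C.pt γ' b z' → C.pt γ a z ∈ Ω →
      u γ a z ≤ u γ' b z' + δ) →
    ∃ g : E → ℝ, (∀ y ∈ Ω, C.SmAt g y) ∧
      (∀ γ a, ∀ z ∈ C.B 4 a, C.pt γ a z ∈ Ω → (C.om (A + K * δ) g γ a z).PosSemidef) ∧
      (∀ γ a, ∀ z ∈ C.B 2 a, C.pt γ a z ∈ Ω → |g (C.pt γ a z) - u γ a z| ≤ K * δ) ∧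
      ((∀ γ a, u γ a = u 1 a) → ∀ (γ : Γ) y, g (γ • y) = g y)

/-- **RICH**: regularisation of continuous functions. -/
structure RichSt : Prop where
  one : ∀ (n : ℕ) (Γ E : Type) [Group Γ] [Countable Γ] [TopologicalSpace E] [T2Space E]
    [MulAction Γ E] (C : Cov n Γ E) (A : ℝ) (f : E → ℝ), Continuous f → QP C A f univ →
    ∀ ε > (0 : ℝ), ∃ g : E → ℝ, (∀ y, C.SmAt g y) ∧
      (∀ γ a, ∀ z ∈ C.B 4 a, (C.om (A + ε) g γ a z).PosSemidef) ∧ (∀ y, |g y - f y| ≤ ε) ∧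
      ((∀ (γ : Γ) y, f (γ • y) = f y) → ∀ (γ : Γ) y, g (γ • y) = g y)
  two : ∀ (n : ℕ) (Γ E : Type) [Group Γ] [Countable Γ] [TopologicalSpace E] [T2Space E]
    [MulAction Γ E] (C : Cov n Γ E) (A : ℝ) (f : E → E → ℝ), Continuous (uncurry f) → QP₂ C A f →
    (∀ (γ : Γ) x y, f (γ • x) (γ • y) = f x y) → (∀ x y, f x y = f y x) →
    ∀ ε > (0 : ℝ), ∃ g : E → E → ℝ, Sm₂ C g ∧ QP₂ C (A + ε) g ∧ (∀ x y, |g x y - f x y| ≤ ε) ∧
      (∀ (γ : Γ) x y, g (γ • x) (γ • y) = g x y) ∧ ∀ x y, g x y = g y x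

/-- **AREA**: the area formula with multiplicities for holomorphic maps. -/
structure AreaSt : Prop where
  gen : ∀ (n : ℕ) (U : Set (Cm n)) (Θ : Cm n → Cm n), IsOpen U → AnalyticOnNhd ℂ Θ U →
    ∀ f : Cm n → ℝ≥0∞, Measurable f →
      ∫⁻ z in U, ENNReal.ofReal (‖(jm Θ z).det‖ ^ 2) * f z =
        ∫⁻ w, ∑' z : {z // z ∈ U ∧ Θ z = w}, f z
  /-- the `k`-to-one case -/
  deg : ∀ (n k : ℕ) (U V : Set (Cm n)) (Θ : Cm n → Cm n), IsOpen U → AnalyticOnNhd ℂ Θ U →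
    MeasurableSet V → (∀ᵐ w, w ∈ V → {z ∈ U | Θ z = w}.encard = k) →
    ∀ g : Cm n → ℝ≥0∞, Measurable g →
      ∫⁻ z in U ∩ Θ ⁻¹' V, ENNReal.ofReal (‖(jm Θ z).det‖ ^ 2) * g (Θ z) = k * ∫⁻ w in V, g w
  /-- polynomials of one variable -/
  poly : ∀ (p : Polynomial ℂ) (g : ℂ → ℝ≥0∞), Measurable g → 1 ≤ p.natDegree →
    ∫⁻ w, ENNReal.ofReal (‖p.derivative.eval w‖ ^ 2) * g (p.eval w) = p.natDegree * ∫⁻ w, g w

end Vale.Agent.P284Y.Lib
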