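import Vale.Agent.P284Y.Lib.TM
import Vale.Agent.P284Z.K.Glue

/-!
# P284Y, library: comparison of Monge-Ampère masses in `ℂ^k`, application to the toric models
-/

open scoped ContDiff Topology ComplexOrder ENNReal Matrix
open Filter Set Function Metric MeasureTheory

noncomputable section

namespace Vale.Agent.P284Y.Lib

open Vale.Agent.P272.K Vale.Agent.P284Z Vale.Agent.P284Z.J Vale.Agent.P284Z.K

variable {k : ℕ} {D K : Set (Cm k)}

/-- the mass does not change under a perturbation with compact support -/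
theorem stokes {g v : Cm k → ℝ} (hD : IsOpen D) (hK : IsCompact K) (hKD : K ⊆ D) (hg : Sm D g)
    (hv : Sm D v) (h0 : ∀ z ∉ K, v z = 0) :
    ∫ z in D, ((cHess (fun w => g w + v w) z).det.re - (cHess g z).det.re) = 0 := by
  have h1 : ∀ s : Finset (Fin k), IntegrableOn (fun z => md (s.piecewise
      (fun _ => cHess (fun w => g w + v w) z) fun _ => cHess g z) - md fun _ => cHess g z) D ∧
      ∫ z in D, (md (s.piecewise (fun _ => cHess (fun w => g w + v w) z) fun _ => cHess g z) -
        md fun _ => cHess g z) = 0 := fun s => by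
    induction s using Finset.induction_on with
    | empty => simp
    | insert i s hi ih =>
      have h2 := ibp (X := s.piecewise (fun _ => cHess fun w => g w + v w) fun _ => cHess g) (k := i)
        hD (fun j _ => by
          by_cases h : j ∈ s
          · simpa [h] using (hg.add hv).cf
          · simpa [h] using hg.cf) hv (Sm.const 1) hK hKD fun z hz => .inr (by
          filter_upwards [hK.isClosed.isOpen_compl.mem_nhds hz] with w hw using h0 w hw)
      simp only [gg_const_left, map_zero, integral_zero, neg_zero, one_mul] at h2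
      have e : EqOn (fun z => md ((insert i s).piecewise (fun _ => cHess (fun w => g w + v w) z)
          fun _ => cHess g z) - md fun _ => cHess g z) (fun z => (md (s.piecewise
            (fun _ => cHess (fun w => g w + v w) z) fun _ => cHess g z) - md fun _ => cHess g z) +
          sl (fun j => s.piecewise (fun _ => cHess fun w => g w + v w) (fun _ => cHess g) j z) i
            (cHess v z)) D := fun z hz => by
        have e1 : (fun j => s.piecewise (fun _ => cHess fun w => g w + v w) (fun _ => cHess g) j z) =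
            s.piecewise (fun _ => cHess (fun w => g w + v w) z) fun _ => cHess g z := by
          ext1 j
          by_cases h : j ∈ s <;> simp [h]
        simp only [e1]
        rw [Finset.piecewise_insert, ← sl_apply, ← sl_self (s.piecewise _ _) i,
          Finset.piecewise_eq_of_notMem _ _ _ hi, C2.cHess_add (hg.two hz) (hv.two hz), map_add]
        ring
      refine ⟨(ih.1.add h2.1).congr_fun e.symm hD.measurableSet, ?_⟩
      rw [setIntegral_congr_fun hD.measurableSet e, integral_add ih.1 h2.1, ih.2, h2.2.2, add_zero]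
  have h2 := (h1 Finset.univ).2
  simp only [Finset.piecewise_univ, md_const, ← mul_sub, integral_const_mul] at h2
  exact (mul_eq_zero.1 h2).resolve_left (Nat.cast_ne_zero.2 k.factorial_ne_zero)

theorem det_re_nonneg {M : Mx k} (h : M.PosSemidef) : 0 ≤ M.det.re :=
  (Complex.nonneg_iff.1 h.det_nonneg).1

theorem cont_det {g : Cm k → ℝ} (hg : Sm D g) : ContinuousOn (fun z => (cHess g z).det.re) D := by
  have h := (sm_md (U := D) (X := fun _ : Fin k => cHess g) fun _ => hg.cf.sm).cont
  simp only [md_const] at h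
  have h1 : (k.factorial : ℝ) ≠ 0 := Nat.cast_ne_zero.2 k.factorial_ne_zero
  exact ((continuousOn_const (c := (k.factorial : ℝ)⁻¹)).mul h).congr fun z _ =>
    (inv_mul_cancel_left₀ h1 _).symm

theorem open_lt {a b : Cm k → ℝ} (hD : IsOpen D) (ha : ContinuousOn a D) (hb : ContinuousOn b D) :
    IsOpen {z ∈ D | b z < a z} :=
  (hb.prodMk ha).isOpen_inter_preimage hD isOpen_lt_prod

theorem mc_one {a b : Cm k → ℝ} (hD : IsOpen D) (hK : IsCompact K) (hKD : K ⊆ D)
    (ha : ∀ z ∈ D, SP a z) (hb : ∀ z ∈ D, SP b z) (h : {z ∈ D | b z < a z} ⊆ K) :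
    ∫⁻ z in {z ∈ D | b z + 3 < a z}, mad a z ≤ ∫⁻ z in {z ∈ D | b z < a z}, mad b z := by
  have sa : Sm D a := fun z hz => (ha z hz).sm
  have sb : Sm D b := fun z hz => (hb z hz).sm
  have hS := open_lt hD sa.cont sb.cont
  set R := gl D b fun w => a w - 2 with hR
  have hsp : ∀ z ∈ D, SP R z := fun z hz =>
    sp_gl hD (hb z hz) (fun _ => (ha z hz).sub_const 2) fun h => (h hz).elim
  have sR : Sm D R := fun z hz => (hsp z hz).sm
  have h1 := stokes (v := fun w => R w - b w) hD hK hKD sb (sR.sub sb) fun z hz => by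
    rw [hR, gl_left fun hz' => by linarith [not_lt.1 fun h' => hz (h ⟨hz', h'⟩)], sub_self]
  simp only [add_sub_cancel] at h1
  have hi : ∀ {g : Cm k → ℝ}, Sm D g → IntegrableOn (fun z => (cHess g z).det.re)
      {z ∈ D | b z < a z} := fun hg => (((cont_det hg).mono hKD).integrableOn_compact hK).mono_set h
  rw [setIntegral_eq_of_subset_of_forall_sdiff_eq_zero hD.measurableSet (sep_subset D fun z => b z < a z)
    fun z hz => ?_, integral_sub (hi sR) (hi sb), sub_eq_zero] at h1
  · have hl : ∀ {g : Cm k → ℝ}, (∀ z ∈ D, SP g z) → ∫⁻ z in {z ∈ D | b z < a z}, mad g z =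
        ENNReal.ofReal (∫ z in {z ∈ D | b z < a z}, (cHess g z).det.re) := fun hg =>
      (ofReal_integral_eq_lintegral_ofReal (hi fun z hz => (hg z hz).sm)
        ((ae_restrict_iff' hS.measurableSet).2
          (ae_of_all _ fun z hz => det_re_nonneg (hg z hz.1).psd))).symm
    rw [hl hb, ← h1, ← hl hsp]
    refine le_of_eq_of_le (setLIntegral_congr_fun
      (open_lt hD sa.cont (sb.add (Sm.const 3)).cont).measurableSet fun z hz => ?_)
      (lintegral_mono_set fun z hz => ⟨hz.1, by linarith [hz.2]⟩)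
    simp only [mad]
    rw [C2.cHess_congr (gl_ev hD hz.1 (hb z hz.1).cont ((ha z hz.1).sub_const 2).cont
      (by linarith [hz.2])), C2.cHess_sub (sa.two hz.1) contDiffAt_const, C2.cHess_const, sub_zero]
  · have h2 : a z ≤ b z := not_lt.1 fun h' => hz.2 ⟨hz.1, h'⟩
    rw [C2.cHess_congr (u := R) (v := b), sub_self]
    filter_upwards [(ha z hz.1).cont.eventually_lt ((hb z hz.1).add_const 1).cont (by linarith)]
      with w hw using gl_left fun _ => by linarith

/-- **comparison of masses** -/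
theorem mc_flat {a b : Cm k → ℝ} (hD : IsOpen D) (hK : IsCompact K) (hKD : K ⊆ D)
    (ha : ∀ z ∈ D, SP a z) (hb : ∀ z ∈ D, SP b z) (h : {z ∈ D | b z < a z} ⊆ K) :
    ∫⁻ z in {z ∈ D | b z < a z}, mad a z ≤ ∫⁻ z in {z ∈ D | b z < a z}, mad b z := by
  have sa : Sm D a := fun z hz => (ha z hz).sm
  have sb : Sm D b := fun z hz => (hb z hz).sm
  have e : {z ∈ D | b z < a z} = ⋃ j : ℕ, {z ∈ D | (j + 1) * b z + 3 < (j + 1) * a z} := by
    ext z
    simp only [mem_iUnion, mem_ofPred_eq]
    refine ⟨fun hz => ?_, fun ⟨j, h1, h2⟩ => ⟨h1, by nlinarith [j.cast_nonneg (α := ℝ)]⟩⟩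
    obtain ⟨j, hj⟩ := exists_nat_gt (3 / (a z - b z))
    rw [div_lt_iff₀ (sub_pos.2 hz.2)] at hj
    exact ⟨j, hz.1, by nlinarith [hz.2]⟩
  have hm : Monotone fun j : ℕ => {z ∈ D | (j + 1) * b z + 3 < (j + 1) * a z} :=
    fun i j hij z hz => ⟨hz.1, by
      have h1 : (i : ℝ) ≤ j := Nat.cast_le.2 hij
      have h2 : b z < a z := by nlinarith [hz.2, i.cast_nonneg (α := ℝ)]
      nlinarith [hz.2]⟩
  nth_rewrite 1 [e]
  rw [setLIntegral_iUnion_of_directed _ hm.directed_le]
  refine iSup_le fun j => ?_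
  have hj : (0 : ℝ) < j + 1 := by positivity
  have e2 : {z ∈ D | (j + 1) * b z < (j + 1) * a z} = {z ∈ D | b z < a z} := by
    simp only [mul_lt_mul_iff_right₀ hj]
  have h1 := mc_one hD hK hKD (fun z hz => (ha z hz).const_mul hj.le)
    (fun z hz => (hb z hz).const_mul hj.le) (e2 ▸ h)
  rw [e2, setLIntegral_congr_fun (open_lt hD ((Sm.const _).mul sa).cont
      (((Sm.const _).mul sb).add (Sm.const 3)).cont).measurableSet
      fun z hz => mad_smul hj.le (sa.two hz.1),
    setLIntegral_congr_fun (open_lt hD sa.cont sb.cont).measurableSet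
      fun z hz => mad_smul hj.le (sb.two hz.1),
    lintegral_const_mul' _ _ ENNReal.ofReal_ne_top, lintegral_const_mul' _ _ ENNReal.ofReal_ne_top] at h1
  exact (ENNReal.mul_le_mul_iff_right (ENNReal.ofReal_pos.2 (by positivity)).ne'
    ENNReal.ofReal_ne_top).1 h1

variable {a : Fin k → ℕ} {lam : ℝ}

theorem pow_le_exp_tm (a : Fin k → ℕ) (lam : ℝ) (z : Cm k) (i : Fin k) :
    ‖z i‖ ^ (2 * a i) ≤ Real.exp (tm a lam z) := by
  rw [tm, Real.exp_log (tm_pos a lam z)]
  exact (Finset.single_le_sum (f := fun i => ‖z i‖ ^ (2 * a i)) (fun _ _ => by positivity)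
    (Finset.mem_univ i)).trans (le_add_of_nonneg_left (Real.exp_pos _).le)

theorem mFS_eq (k : ℕ) : mFS k = ENNReal.ofReal (mR k) :=
  (ENNReal.ofReal_toReal (mFS_ne_top k)).symm

theorem tm_total' (ha : ∀ i, 1 ≤ a i) (lam : ℝ) :
    ∫⁻ z, mad (tm a lam) z = ENNReal.ofReal (mR k * ∏ i, (a i : ℝ)) := by
  rw [tm_total ha, mFS_eq, ← Nat.cast_prod, ENNReal.ofReal_mul (mR_pos k).le, ENNReal.ofReal_natCast,
    mul_comm]

/-- the mass on a small polydisc -/
theorem tm_disc (k : ℕ) {η : ℝ} (hη : 0 < η) : ∃ K > (0 : ℝ), ∀ a : Fin k → ℕ, (∀ i, 1 ≤ a i) →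
    ∀ (lam : ℝ) (s : Fin k → ℝ), (∀ i, K ≤ lam - a i * s i) →
      ENNReal.ofReal ((1 - η) * mR k * ∏ i, (a i : ℝ)) ≤
        ∫⁻ z in {z | ∀ i, ‖z i‖ ^ 2 ≤ Real.exp (-s i)}, mad (tm a lam) z := by
  obtain ⟨K, h0, hK⟩ := tm_good k (mul_pos hη (mR_pos k))
  refine ⟨K, h0, fun a ha lam s hs => ?_⟩
  refine le_trans ?_ (lintegral_mono_set (s := tmGood a lam K) fun z hz i => ?_)
  · simp only [mad]
    rw [← ofReal_integral_eq_lintegral_ofReal (tm_int ha lam).1.integrableOn
      (ae_of_all _ (det_tm_nonneg a lam))]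
    exact ENNReal.ofReal_le_ofReal (le_of_eq_of_le (by ring) (hK K le_rfl a ha lam))
  · refine (pow_le_pow_iff_left₀ (sq_nonneg _) (Real.exp_pos _).le (Nat.one_le_iff_ne_zero.1 (ha i))).1 ?_
    rw [← pow_mul, ← Real.exp_nat_mul]
    exact (hz i).2.trans (Real.exp_le_exp.2 (by linarith [hs i]))

/-- a bound of the density at all the points -/
theorem det_tm_le_exp (ha : ∀ i, 1 ≤ a i) (lam : ℝ) (z : Cm k) :
    (cHess (tm a lam) z).det.re ≤ ∏ i, (a i : ℝ) ^ 2 * Real.exp (lam / a i) := by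
  have h0 := tm_pos a lam z
  set S := Real.exp (-lam) + ∑ i, ‖z i‖ ^ (2 * a i) with hS
  have h1 : Real.exp (-lam) ≤ S := le_add_of_nonneg_right (by positivity)
  have h2 : ∀ i, ‖z i‖ ^ (2 * (a i - 1)) ≤ Real.exp (lam / a i) * S := fun i => by
    have h3 : ‖z i‖ ^ (2 * a i) ≤ S := (pow_le_exp_tm a lam z i).trans_eq (Real.exp_log h0)
    have h4 : (a i : ℝ) ≠ 0 := Nat.cast_ne_zero.2 (Nat.one_le_iff_ne_zero.1 (ha i))
    obtain ⟨m, hm⟩ : ∃ m, a i = m + 1 := ⟨a i - 1, by have := ha i; omega⟩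
    rw [hm, Nat.add_sub_cancel, ← hm, pow_mul]
    rcases le_total (‖z i‖ ^ 2) (Real.exp (-(lam / a i))) with h | h
    · refine (pow_le_pow_left₀ (sq_nonneg _) h m).trans (le_trans (le_of_eq ?_)
        (mul_le_mul_of_nonneg_left h1 (Real.exp_pos _).le))
      rw [← Real.exp_nat_mul, ← Real.exp_add]
      congr 1
      have h5 : (m : ℝ) = a i - 1 := by rw [hm]; push_cast; ring
      rw [h5]
      field_simp
      ring
    · rw [← div_le_iff₀' (Real.exp_pos _), div_eq_mul_inv, ← Real.exp_neg]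
      refine (mul_le_mul_of_nonneg_left h (by positivity)).trans (le_of_eq_of_le ?_ h3)
      rw [← pow_succ, ← pow_mul, hm]
  rw [det_tm, Complex.ofReal_re, ← hS, div_le_iff₀ (by positivity), pow_succ, ← mul_assoc, mul_comm]
  refine mul_le_mul ?_ h1 (Real.exp_pos _).le (by positivity)
  rw [show S ^ k = ∏ _i : Fin k, S by simp, ← Finset.prod_mul_distrib]
  exact Finset.prod_le_prod (fun _ _ => by positivity) fun i _ =>
    mul_assoc ((a i : ℝ) ^ 2) _ _ ▸ mul_le_mul_of_nonneg_left (h2 i) (sq_nonneg _)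

/-- the mass of a perturbation on the deep part -/
theorem tm_deep (ha : ∀ i, 1 ≤ a i) (lam : ℝ) {c e K : ℝ} (hc : 0 ≤ c) (he : 0 < e) (hK : 0 ≤ K)
    (h : c * k + e ≤ e * K) :
    ∫⁻ z in {z | tm a lam z < -K}, ENNReal.ofReal (cHess (tm a lam) z + (c : ℂ) • (1 : Mx k)).det.re ≤
      ENNReal.ofReal ((1 + e) ^ k * mR k * ∏ i, (a i : ℝ)) := by
  have hu : ∀ z, SP (tm a lam) z := fun z => ⟨(tm_smooth a lam).contDiffAt, tm_psd a lam z⟩
  have hn : ∀ z : Cm k, SP (fun w => nsq (w - 0)) z := fun z =>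
    ⟨(J.sm_nsq 0).contDiffAt, J.hess_nsq 0 z ▸ Matrix.PosSemidef.one⟩
  have h1 : ∀ (z : Cm k) {t : ℝ}, t < 0 → (∀ i, ‖z i‖ ^ (2 * a i) ≤ Real.exp t) → z ∈ ball 0 1 :=
    fun z t ht hz => mem_ball_zero_iff.2 ((pi_norm_lt_iff one_pos).2 fun i => not_le.1 fun h' =>
      ((hz i).trans_lt (Real.exp_lt_one_iff.2 ht)).not_ge (one_le_pow₀ h'))
  have h2 := mc_flat (D := ball 0 1) (K := {z | ∀ i, ‖z i‖ ^ (2 * a i) ≤ Real.exp (-1)})
    (a := fun z => tm a lam z + c * nsq (z - 0)) (b := fun z => (1 + e) * tm a lam z + e * K)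
    isOpen_ball ((isCompact_closedBall 0 1).of_isClosed_subset (by
      simp only [ofPred_forall]
      exact isClosed_iInter fun i => isClosed_le (by fun_prop) (by fun_prop))
      fun z hz => ball_subset_closedBall (h1 z neg_one_lt_zero hz))
    (fun z hz => h1 z neg_one_lt_zero hz) (fun z _ => (hu z).add ((hn z).const_mul hc))
    (fun z _ => ((hu z).const_mul (by positivity)).add_const _) fun z hz i => by
      refine (pow_le_exp_tm a lam z i).trans (Real.exp_le_exp.2 (le_of_mul_le_mul_left ?_ he))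
      have h3 : ‖z‖ ^ 2 ≤ 1 := pow_le_one₀ (norm_nonneg _) (mem_ball_zero_iff.1 hz.1).le
      have h4 := mul_le_mul_of_nonneg_left
        ((P284Z.K.nsq_le z).trans (mul_le_of_le_one_right k.cast_nonneg h3)) hc
      have h5 := hz.2
      rw [sub_zero] at h5
      linarith
  refine le_trans ?_ (h2.trans ((setLIntegral_le_lintegral _ _).trans_eq ?_))
  · refine le_of_eq_of_le (lintegral_congr fun z => ?_) (lintegral_mono_set fun z hz =>
      ⟨h1 z (hz.trans_le (neg_nonpos.2 hK)) (pow_le_exp_tm a lam z), ?_⟩)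
    · rw [mad, C2.cHess_add (two (hu z).sm) (two ((hn z).const_mul hc).sm),
        C2.cHess_const_mul c (two (hn z).sm), J.hess_nsq]
    · have h3 := mul_nonneg hc (J.nsq_nonneg (z - 0))
      have h4 := mul_lt_mul_of_pos_left (show tm a lam z < -K from hz) he
      linarith
  · rw [mul_assoc, ENNReal.ofReal_mul (by positivity), ← tm_total' ha lam,
      ← lintegral_const_mul' _ _ ENNReal.ofReal_ne_top]
    refine lintegral_congr fun z => ?_
    rw [← mad_smul (by positivity) (two (hu z).sm), mad, mad,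
      C2.cHess_add (two ((hu z).const_mul (by positivity)).sm) contDiffAt_const, C2.cHess_const,
      add_zero]

end Vale.Agent.P284Y.Lib
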